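import Crest.Agent.R239.Defs

/-!
# Row 239: consequences of the tree axioms

`hi_lo`: if `p := lo j r ≥ 1` had `p < hi j p` then `p + 1` would lie in the nodes of `p` and of `r`,
so `lo j p = lo j r = p`, against `lo_lt`.
`kids`: `a := lo j r`, `b := hi j r`, `s 0 := a`, `s (i+1) := if s i < b then hi (j+1) (s i + 1) else b`,
`n := b - a`. If `s i < b` then `lo (j+1) (s i + 1) = s i` and `s i < s (i+1) ≤ b`.
-/

set_option autoImplicit false

namespace Crest.Agent.R239

open Finset Classical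

variable {N d L : ℕ} {F : ℕ → ℕ → ℝ} {lo hi : ℕ → ℕ → ℕ}

theorem Tree.lo_mono' (T : Tree N d L F lo hi) {j j' r : ℕ} (hj : j ≤ j') (h1 : 1 ≤ r)
    (hN : r ≤ N) : lo j r ≤ lo j' r := by
  induction j', hj using Nat.le_induction with
  | base => exact le_rfl
  | succ k _ ih => exact ih.trans (T.lo_mono k r h1 hN)

theorem Tree.hi_anti' (T : Tree N d L F lo hi) {j j' r : ℕ} (hj : j ≤ j') (h1 : 1 ≤ r)
    (hN : r ≤ N) : hi j' r ≤ hi j r := by
  induction j', hj using Nat.le_induction with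
  | base => exact le_rfl
  | succ k _ ih => exact (T.hi_anti k r h1 hN).trans ih

/-- The same node at depth `j` means the same node at every smaller depth. -/
theorem Tree.same' (T : Tree N d L F lo hi) {h j r t : ℕ} (hj : h ≤ j) (h1 : 1 ≤ r) (hN : r ≤ N)
    (ht : lo j r < t) (ht' : t ≤ hi j r) : lo h t = lo h r ∧ hi h t = hi h r := by
  exact T.same h r t h1 hN ((T.lo_mono' hj h1 hN).trans_lt ht) (ht'.trans (T.hi_anti' hj h1 hN))

/-- The left end determines the node. -/
theorem Tree.hi_eq_of_lo_eq (T : Tree N d L F lo hi) {j r t : ℕ} (h1 : 1 ≤ r) (hN : r ≤ N)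
    (ht1 : 1 ≤ t) (htN : t ≤ N) (h : lo j t = lo j r) : hi j t = hi j r := by
  have a1 := T.lo_lt j r h1 hN
  have a2 := T.le_hi j r h1 hN
  have a3 := T.lo_lt j t ht1 htN
  have a4 := T.le_hi j t ht1 htN
  rw [← (T.same j r (lo j r + 1) h1 hN (by omega) (by omega)).2,
    ← (T.same j t (lo j r + 1) ht1 htN (by omega) (by omega)).2]

theorem Tree.hi_lo (T : Tree N d L F lo hi) {j r : ℕ} (h1 : 1 ≤ r) (hN : r ≤ N)
    (hp : 1 ≤ lo j r) : hi j (lo j r) = lo j r := by
  have a1 := T.lo_lt j r h1 hN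
  have a2 := T.le_hi j r h1 hN
  have a3 := T.lo_lt j (lo j r) hp (by omega)
  have a4 := T.le_hi j (lo j r) hp (by omega)
  by_contra hc
  have a5 := (T.same j r (lo j r + 1) h1 hN (by omega) (by omega)).1
  have a6 := (T.same j (lo j r) (lo j r + 1) hp (by omega) (by omega) (by omega)).1
  omega

/-- A point to the right of the node of `r` has its node to the right. -/
theorem Tree.hi_le_lo (T : Tree N d L F lo hi) {j r t : ℕ} (h1 : 1 ≤ r) (hN : r ≤ N)
    (ht : hi j r < t) (htN : t ≤ N) : hi j r ≤ lo j t := by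
  have a1 := T.lo_lt j r h1 hN
  have a2 := T.le_hi j r h1 hN
  have a4 := T.le_hi j t (by omega) htN
  by_contra hc
  have a5 := (T.same j r (hi j r) h1 hN (by omega) le_rfl).2
  have a6 := (T.same j t (hi j r) (by omega) htN (by omega) (by omega)).2
  omega

/-- The shells `(hi (j+1) r, hi j r]`, `j ≤ L`, cover `(r, N]`. -/
theorem Tree.shell (T : Tree N d L F lo hi) {r t : ℕ} (h1 : 1 ≤ r) (ht : r < t) (htN : t ≤ N) :
    ∃ j, j ≤ L ∧ hi (j + 1) r < t ∧ t ≤ hi j r := by
  have key : ∀ m, hi m r < t → ∃ j, j < m ∧ hi (j + 1) r < t ∧ t ≤ hi j r := by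
    intro m
    induction m with
    | zero => intro h; rw [(T.root r h1 (by omega)).2] at h; omega
    | succ m ih =>
      intro h
      rcases lt_or_ge (hi m r) t with h' | h'
      · obtain ⟨j, a, b⟩ := ih h'
        exact ⟨j, by omega, b⟩
      · exact ⟨m, by omega, h, h'⟩
  obtain ⟨j, a, b⟩ := key (L + 1) (by rwa [(T.bottom r h1 (by omega)).2])
  exact ⟨j, by omega, b⟩

/-- The shells are disjoint. -/
theorem Tree.shell_unique (T : Tree N d L F lo hi) {r t j j' : ℕ} (h1 : 1 ≤ r) (hN : r ≤ N)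
    (h : hi (j + 1) r < t) (h' : t ≤ hi j r) (k : hi (j' + 1) r < t) (k' : t ≤ hi j' r) :
    j = j' := by
  rcases lt_trichotomy j j' with c | c | c
  · have := T.hi_anti' (show j + 1 ≤ j' from c) h1 hN
    omega
  · exact c
  · have := T.hi_anti' (show j' + 1 ≤ j from c) h1 hN
    omega

theorem Tree.kids (T : Tree N d L F lo hi) {j r : ℕ} (hj : j < L) (h1 : 1 ≤ r) (hN : r ≤ N) :
    ∃ (n : ℕ) (s : ℕ → ℕ), Kids F (lo j r) (hi j r) n s ∧
      (∀ r', lo j r < r' → r' ≤ hi j r →
        ∃ i, i < n ∧ s i < r' ∧ r' ≤ s (i + 1) ∧ s (i + 1) = hi (j + 1) r') ∧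
      ∀ i t, s i < t → t ≤ hi j r → s i ≤ lo (j + 1) t := by
  have a1 := T.lo_lt j r h1 hN
  have a2 := T.le_hi j r h1 hN
  have a3 := T.hi_le j r h1 hN
  obtain ⟨s, s0, ss⟩ : ∃ s : ℕ → ℕ, s 0 = lo j r ∧
      ∀ i, s (i + 1) = if s i < hi j r then hi (j + 1) (s i + 1) else hi j r :=
    ⟨fun i => Nat.rec (lo j r)
      (fun _ x => if x < hi j r then hi (j + 1) (x + 1) else hi j r) i, rfl, fun _ => rfl⟩
  have st : ∀ x, lo j r ≤ x → x < hi j r →
      x < hi (j + 1) (x + 1) ∧ hi (j + 1) (x + 1) ≤ hi j r := fun x h h' =>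
    ⟨T.le_hi (j + 1) (x + 1) (by omega) (by omega),
      (T.hi_anti j (x + 1) (by omega) (by omega)).trans
        (T.same j r (x + 1) h1 hN (by omega) (by omega)).2.le⟩
  have inv : ∀ i, min (lo j r + i) (hi j r) ≤ s i ∧ s i ≤ hi j r ∧
      (s i < hi j r → lo (j + 1) (s i + 1) = s i) := by
    intro i
    induction i with
    | zero =>
      rw [s0]
      refine ⟨min_le_left _ _, by omega, fun h => ?_⟩
      have b1 := T.lo_mono j (lo j r + 1) (by omega) (by omega)
      have b2 := (T.same j r (lo j r + 1) h1 hN (by omega) (by omega)).1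
      have b3 := T.lo_lt (j + 1) (lo j r + 1) (by omega) (by omega)
      omega
    | succ i ih =>
      obtain ⟨b1, b2, -⟩ := ih
      rw [ss]
      split_ifs with h
      · obtain ⟨c1, c2⟩ := st (s i) (by omega) h
        refine ⟨by omega, c2, fun h' => ?_⟩
        have c3 := T.hi_le_lo (j := j + 1) (r := s i + 1) (t := hi (j + 1) (s i + 1) + 1)
          (by omega) (by omega) (by omega) (by omega)
        have c4 := T.lo_lt (j + 1) (hi (j + 1) (s i + 1) + 1) (by omega) (by omega)
        omega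
      · exact ⟨min_le_right _ _, le_rfl, fun h' => absurd h' (lt_irrefl _)⟩
  have last : s (hi j r - lo j r) = hi j r := by
    obtain ⟨b1, b2, -⟩ := inv (hi j r - lo j r)
    omega
  refine ⟨hi j r - lo j r, s, ⟨s0, last, monotone_nat_of_le_succ fun i => ?_, fun i => (inv i).2.1,
    fun i h => ?_⟩, fun r' h h' => ?_, fun i t h h' => ?_⟩
  · obtain ⟨b1, b2, -⟩ := inv i
    rw [ss]
    split_ifs with h
    · exact (st (s i) (by omega) h).1.le
    · exact b2
  · obtain ⟨b1, b2, b3⟩ := inv i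
    rw [ss] at h ⊢
    split_ifs at h ⊢ with h'
    · obtain ⟨c1, c2⟩ := T.same j r (s i + 1) h1 hN (by omega) (by omega)
      have := T.complete j (s i + 1) hj (by omega) (by omega) (by omega)
      rwa [c1, c2, b3 h'] at this
    · omega
  · have key : ∀ m, r' ≤ s m → ∃ i, i < m ∧ s i < r' ∧ r' ≤ s (i + 1) := by
      intro m
      induction m with
      | zero => intro hm; omega
      | succ m ih =>
        intro hm
        rcases le_or_gt r' (s m) with c | c
        · obtain ⟨i, c1, c2⟩ := ih c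
          exact ⟨i, by omega, c2⟩
        · exact ⟨m, by omega, c, hm⟩
    obtain ⟨i, c1, c2, c3⟩ := key _ (last.symm ▸ h')
    refine ⟨i, c1, c2, c3, ?_⟩
    have c4 := (inv i).2.2 (by omega)
    rw [ss, if_pos (by omega)] at c3 ⊢
    exact (T.same (j + 1) (s i + 1) r' (by omega) (by omega) (by omega) c3).2.symm
  · have c4 := (inv i).2.2 (by omega)
    by_contra hc
    have c5 := T.le_hi (j + 1) t (by omega) (by omega)
    have c6 := (T.same (j + 1) t (s i + 1) (by omega) (by omega) (by omega) (by omega)).1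
    omega

end Crest.Agent.R239
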