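import Crest.Agent.R239.DatB
import Crest.Agent.R239.TreeB

/-!
# Row 239: the budget of the far parts

Write `l h = lo h r`, `u h = hi h r`. `cnt lo j r q ≤ 1 + #{h < j | l h < l (h+1), q ≤ l h}` (at most one
`h` has `l h < q ≤ l (h+1)`). The term `1` contributes `∑_j mass (rect 0 (l j) (u (j+1)) (u j)) ≤
mass (rect 0 r r N) ≤ d` (`sum_mass_le`, `shell_unique`, `Dat.corner`). For fixed `h < L` with
`l h < p := l (h+1)` the shells `j > h` contribute at most `mass (rect 0 (l h) p (u h))`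
(rows `> u (j+1) ≥ r > p`, `≤ u j ≤ u h`) `≤ F (l h) p - F (l h) (u h) ≤ F (lo (h+1) p) p - F (l h) (u h)
≤ 1/2`, by `complete` at the point `p` (`hi (h+1) p = p < hi h p = u h` by `hi_lo`, `same`;
`l h = lo h p ≤ lo (h+1) p`).
-/

set_option autoImplicit false

namespace Crest.Agent.R239

open Finset Classical

variable {B N d L : ℕ} {ν g F : ℕ → ℕ → ℝ} {lo hi : ℕ → ℕ → ℕ}

namespace BudX

theorem cnt_le (T : Tree N d L F lo hi) {r : ℕ} (h1 : 1 ≤ r) (hN : r ≤ N) (j q : ℕ) :
    (cnt lo j r q : ℝ) ≤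
      1 + ∑ h ∈ range j, if lo h r < lo (h + 1) r ∧ q ≤ lo h r then (1 : ℝ) else 0 := by
  have hsub : (range j).filter (fun h => lo h r < lo (h + 1) r ∧ q ≤ lo (h + 1) r) ⊆
      (range j).filter (fun h => lo h r < q ∧ q ≤ lo (h + 1) r) ∪
        (range j).filter (fun h => lo h r < lo (h + 1) r ∧ q ≤ lo h r) := by
    intro a ha
    simp only [mem_filter, mem_union] at ha ⊢
    by_cases hq : q ≤ lo a r
    · exact Or.inr ⟨ha.1, ha.2.1, hq⟩
    · exact Or.inl ⟨ha.1, by omega, ha.2.2⟩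
  have hone : ((range j).filter (fun h => lo h r < q ∧ q ≤ lo (h + 1) r)).card ≤ 1 := by
    rw [Finset.card_le_one]
    intro a ha b hb
    simp only [mem_filter] at ha hb
    by_contra hne
    rcases Nat.lt_or_gt_of_ne hne with hlt | hlt
    · have := T.lo_mono' (j := a + 1) (j' := b) hlt h1 hN
      omega
    · have := T.lo_mono' (j := b + 1) (j' := a) hlt h1 hN
      omega
  have h2 := (Finset.card_le_card hsub).trans (Finset.card_union_le _ _)
  rw [Finset.sum_boole]
  unfold cnt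
  exact_mod_cast h2.trans (Nat.add_le_add_right hone _)

theorem bud_le (h : Dat N d ν g F) (T : Tree N d L F lo hi) {r : ℕ} (h1 : 1 ≤ r) (hN : r ≤ N) (j : ℕ) :
    bud B ν lo hi j r ≤ mass B ν (rect 0 (lo j r) (hi (j + 1) r) (hi j r)) +
      ∑ k ∈ range j, mass B ν (fun t q => lo k r < lo (k + 1) r ∧
        rect 0 (lo k r) (hi (j + 1) r) (hi j r) t q) := by
  unfold bud mass
  rw [Finset.sum_comm (s := range j), ← Finset.sum_add_distrib]
  apply Finset.sum_le_sum; intro t _
  rw [Finset.sum_comm (s := range j), ← Finset.sum_add_distrib]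
  apply Finset.sum_le_sum; intro q _
  have hν := h.ν_nonneg t q
  by_cases hR : rect 0 (lo j r) (hi (j + 1) r) (hi j r) t q
  · rw [if_pos hR, if_pos hR]
    calc ν t q * (cnt lo j r q : ℝ) ≤ ν t q * (1 + ∑ h ∈ range j,
          if lo h r < lo (h + 1) r ∧ q ≤ lo h r then (1 : ℝ) else 0) :=
          mul_le_mul_of_nonneg_left (cnt_le T h1 hN j q) hν
      _ = _ := by
          rw [mul_add, mul_one, Finset.mul_sum]
          congr 1
          apply Finset.sum_congr rfl; intro k _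
          by_cases hk : lo k r < lo (k + 1) r ∧ q ≤ lo k r
          · rw [if_pos hk, if_pos ⟨hk.1, hR.1, hk.2, hR.2.2⟩, mul_one]
          · rw [if_neg hk, if_neg (fun hh => hk ⟨hh.1, hh.2.2.1⟩), mul_zero]
  · rw [if_neg hR, if_neg hR, zero_add]
    exact Finset.sum_nonneg fun k _ => by split_ifs <;> simp [hν]

theorem half (h : Dat N d ν g F) (hB : N < B) (T : Tree N d L F lo hi) {r : ℕ} (h1 : 1 ≤ r)
    (hN : r ≤ N) {k : ℕ} (hk : k < L) :
    ∑ j ∈ (range (L + 1)).filter (fun j => k < j), mass B ν (fun t q => lo k r < lo (k + 1) r ∧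
      rect 0 (lo k r) (hi (j + 1) r) (hi j r) t q) ≤ 1 / 2 := by
  by_cases hl : lo k r < lo (k + 1) r
  · have hp : lo (k + 1) r < r := T.lo_lt _ _ h1 hN
    have hu : r ≤ hi k r := T.le_hi _ _ h1 hN
    have huN : hi k r ≤ N := T.hi_le _ _ h1 hN
    have e1 := T.hi_lo (j := k + 1) h1 hN (by omega)
    obtain ⟨e2, e3⟩ := T.same k r (lo (k + 1) r) h1 hN hl (by omega)
    have c := T.complete k (lo (k + 1) r) hk (by omega) (by omega) (by omega)
    rw [e1, e2, e3] at c
    have m1 : lo k r ≤ lo (k + 1) (lo (k + 1) r) := by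
      have := T.lo_mono k (lo (k + 1) r) (by omega) (by omega)
      omega
    have m2 : lo (k + 1) (lo (k + 1) r) ≤ lo (k + 1) r := (T.lo_lt _ _ (by omega) (by omega)).le
    have m3 := h.F_mono m1 m2
    have m4 := h.mass_rect_le hB (Nat.zero_le (lo k r)) hl.le (by omega : lo (k + 1) r ≤ hi k r) huN
    have m5 := sum_mass_le (B := B) h.ν_nonneg ((range (L + 1)).filter (fun j => k < j))
      (rect 0 (lo k r) (lo (k + 1) r) (hi k r))
      (fun j t q => lo k r < lo (k + 1) r ∧ rect 0 (lo k r) (hi (j + 1) r) (hi j r) t q)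
      (fun j hj t q hh => by
        have a1 := T.le_hi (j + 1) r h1 hN
        have a2 := T.hi_anti' (mem_filter.1 hj).2.le h1 hN
        obtain ⟨-, b1, b2, b3, b4⟩ := hh
        exact ⟨b1, b2, by omega, by omega⟩)
      (fun i _ j _ t q hi' hj' =>
        T.shell_unique h1 hN hi'.2.2.2.1 hi'.2.2.2.2 hj'.2.2.2.1 hj'.2.2.2.2)
    linarith
  · rw [Finset.sum_eq_zero fun j _ => mass_empty fun t q _ _ hh => hl hh.1]
    norm_num

end BudX

theorem bud_sum (h : Dat N d ν g F) (hB : N < B) (T : Tree N d L F lo hi) {r : ℕ} (h1 : 1 ≤ r)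
    (hN : r ≤ N) : ∑ j ∈ range (L + 1), bud B ν lo hi j r ≤ d + L / 2 := by
  have a1 : ∑ j ∈ range (L + 1), mass B ν (rect 0 (lo j r) (hi (j + 1) r) (hi j r)) ≤ d := by
    refine (sum_mass_le (B := B) h.ν_nonneg (range (L + 1)) (rect 0 r r N)
      (fun j => rect 0 (lo j r) (hi (j + 1) r) (hi j r)) ?_ ?_).trans (h.corner hB hN)
    · intro j _ t q hh
      have b1 := T.lo_lt j r h1 hN
      have b2 := T.le_hi (j + 1) r h1 hN
      have b3 := T.hi_le j r h1 hN
      obtain ⟨c1, c2, c3, c4⟩ := hh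
      exact ⟨c1, by omega, by omega, by omega⟩
    · intro i _ j _ t q hi' hj'
      exact T.shell_unique h1 hN hi'.2.2.1 hi'.2.2.2 hj'.2.2.1 hj'.2.2.2
  have a2 : ∑ j ∈ range (L + 1), ∑ k ∈ range j, mass B ν (fun t q => lo k r < lo (k + 1) r ∧
        rect 0 (lo k r) (hi (j + 1) r) (hi j r) t q) ≤ L / 2 := by
    rw [Finset.sum_comm' (t' := range L) (s' := fun k => (range (L + 1)).filter (fun j => k < j))
      (by intro j k; simp only [mem_range, mem_filter]; omega)]
    calc _ ≤ ∑ _k ∈ range L, (1 / 2 : ℝ) :=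
          Finset.sum_le_sum fun k hk => BudX.half h hB T h1 hN (mem_range.1 hk)
      _ = L / 2 := by rw [Finset.sum_const, card_range, nsmul_eq_mul]; ring
  calc _ ≤ _ := Finset.sum_le_sum fun j _ => BudX.bud_le h T h1 hN j
    _ ≤ _ := by rw [Finset.sum_add_distrib]; exact add_le_add a1 a2

end Crest.Agent.R239
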