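import Crest.Agent.R239.SysB

/-!
# Row 239: dyadic classes of column prefixes and row suffixes

`clsCol`: choose `K` with `mass R ≤ 2 ^ K`; for `k ≤ K` the label
`R k t q := R t q ∧ mass (R ∧ column ≤ q) ≤ 2 ^ k` with `A = m = 2 ^ k` (its mass is at most `2 ^ k`: look at
its largest column below `B`); cost `∑ 2 ^ (-k) ≤ 2`. For `x`, take the least `k` with
`μ := mass (R ∧ q ≤ x) ≤ 2 ^ k`; then `2 ^ k ≤ 2 μ + 1` and `R ∧ q ≤ x = R k ∧ q ≤ x`.
`clsRow`: labels `R k t q := R t q ∧ mass (R ∧ t ≤ row) ≤ 2 ^ k φ`, `m = 2 ^ k φ`, `A = lam 2 ^ k φ`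
(look at the smallest row); for `c` take the least `k` with `μ := mass (R ∧ c < t) ≤ 2 ^ k φ`; then
`2 ^ k φ ≤ 2 μ + φ`, `R ∧ c < t = R k ∧ c < t`; use `nrm_rows_le` and `Good.nrm_le`.
Use `Sys.single`, `Sys.all`, `Sys.mono`.
-/

set_option autoImplicit false

namespace Crest.Agent.R239

open Finset Classical

variable {B : ℕ} {ν : ℕ → ℕ → ℝ}

namespace ClsX

theorem pick {μ φ : ℝ} (hμ : 0 ≤ μ) (K : ℕ) (h : μ ≤ 2 ^ K * φ) :
    ∃ k ∈ range (K + 1), μ ≤ 2 ^ k * φ ∧ 2 ^ k * φ ≤ 2 * μ + φ := by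
  induction K with
  | zero => exact ⟨0, by simp, h, by linarith⟩
  | succ K ih =>
    by_cases h1 : μ ≤ 2 ^ K * φ
    · obtain ⟨k, hk, h2⟩ := ih h1
      exact ⟨k, mem_range.2 ((mem_range.1 hk).trans (Nat.lt_succ_self _)), h2⟩
    · refine ⟨K + 1, mem_range.2 (Nat.lt_succ_self _), h, ?_⟩
      have h2 : 0 ≤ φ := by
        by_contra h3
        have : (2 : ℝ) ^ (K + 1) * φ < 0 := mul_neg_of_pos_of_neg (by positivity) (not_le.1 h3)
        linarith
      rw [pow_succ]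
      linarith

theorem exists_K (M : ℝ) {φ : ℝ} (hφ : 0 < φ) : ∃ K : ℕ, M ≤ 2 ^ K * φ := by
  obtain ⟨K, hK⟩ := pow_unbounded_of_one_lt (M / φ) (one_lt_two (α := ℝ))
  exact ⟨K, ((div_lt_iff₀ hφ).1 hK).le⟩

theorem cost (P : Prop) (Q : ℕ → Prop) (K : ℕ) {c : ℝ} (hc : 0 ≤ c) (f : ℕ → ℝ)
    (hf : ∀ k, f k = c * (1 / 2) ^ k) :
    ∑ k ∈ range K, (if P ∧ Q k then f k else 0) ≤ if P then 2 * c else 0 := by
  by_cases hP : P
  · rw [if_pos hP, mul_comm]
    refine le_trans (sum_le_sum fun k _ => ?_) ((mul_sum _ _ _).symm.trans_le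
      (mul_le_mul_of_nonneg_left (sum_geometric_two_le K) hc))
    split_ifs
    · exact (hf k).le
    · positivity
  · simp [hP]

theorem massCol (hν : ∀ t q, 0 ≤ ν t q) (R : Reg) {m : ℝ} (hm : 0 ≤ m) :
    mass B ν (fun t q => R t q ∧ mass B ν (fun t' q' => R t' q' ∧ q' ≤ q) ≤ m) ≤ m := by
  rcases ((range B).filter fun q => mass B ν (fun t' q' => R t' q' ∧ q' ≤ q) ≤ m).eq_empty_or_nonempty
    with h | h
  · rw [mass_empty fun t q _ hq hR => filter_eq_empty_iff.1 h (mem_range.2 hq) hR.2]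
    exact hm
  · refine (mass_mono hν fun t q _ hq hR => ⟨hR.1, ?_⟩).trans (mem_filter.1 (max'_mem _ h)).2
    exact le_max' _ q (mem_filter.2 ⟨mem_range.2 hq, hR.2⟩)

theorem massRow (hν : ∀ t q, 0 ≤ ν t q) (R : Reg) {m : ℝ} (hm : 0 ≤ m) :
    mass B ν (fun t q => R t q ∧ mass B ν (fun t' q' => R t' q' ∧ t ≤ t') ≤ m) ≤ m := by
  rcases ((range B).filter fun t => mass B ν (fun t' q' => R t' q' ∧ t ≤ t') ≤ m).eq_empty_or_nonempty
    with h | h
  · rw [mass_empty fun t q ht _ hR => filter_eq_empty_iff.1 h (mem_range.2 ht) hR.2]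
    exact hm
  · refine (mass_mono hν fun t q ht _ hR => ⟨hR.1, ?_⟩).trans (mem_filter.1 (min'_mem _ h)).2
    exact min'_le _ t (mem_filter.2 ⟨mem_range.2 ht, hR.2⟩)

end ClsX

open ClsX

theorem clsCol (hν : ∀ t q, 0 ≤ ν t q) (R : Reg) :
    Sys B ν (fun t q => if R t q then 2 else 0) (fun y D => ∀ x : ℕ,
      nrm B y (fun t q => R t q ∧ q ≤ x) ≤ D * (2 * mass B ν (fun t q => R t q ∧ q ≤ x) + 1)) := by
  obtain ⟨K, hK⟩ := exists_K (mass B ν R) one_pos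
  refine (Sys.all (range (K + 1)) fun k _ => Sys.single hν
    (fun t q => R t q ∧ mass B ν (fun t' q' => R t' q' ∧ q' ≤ q) ≤ 2 ^ k * 1)
    (m := 2 ^ k * 1) (A := 2 ^ k * 1) (by positivity) (massCol hν R (by positivity)) le_rfl).mono
    (fun t q => ?_) fun y D hD hG x => ?_
  · have := cost (R t q) (fun k => mass B ν (fun t' q' => R t' q' ∧ q' ≤ q) ≤ 2 ^ k * 1) (K + 1)
      zero_le_one (fun k => (2 ^ k * 1) ^ 2 / (2 ^ k * 1) ^ 3) fun k => by
        rw [one_div, inv_pow]; field_simp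
    rw [mul_one 2] at this
    convert this
  · obtain ⟨k, hk, h1, h2⟩ := pick (mass_nonneg hν fun t q => R t q ∧ q ≤ x) K
      ((mass_mono hν fun t q _ _ h => h.1).trans hK)
    refine le_trans (le_of_eq (nrm_congr y fun t q _ _ => ?_))
      ((hG k hk x).trans (mul_le_mul_of_nonneg_left h2 hD))
    exact ⟨fun h => ⟨⟨h.1, (mass_mono hν fun t' q' _ _ h' => ⟨h'.1, h'.2.trans h.2⟩).trans h1⟩, h.2⟩,
      fun h => ⟨h.1.1, h.2⟩⟩

theorem clsRow (hν : ∀ t q, 0 ≤ ν t q) (R : Reg) {lam φ : ℝ} (hl : 1 ≤ lam) (hφ : 0 < φ) :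
    Sys B ν (fun t q => if R t q then 2 / (lam ^ 3 * φ) else 0) (fun y D => ∀ c : ℕ,
      nrm B y (fun t q => R t q ∧ c < t) ≤
        D * lam * (2 * mass B ν (fun t q => R t q ∧ c < t) + φ)) := by
  obtain ⟨K, hK⟩ := exists_K (mass B ν R) hφ
  have l0 : 0 < lam := by linarith
  refine (Sys.all (range (K + 1)) fun k _ => Sys.single hν
    (fun t q => R t q ∧ mass B ν (fun t' q' => R t' q' ∧ t ≤ t') ≤ 2 ^ k * φ)
    (m := 2 ^ k * φ) (A := lam * (2 ^ k * φ)) (by positivity) (massRow hν R (by positivity))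
    (le_mul_of_one_le_left (by positivity) hl)).mono (fun t q => ?_) fun y D hD hG c => ?_
  · have := cost (R t q) (fun k => mass B ν (fun t' q' => R t' q' ∧ t ≤ t') ≤ 2 ^ k * φ) (K + 1)
      (c := 1 / (lam ^ 3 * φ)) (by positivity)
      (fun k => (2 ^ k * φ) ^ 2 / (lam * (2 ^ k * φ)) ^ 3) fun k => by
        rw [one_div 2, inv_pow]; field_simp
    rw [mul_one_div 2] at this
    convert this
  · obtain ⟨k, hk, h1, h2⟩ := pick (mass_nonneg hν fun t q => R t q ∧ c < t) K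
      ((mass_mono hν fun t q _ _ h => h.1).trans hK)
    refine (nrm_rows_le y (fun t => c < t) fun t q _ _ => ?_).trans ((hG k hk).nrm_le.trans ?_)
    · exact ⟨fun h => ⟨⟨h.1, (mass_mono hν fun t' q' _ _ h' => ⟨h'.1, h.2.trans_le h'.2⟩).trans h1⟩,
        h.2⟩, fun h => ⟨h.1.1, h.2⟩⟩
    · rw [mul_assoc]
      exact mul_le_mul_of_nonneg_left (mul_le_mul_of_nonneg_left h2 l0.le) hD

end Crest.Agent.R239
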