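import Crest.Agent.R239.Cls
import Crest.Agent.R239.TreeB

/-!
# Row 239: the far parts of the shells

For `j ≤ L`, `α ≤ N`, `k ≤ L` let `R j α k t q := 1 ≤ t ∧ t ≤ N ∧ lo j t = α ∧ lo j t < lo (j+1) t ∧
1 ≤ q ∧ q ≤ α ∧ Nat.log 2 (cnt lo j t q) = k`; use `clsRow` with `φ = (1/2)^k`, `lam = (7/4)^k`.
Cost at `(t, q)`: `∑_{j ∈ J} 2 (128/343)^(log₂ (cnt j))` over the depths `J` with
`lo j t < lo (j+1) t`, `q ≤ lo j t`. On `J` the map `j ↦ cnt lo j t q` is strictly increasing and `≥ 1`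
(`lo 0 t = 0 < q ≤ lo j t`), so the sum is at most `∑_{c ≥ 1} 2 (128/343)^(log₂ c) =
∑_k 2 (256/343)^k ≤ 8`.
Query: with `α = lo j r`, `c = hi (j+1) r`: `R j α k ∧ c < t` is the part of
`rect 0 α c (hi j r)` where `log₂ (cnt lo j r q) = k` (`hi_eq_of_lo_eq`, `same'`, `hi_le_lo`: for `t` in the
shell `cnt lo j t q = cnt lo j r q` and `lo (j+1) t ≥ c ≥ r > α`); `cnt ≤ j ≤ L`, so `k ≤ L`.
`nrm_weighted` with `w k = (15/16)^k` (sum `≤ 16`): the term `k` is at most
`D (28/15)^k (2 m k + (1/2)^k) ≤ D (2 · 2^k m k + (14/15)^k)`, and `∑ 2^k m k ≤ bud` because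
`2^k ≤ cnt` on class `k`. Total `≤ 16 D (2 bud + 15)`.
-/

set_option autoImplicit false

namespace Crest.Agent.R239

open Finset Classical

theorem far_geom {r : ℝ} (h0 : 0 ≤ r) (h1 : r < 1) (K : ℕ) :
    ∑ k ∈ range K, r ^ k ≤ 1 / (1 - r) := by
  rw [geom_sum_eq h1.ne, ← neg_sub 1 (r ^ K), ← neg_sub 1 r, neg_div_neg_eq]
  have : 0 ≤ r ^ K := pow_nonneg h0 K
  exact div_le_div_of_nonneg_right (by linarith) (by linarith)

theorem far_sum_log (x : ℝ) (K : ℕ) :
    ∑ c ∈ Ico 1 (2 ^ K), x ^ Nat.log 2 c = ∑ k ∈ range K, (2 * x) ^ k := by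
  induction K with
  | zero => simp
  | succ K ih =>
    have h1 : 1 ≤ 2 ^ K := Nat.one_le_two_pow
    have h2 : 2 ^ K ≤ 2 ^ (K + 1) := Nat.pow_le_pow_right (by norm_num) (by omega)
    rw [← Finset.sum_Ico_consecutive _ h1 h2, ih, Finset.sum_range_succ]
    congr 1
    rw [Finset.sum_congr rfl (g := fun _ => x ^ K) (fun c hc => by
      have := Finset.mem_Ico.1 hc
      rw [Nat.log_eq_of_pow_le_of_lt_pow this.1 this.2])]
    rw [Finset.sum_const, Nat.card_Ico, nsmul_eq_mul, pow_succ, mul_pow]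
    have : 2 ^ K * 2 - 2 ^ K = 2 ^ K := by omega
    rw [this]
    push_cast
    ring

theorem far_sum_inj {ι : Type} (J : Finset ι) (f : ι → ℕ) (hinj : Set.InjOn f J)
    (h1 : ∀ j ∈ J, 1 ≤ f j) : ∑ j ∈ J, 2 * (128 / 343 : ℝ) ^ Nat.log 2 (f j) ≤ 8 := by
  rw [← Finset.mul_sum, ← Finset.sum_image (g := f) (f := fun c => (128 / 343 : ℝ) ^ Nat.log 2 c)
    (fun a ha b hb h => hinj ha hb h)]
  have hsub : J.image f ⊆ Ico 1 (2 ^ (J.sup f)) := by
    intro c hc
    obtain ⟨j, hj, rfl⟩ := Finset.mem_image.1 hc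
    refine Finset.mem_Ico.2 ⟨h1 j hj, ?_⟩
    exact lt_of_lt_of_le (Nat.lt_two_pow_self)
      (Nat.pow_le_pow_right (by norm_num) (Finset.le_sup hj))
  have h2 := Finset.sum_le_sum_of_subset_of_nonneg hsub
    (f := fun c => (128 / 343 : ℝ) ^ Nat.log 2 c) (fun _ _ _ => by positivity)
  rw [far_sum_log] at h2
  have h3 := far_geom (r := 2 * (128 / 343)) (by norm_num) (by norm_num) (J.sup f)
  have h4 : (1 : ℝ) / (1 - 2 * (128 / 343)) ≤ 4 := by norm_num
  linarith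

theorem far_cross (f : ℕ → ℕ) (q : ℕ) (h0 : f 0 < q) :
    ∀ j, q ≤ f j → ∃ h, h < j ∧ f h < q ∧ q ≤ f (h + 1) := by
  intro j
  induction j with
  | zero => intro h; omega
  | succ j ih =>
    intro h
    by_cases hj : q ≤ f j
    · obtain ⟨k, hk, hk'⟩ := ih hj
      exact ⟨k, by omega, hk'⟩
    · exact ⟨j, by omega, by omega, h⟩

theorem cnt_pos {lo : ℕ → ℕ → ℕ} {j t q : ℕ} (h0 : lo 0 t = 0) (hq : 1 ≤ q) (h : q ≤ lo j t) :
    1 ≤ cnt lo j t q := by
  obtain ⟨k, hk, hk1, hk2⟩ := far_cross (fun h => lo h t) q (by simp only [h0]; omega) j h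
  refine Finset.card_pos.2 ⟨k, ?_⟩
  simp only [Finset.mem_filter, Finset.mem_range]
  exact ⟨hk, by omega, hk2⟩

theorem cnt_lt {lo : ℕ → ℕ → ℕ} {j j' t q : ℕ} (hj : j < j') (h1 : lo j t < lo (j + 1) t)
    (h : q ≤ lo j t) : cnt lo j t q < cnt lo j' t q := by
  refine Finset.card_lt_card ⟨?_, ?_⟩
  · intro k hk
    simp only [Finset.mem_filter, Finset.mem_range] at hk ⊢
    exact ⟨by omega, hk.2⟩
  · intro hs
    have : j ∈ (range j').filter fun h => lo h t < lo (h + 1) t ∧ q ≤ lo (h + 1) t := by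
      simp only [Finset.mem_filter, Finset.mem_range]
      exact ⟨hj, h1, by omega⟩
    have := hs this
    simp at this

theorem cnt_le (lo : ℕ → ℕ → ℕ) (j t q : ℕ) : cnt lo j t q ≤ j :=
  (Finset.card_filter_le _ _).trans (by simp)

/-- The base regions. -/
def FR (N : ℕ) (lo : ℕ → ℕ → ℕ) (j α k : ℕ) : Reg := fun t q =>
  1 ≤ t ∧ t ≤ N ∧ lo j t = α ∧ lo j t < lo (j + 1) t ∧ 1 ≤ q ∧ q ≤ α ∧
    Nat.log 2 (cnt lo j t q) = k

variable {B N d L : ℕ} {ν : ℕ → ℕ → ℝ} {F : ℕ → ℕ → ℝ} {lo hi : ℕ → ℕ → ℕ}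

theorem cnt_same (T : Tree N d L F lo hi) {j r t : ℕ} (h1 : 1 ≤ r) (hN : r ≤ N)
    (ht : lo j r < t) (ht' : t ≤ hi j r) (q : ℕ) : cnt lo j t q = cnt lo j r q := by
  unfold cnt
  congr 1
  refine Finset.filter_congr fun h hh => ?_
  have hh' := Finset.mem_range.1 hh
  rw [(T.same' (h := h) (by omega) h1 hN ht ht').1,
    (T.same' (h := h + 1) (by omega) h1 hN ht ht').1]

theorem FR_iff (T : Tree N d L F lo hi) {j r : ℕ} (h1 : 1 ≤ r) (hN : r ≤ N) (k t q : ℕ) :
    (FR N lo j (lo j r) k t q ∧ hi (j + 1) r < t) ↔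
      (rect 0 (lo j r) (hi (j + 1) r) (hi j r) t q ∧ Nat.log 2 (cnt lo j r q) = k) := by
  have a1 := T.lo_lt j r h1 hN
  have a2 := T.le_hi (j + 1) r h1 hN
  have a3 := T.hi_le j r h1 hN
  constructor
  · rintro ⟨⟨b1, b2, b3, b4, b5, b6, b7⟩, b8⟩
    have c1 := T.hi_eq_of_lo_eq h1 hN b1 b2 b3
    have c2 := T.le_hi j t b1 b2
    refine ⟨⟨by omega, b6, b8, by omega⟩, ?_⟩
    rw [← cnt_same T h1 hN (by omega : lo j r < t) (by omega) q]
    exact b7
  · rintro ⟨⟨b1, b2, b3, b4⟩, b5⟩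
    have c1 := (T.same j r t h1 hN (by omega) b4).1
    have c2 := T.hi_le_lo (j := j + 1) h1 hN b3 (by omega)
    refine ⟨⟨by omega, by omega, c1, by omega, by omega, b2, ?_⟩, b3⟩
    rw [cnt_same T h1 hN (by omega : lo j r < t) b4 q]
    exact b5

theorem far_sys (hν : ∀ t q, 0 ≤ ν t q) (T : Tree N d L F lo hi) :
    Sys B ν (fun _ _ => 8) (fun y D => ∀ j r, j ≤ L → 1 ≤ r → r ≤ N →
      nrm B y (rect 0 (lo j r) (hi (j + 1) r) (hi j r)) ≤ 500 * D * (1 + bud B ν lo hi j r)) := by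
  have S := Sys.all (B := B) (ν := ν) (range (L + 1) ×ˢ range (N + 1) ×ˢ range (L + 1))
    (fun i _ => clsRow hν (FR N lo i.1 i.2.1 i.2.2) (lam := (7 / 4) ^ i.2.2)
      (φ := (1 / 2) ^ i.2.2) (one_le_pow₀ (by norm_num)) (by positivity))
  refine S.mono ?_ ?_
  · intro t q
    rw [← Finset.sum_filter]
    refine le_trans (le_of_eq ?_) (far_sum_inj
      ((range (L + 1) ×ˢ range (N + 1) ×ˢ range (L + 1)).filter
        fun i => FR N lo i.1 i.2.1 i.2.2 t q) (fun i => cnt lo i.1 t q) ?_ ?_)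
    · refine Finset.sum_congr rfl fun i hi => ?_
      obtain ⟨-, -, -, -, -, -, b7⟩ := (Finset.mem_filter.1 hi).2
      rw [b7, ← pow_mul, mul_comm i.2.2 3, pow_mul, ← mul_pow, div_eq_mul_inv, ← inv_pow]
      norm_num
    · rintro ⟨j, α, k⟩ hi ⟨j', α', k'⟩ hi' e
      obtain ⟨-, -, b3, b4, -, b6, b7⟩ := (Finset.mem_filter.1 hi).2
      obtain ⟨-, -, c3, c4, -, c6, c7⟩ := (Finset.mem_filter.1 hi').2
      simp only at b3 b4 b6 b7 c3 c4 c6 c7 e
      have hj : j = j' := by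
        rcases lt_trichotomy j j' with h | h | h
        · have := cnt_lt h b4 (b3 ▸ b6); omega
        · exact h
        · have := cnt_lt h c4 (c3 ▸ c6); omega
      subst hj
      rw [← b3, ← c3, ← b7, ← c7]
    · intro i hi
      obtain ⟨b1, b2, b3, -, b5, b6, -⟩ := (Finset.mem_filter.1 hi).2
      exact cnt_pos (T.root t b1 b2).1 b5 (b3 ▸ b6)
  · intro y D hD h j r hj h1 hN
    have a1 := T.lo_lt j r h1 hN
    set R := rect 0 (lo j r) (hi (j + 1) r) (hi j r) with hR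
    set Rs : ℕ → Reg := fun k t q => FR N lo j (lo j r) k t q ∧ hi (j + 1) r < t with hRs
    have hiff : ∀ k t q, Rs k t q ↔ R t q ∧ Nat.log 2 (cnt lo j r q) = k :=
      fun k t q => FR_iff T h1 hN k t q
    have hdis : ∀ i ∈ range (L + 1), ∀ k ∈ range (L + 1), ∀ t q, Rs i t q → Rs k t q → i = k := by
      intro i _ k _ t q e1 e2
      rw [← ((hiff i t q).1 e1).2, ← ((hiff k t q).1 e2).2]
    have W := nrm_weighted (B := B) y (range (L + 1)) R Rs (fun k => (15 / 16 : ℝ) ^ k)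
      (fun _ _ => by positivity) (by
        intro t q _ _
        constructor
        · intro e
          refine ⟨_, Finset.mem_range.2 ?_, (hiff _ t q).2 ⟨e, rfl⟩⟩
          have := Nat.log_le_self 2 (cnt lo j r q)
          have := cnt_le lo j r q
          omega
        · rintro ⟨k, -, e⟩
          exact ((hiff k t q).1 e).1) hdis
    have hν' : ∀ t q, 0 ≤ ν t q * (cnt lo j r q : ℝ) := fun t q =>
      mul_nonneg (hν t q) (Nat.cast_nonneg _)
    have M := sum_mass_le (B := B) hν' (range (L + 1)) R Rs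
      (fun k _ t q e => ((hiff k t q).1 e).1) hdis
    have hb : mass B (fun t q => ν t q * (cnt lo j r q : ℝ)) R = bud B ν lo hi j r := rfl
    rw [hb] at M
    have hb0 : 0 ≤ bud B ν lo hi j r := hb ▸ mass_nonneg hν' R
    have hk : ∀ k ∈ range (L + 1), nrm B y (Rs k) / (15 / 16 : ℝ) ^ k ≤
        D * (2 * mass B (fun t q => ν t q * (cnt lo j r q : ℝ)) (Rs k) + (14 / 15) ^ k) := by
      intro k hk
      have e := h (j, lo j r, k) (by
        simp only [Finset.mem_product, Finset.mem_range] at hk ⊢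
        exact ⟨by omega, by omega, hk⟩) (hi (j + 1) r)
      have m0 := mass_nonneg (B := B) hν (Rs k)
      have m1 : 2 ^ k * mass B ν (Rs k) ≤
          mass B (fun t q => ν t q * (cnt lo j r q : ℝ)) (Rs k) := by
        unfold mass
        rw [Finset.mul_sum]
        refine Finset.sum_le_sum fun t _ => ?_
        rw [Finset.mul_sum]
        refine Finset.sum_le_sum fun q _ => ?_
        split_ifs with e1
        · obtain ⟨⟨b1, b2, -, -⟩, b5⟩ := (hiff k t q).1 e1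
          have c1 := cnt_pos (j := j) (T.root r h1 hN).1 b1 b2
          have c2 : 2 ^ k ≤ cnt lo j r q := b5 ▸ Nat.pow_log_le_self 2 (by omega)
          have c3 : (2 : ℝ) ^ k ≤ cnt lo j r q := by exact_mod_cast c2
          rw [mul_comm]
          exact mul_le_mul_of_nonneg_left c3 (hν t q)
        · simp
      rw [div_le_iff₀ (by positivity)]
      refine le_trans e ?_
      have p1 : (7 / 4 : ℝ) ^ k ≤ 2 ^ k * (15 / 16) ^ k := by
        rw [← mul_pow]
        exact pow_le_pow_left₀ (by norm_num) (by norm_num) k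
      have p2 : (7 / 4 : ℝ) ^ k * (1 / 2) ^ k = (14 / 15) ^ k * (15 / 16) ^ k := by
        rw [← mul_pow, ← mul_pow]; norm_num
      have p3 : (0 : ℝ) ≤ (15 / 16) ^ k := by positivity
      have p4 : (7 / 4 : ℝ) ^ k * mass B ν (Rs k) ≤
          mass B (fun t q => ν t q * (cnt lo j r q : ℝ)) (Rs k) * (15 / 16) ^ k := by
        calc (7 / 4 : ℝ) ^ k * mass B ν (Rs k) ≤ 2 ^ k * (15 / 16) ^ k * mass B ν (Rs k) :=
              mul_le_mul_of_nonneg_right p1 m0
          _ = 2 ^ k * mass B ν (Rs k) * (15 / 16) ^ k := by ring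
          _ ≤ _ := mul_le_mul_of_nonneg_right m1 p3
      calc D * (7 / 4) ^ k * (2 * mass B ν (Rs k) + (1 / 2) ^ k)
          = D * (2 * ((7 / 4) ^ k * mass B ν (Rs k)) + (7 / 4) ^ k * (1 / 2) ^ k) := by ring
        _ ≤ D * (2 * (mass B (fun t q => ν t q * (cnt lo j r q : ℝ)) (Rs k) * (15 / 16) ^ k) +
            (14 / 15) ^ k * (15 / 16) ^ k) := by
            rw [p2]
            exact mul_le_mul_of_nonneg_left (by linarith) hD
        _ = _ := by ring
    have s1 := Finset.sum_le_sum hk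
    rw [← Finset.mul_sum, Finset.sum_add_distrib, ← Finset.mul_sum] at s1
    have g1 := far_geom (r := 15 / 16) (by norm_num) (by norm_num) (L + 1)
    have g2 := far_geom (r := 14 / 15) (by norm_num) (by norm_num) (L + 1)
    norm_num at g1 g2
    have s0 : 0 ≤ ∑ k ∈ range (L + 1), nrm B y (Rs k) / (15 / 16 : ℝ) ^ k :=
      Finset.sum_nonneg fun k _ => div_nonneg (nrm_nonneg y _) (by positivity)
    have s2 : ∑ k ∈ range (L + 1), nrm B y (Rs k) / (15 / 16 : ℝ) ^ k ≤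
        D * (2 * bud B ν lo hi j r + 15) :=
      s1.trans (mul_le_mul_of_nonneg_left (by linarith) hD)
    calc nrm B y R ≤ _ := W
      _ ≤ 16 * (D * (2 * bud B ν lo hi j r + 15)) :=
          mul_le_mul g1 s2 s0 (by norm_num)
      _ ≤ 500 * D * (1 + bud B ν lo hi j r) := by nlinarith [mul_nonneg hD hb0]

end Crest.Agent.R239
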