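import Crest.Agent.R239.DatB

/-!
# Row 239: existence of the tree

Call `(lo, hi)` a partition if it satisfies `lo_lt`, `le_hi`, `hi_le`, `same`. Refinement step: for a
partition `(lo, hi)` and a threshold `θ ≤ d - 1/4` cut each node `(a, b]` greedily: from `s < b` go to the
greatest `e ≤ b` with `s < e` and `θ ≤ F s e` (`Nat.findGreatest`; `e = s + 1` qualifies by `F_diag`,
`F_drop`). The new nodes have `θ ≤ F`, and if `e < b` then `F s (e+1) < θ`, so `F s e < θ + 1/4`.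
(One way to define the refinement: the cut points `p 0 = 0`, `p (i+1) =` greedy step from `p i` inside the
node `(lo (p i + 1), hi (p i + 1)]`, stationary at `N`; `lo' r`, `hi' r` are the neighbouring cut points.)
Depth `j ≤ L = 4d - 1` uses `θ = j / 4`, so nodes of depth `j` have `j / 4 ≤ F` (depth `0`: `F_nonneg`),
which gives `complete` and `leaf`; depths `≥ L + 1` are the singletons `(r - 1, r]`.
-/

set_option autoImplicit false

namespace Crest.Agent.R239

open Finset Classical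

namespace TreeX

/-- the last cut point before `r` -/
noncomputable def loC (C : ℕ → Prop) : ℕ → ℕ
  | 0 => 0
  | r + 1 => if C r then r else loC C r

/-- the first cut point from `r` on -/
noncomputable def hiC (C : ℕ → Prop) (r : ℕ) : ℕ := sInf {c | C c ∧ r ≤ c}

theorem loC_le (C : ℕ → Prop) (r : ℕ) : loC C r ≤ r := by
  induction r with
  | zero => exact le_rfl
  | succ r ih => rw [loC]; split_ifs <;> omega

theorem loC_lt (C : ℕ → Prop) {r : ℕ} (hr : 1 ≤ r) : loC C r < r := by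
  obtain ⟨r, rfl⟩ : ∃ s, r = s + 1 := ⟨r - 1, by omega⟩
  have := loC_le C r
  rw [loC]; split_ifs <;> omega

theorem loC_mem {C : ℕ → Prop} (h0 : C 0) (r : ℕ) : C (loC C r) := by
  induction r with
  | zero => exact h0
  | succ r ih => rw [loC]; split_ifs with h <;> assumption

theorem le_loC {C : ℕ → Prop} {c r : ℕ} (hc : C c) (hr : c < r) : c ≤ loC C r := by
  induction r with
  | zero => omega
  | succ r ih =>
    rw [loC]
    split_ifs with h
    · omega
    · exact ih (lt_of_le_of_ne (by omega) fun e => h (e ▸ hc))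

theorem hiC_le {C : ℕ → Prop} {c r : ℕ} (hc : C c) (hr : r ≤ c) : hiC C r ≤ c :=
  Nat.sInf_le ⟨hc, hr⟩

theorem hiC_mem {C : ℕ → Prop} {N r : ℕ} (hN : C N) (hr : r ≤ N) : C (hiC C r) ∧ r ≤ hiC C r :=
  Nat.sInf_mem (s := {c | C c ∧ r ≤ c}) ⟨N, hN, hr⟩

theorem same {C : ℕ → Prop} {N r r' : ℕ} (h0 : C 0) (hN : C N) (h1 : 1 ≤ r) (hr : r ≤ N)
    (a1 : loC C r < r') (a2 : r' ≤ hiC C r) : loC C r' = loC C r ∧ hiC C r' = hiC C r := by
  have b1 := hiC_le hN hr
  obtain ⟨b2, b3⟩ := hiC_mem hN hr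
  obtain ⟨b4, b5⟩ := hiC_mem hN (a2.trans b1)
  have b6 := loC_lt C (show 1 ≤ r' by omega)
  refine ⟨le_antisymm (le_loC (loC_mem h0 r') ?_) (le_loC (loC_mem h0 r) a1),
    le_antisymm (hiC_le b2 a2) (hiC_le b4 ?_)⟩
  · by_contra hc
    have := hiC_le (loC_mem h0 r') (not_lt.1 hc)
    omega
  · by_contra hc
    have := le_loC b4 (not_le.1 hc)
    omega

/-- the greedy left end -/
noncomputable def ll (F : ℕ → ℕ → ℝ) (θ : ℝ) (C : ℕ → Prop) : ℕ → ℕ
  | 0 => 0
  | r + 1 => if C r ∨ F (ll F θ C r) (r + 1) < θ then r else ll F θ C r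

/-- the greedy refinement -/
def rf (F : ℕ → ℕ → ℝ) (θ : ℝ) (C : ℕ → Prop) : ℕ → Prop :=
  fun r => C r ∨ F (ll F θ C r) (r + 1) < θ

theorem loC_rf (F : ℕ → ℕ → ℝ) (θ : ℝ) (C : ℕ → Prop) (r : ℕ) : loC (rf F θ C) r = ll F θ C r := by
  induction r with
  | zero => rfl
  | succ r ih =>
    rw [loC, ll, ih]
    exact if_congr Iff.rfl rfl rfl

variable {N d : ℕ} {ν g F : ℕ → ℕ → ℝ}

theorem rf_ge (h : Dat N d ν g F) {θ : ℝ} (hθ : θ ≤ d - 1 / 4) {C : ℕ → Prop} (h0 : C 0) {r : ℕ}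
    (hr : 1 ≤ r) : θ ≤ F (loC (rf F θ C) r) r := by
  obtain ⟨r, rfl⟩ : ∃ s, r = s + 1 := ⟨r - 1, by omega⟩
  rw [loC_rf, ll]
  split_ifs with hc
  · have := h.F_drop r r le_rfl
    rw [h.F_diag] at this
    linarith
  · exact not_lt.1 fun hh => hc (Or.inr hh)

theorem rf_le (h : Dat N d ν g F) {θ : ℝ} {C : ℕ → Prop} {e : ℕ} (h1 : rf F θ C e) (h2 : ¬ C e) :
    F (loC (rf F θ C) e) e ≤ θ + 1 / 4 := by
  have a1 := h.F_drop _ _ (loC_le (rf F θ C) e)
  have a2 := h1.resolve_left h2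
  rw [← loC_rf] at a2
  linarith

/-- the cut points of depth `j` -/
def CC (N L : ℕ) (F : ℕ → ℕ → ℝ) : ℕ → ℕ → Prop
  | 0 => fun r => r = 0 ∨ r = N
  | j + 1 => if j < L then rf F (((j + 1 : ℕ) : ℝ) / 4) (CC N L F j) else fun _ => True

theorem CC_succ {L j c : ℕ} (h : CC N L F j c) : CC N L F (j + 1) c := by
  rw [CC]
  split_ifs
  · exact Or.inl h
  · trivial

theorem CC_ends (N L : ℕ) (F : ℕ → ℕ → ℝ) (j : ℕ) : CC N L F j 0 ∧ CC N L F j N := by
  induction j with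
  | zero => exact ⟨Or.inl rfl, Or.inr rfl⟩
  | succ j ih => exact ⟨CC_succ ih.1, CC_succ ih.2⟩

end TreeX

open TreeX in
theorem exists_tree {N d : ℕ} {ν g F : ℕ → ℕ → ℝ} (h : Dat N d ν g F) (hd : 1 ≤ d) :
    ∃ lo hi : ℕ → ℕ → ℕ, Tree N d (4 * d - 1) F lo hi := by
  generalize hL : 4 * d - 1 = L
  have hL' : (L : ℝ) = 4 * d - 1 := by
    have : ((L + 1 : ℕ) : ℝ) = (4 * d : ℕ) := congrArg _ (by omega)
    push_cast at this
    linarith
  have c0 := fun j => (CC_ends N L F j).1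
  have cN := fun j => (CC_ends N L F j).2
  have sm : ∀ j r, 1 ≤ r → r ≤ N → loC (CC N L F j) (hiC (CC N L F j) r) = loC (CC N L F j) r :=
    fun j r h1 h2 => (same (c0 j) (cN j) h1 h2 ((loC_lt _ h1).trans_le (hiC_mem (cN j) h2).2)
      le_rfl).1
  have ge : ∀ j ≤ L, ∀ r, 1 ≤ r → r ≤ N →
      (j : ℝ) / 4 ≤ F (loC (CC N L F j) r) (hiC (CC N L F j) r) := by
    intro j hj r h1 h2
    rcases j with _ | j
    · simpa using h.F_nonneg _ _
    · rw [← sm _ r h1 h2]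
      have a1 := h1.trans (hiC_mem (cN (j + 1)) h2).2
      generalize hiC (CC N L F (j + 1)) r = e at a1
      rw [CC, if_pos (by omega)]
      have : ((j + 1 : ℕ) : ℝ) ≤ L := by exact_mod_cast hj
      exact rf_ge h (by linarith) (c0 j) a1
  refine ⟨fun j => loC (CC N L F j), fun j => hiC (CC N L F j), fun j r h1 _ => loC_lt _ h1,
    fun j r _ h2 => (hiC_mem (cN j) h2).2, fun j r _ h2 => hiC_le (cN j) h2,
    fun j r r' h1 h2 => same (c0 j) (cN j) h1 h2,
    fun j r h1 _ => le_loC (CC_succ (loC_mem (c0 j) r)) (loC_lt _ h1),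
    fun j r _ h2 => hiC_le (CC_succ (hiC_mem (cN j) h2).1) (hiC_mem (cN j) h2).2,
    fun r h1 h2 => ⟨?_, ?_⟩, fun r h1 h2 => ⟨?_, ?_⟩, fun r h1 h2 => ?_, fun j r hj h1 h2 h3 => ?_⟩
  · have a1 := loC_lt (CC N L F 0) h1
    rcases loC_mem (c0 0) r with a2 | a2 <;> omega
  · obtain ⟨a1, a2⟩ := hiC_mem (cN 0) h2
    rcases a1 with a1 | a1 <;> omega
  · have a1 := loC_lt (CC N L F (L + 1)) h1
    have a2 := le_loC (C := CC N L F (L + 1)) (c := r - 1) (r := r)
      (by rw [CC, if_neg (lt_irrefl _)]; trivial) (by omega)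
    omega
  · exact le_antisymm (hiC_le (by rw [CC, if_neg (lt_irrefl _)]; trivial) le_rfl)
      (hiC_mem (cN _) h2).2
  · have := ge L le_rfl r h1 h2
    linarith
  · have a1 := ge j hj.le r h1 h2
    obtain ⟨a2, a3⟩ := hiC_mem (cN (j + 1)) h2
    have a4 : ¬ CC N L F j (hiC (CC N L F (j + 1)) r) := fun hh => absurd (hiC_le hh a3) (not_le.2 h3)
    rw [← sm _ r h1 h2]
    generalize hiC (CC N L F (j + 1)) r = e at a2 a4
    rw [CC, if_pos hj] at a2 ⊢
    have a5 := rf_le h a2 a4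
    push_cast at a5 ⊢
    linarith

end Crest.Agent.R239
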