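import Crest.Agent.R239.Near
import Crest.Agent.R239.Far
import Crest.Agent.R239.Bud
import Crest.Agent.R239.Tree

/-!
# Row 239: the label system of the corners

`L := 4d - 1`. By `nrm_le_sum_rows` and `Tree.shell`, `nrm (rect 0 r r N) ≤ ∑_{j ≤ L} nrm (rect 0 r
(hi (j+1) r) (hi j r))`; split each at the column `lo j r` (`nrm_two`). Near parts:
`350 D (4d + d)` (`sum_mass_le`, `shell_unique`, `Dat.corner`); far parts `500 D (4d + d + 2d)`.
-/

set_option autoImplicit false

namespace Crest.Agent.R239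

open Finset Classical

theorem comb_sys {B N d : ℕ} {ν g F : ℕ → ℕ → ℝ} (h : Dat N d ν g F) (hB : N < B) (hd : 1 ≤ d) :
    Sys B ν (fun _ _ => 13) (fun y D => ∀ r, 1 ≤ r → r ≤ N →
      nrm B y (rect 0 r r N) ≤ 11000 * D * d) := by
  obtain ⟨lo, hi, T⟩ := exists_tree h hd
  obtain ⟨L, hL⟩ : ∃ L, L = 4 * d - 1 := ⟨_, rfl⟩
  rw [← hL] at T
  have hL' : (L : ℝ) + 1 = 4 * d := by
    have : L + 1 = 4 * d := by omega
    exact_mod_cast this
  refine ((near_sys h hB T).and (far_sys h.ν_nonneg T)).mono (fun _ _ => by norm_num)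
    fun y D hD hΦ r h1 hN => ?_
  obtain ⟨hn, hf⟩ := hΦ
  have a1 := fun j => T.lo_lt j r h1 hN
  have a2 := fun j => T.le_hi j r h1 hN
  have a3 := fun j => T.hi_le j r h1 hN
  have s1 : nrm B y (rect 0 r r N) ≤
      ∑ j ∈ range (L + 1), nrm B y (rect 0 r (hi (j + 1) r) (hi j r)) := by
    refine nrm_le_sum_rows y (range (L + 1)) _ (fun j t => hi (j + 1) r < t ∧ t ≤ hi j r) _ ?_ ?_
    · intro t q _ _ hR
      obtain ⟨j, hj, b1, b2⟩ := T.shell h1 hR.2.2.1 hR.2.2.2
      exact ⟨j, mem_range.2 (by omega), b1, b2⟩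
    · intro j _ t q _ _
      have := a2 (j + 1)
      have := a3 j
      unfold rect
      omega
  have s2 : ∀ j ∈ range (L + 1), nrm B y (rect 0 r (hi (j + 1) r) (hi j r)) ≤
      D * (1700 + 1000 * bud B ν lo hi j r +
        700 * mass B ν (rect (lo j r) r (hi (j + 1) r) (hi j r))) := by
    intro j hj
    have hj' : j ≤ L := by have := mem_range.1 hj; omega
    have b := nrm_two (B := B) y (rect 0 r (hi (j + 1) r) (hi j r))
      (rect 0 (lo j r) (hi (j + 1) r) (hi j r)) (rect (lo j r) r (hi (j + 1) r) (hi j r))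
      (fun t q _ _ => by have := a1 j; unfold rect; omega)
      (fun t q => by unfold rect; omega)
    have b1 := hn j r hj' h1 hN
    have b2 := hf j r hj' h1 hN
    linarith
  have s3 : ∑ j ∈ range (L + 1), mass B ν (rect (lo j r) r (hi (j + 1) r) (hi j r)) ≤ d := by
    refine le_trans (sum_mass_le h.ν_nonneg _ (rect 0 r r N) _ ?_ ?_) (h.corner hB hN)
    · intro j _ t q hR
      have := a2 (j + 1)
      have := a3 j
      unfold rect at hR ⊢
      omega
    · intro j _ j' _ t q hR hR'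
      exact T.shell_unique h1 hN hR.2.2.1 hR.2.2.2 hR'.2.2.1 hR'.2.2.2
  have s4 := bud_sum h hB T h1 hN
  have s5 := s1.trans (sum_le_sum s2)
  rw [← mul_sum, sum_add_distrib, sum_add_distrib, ← mul_sum, ← mul_sum, sum_const, card_range,
    nsmul_eq_mul] at s5
  push_cast at s5
  have hd' : (1 : ℝ) ≤ d := by exact_mod_cast hd
  refine s5.trans ?_
  rw [show 11000 * D * d = D * (11000 * d) by ring]
  exact mul_le_mul_of_nonneg_left (by linarith) hD

end Crest.Agent.R239
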