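import Crest.Agent.R239.SysB

/-!
# Row 239: masses of rectangles

Telescoping of `ν_eq` along rows and of `F_step` along columns.
`leaf_mass`: for `a < q ≤ b`, `quant` with `s = s' = q` gives
`g q q - g q b ≤ (d - F q b) g q q ≤ (d - F a b) g q q ≤ g q q / 4`, so `g q q - g q b ≤ g q b / 3`, and
`∑_{a < q ≤ b} g q b = d - F a b ≤ 1 / 4`.
-/

set_option autoImplicit false

namespace Crest.Agent.R239

open Finset Classical

variable {B N d : ℕ} {ν g F : ℕ → ℕ → ℝ}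

theorem datb_mass (ν : ℕ → ℕ → ℝ) (R : Reg) (s : Finset ℕ) (T : ℕ → Finset ℕ)
    (hs : ∀ q ∈ s, q < B) (hT : ∀ q ∈ s, ∀ t ∈ T q, t < B)
    (hR : ∀ t q, R t q ↔ q ∈ s ∧ t ∈ T q) :
    mass B ν R = ∑ q ∈ s, ∑ t ∈ T q, ν t q := by
  unfold mass
  rw [sum_comm]
  symm
  refine (sum_subset_zero_on_sdiff (fun q hq => mem_range.2 (hs q hq)) ?_ ?_)
  · intro q hq
    have hq2 := (mem_sdiff.1 hq).2
    refine sum_eq_zero fun t _ => if_neg fun hr => hq2 ((hR t q).1 hr).1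
  · intro q hq
    refine (sum_subset_zero_on_sdiff (fun t ht => mem_range.2 (hT q hq t ht)) ?_ ?_)
    · intro t ht
      have ht2 := (mem_sdiff.1 ht).2
      exact if_neg fun hr => ht2 ((hR t q).1 hr).2
    · intro t ht
      exact (if_pos ((hR t q).2 ⟨hq, ht⟩)).symm

theorem Dat.col_sum (h : Dat N d ν g F) {q c e : ℕ} (hq : q ≤ c) (hc : c ≤ e) (he : e ≤ N) :
    ∑ t ∈ Ioc c e, ν t q = g q c - g q e := by
  induction e, hc using Nat.le_induction with
  | base => simp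
  | succ e hce ih =>
    rw [sum_Ioc_succ_top hce, ih (by omega), h.ν_eq q e (by omega) (by omega)]
    ring

theorem Dat.g_anti (h : Dat N d ν g F) {q c e : ℕ} (hq : q ≤ c) (hc : c ≤ e) (he : e ≤ N) :
    g q e ≤ g q c := by
  have h1 := h.col_sum hq hc he
  have h2 : 0 ≤ ∑ t ∈ Ioc c e, ν t q := sum_nonneg fun t _ => h.ν_nonneg t q
  linarith

theorem Dat.g_sum (h : Dat N d ν g F) {x x' y : ℕ} (hx : x ≤ x') (hy : x' ≤ y) :
    ∑ q ∈ Ioc x x', g q y = F x' y - F x y := by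
  induction x', hx using Nat.le_induction with
  | base => simp
  | succ x' hxx ih =>
    rw [sum_Ioc_succ_top hxx, ih (by omega), ← h.F_step x' y hy]
    ring

theorem Dat.F_mono (h : Dat N d ν g F) {x x' y : ℕ} (hx : x ≤ x') (hy : x' ≤ y) :
    F x y ≤ F x' y := by
  have h1 := h.g_sum hx hy
  have h2 : 0 ≤ ∑ q ∈ Ioc x x', g q y := sum_nonneg fun q _ => h.g_nonneg q y
  linarith

theorem Dat.F_anti' (h : Dat N d ν g F) {x y y' : ℕ} (hx : x ≤ y) (hy : y ≤ y') :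
    F x y' ≤ F x y := by
  induction y', hy using Nat.le_induction with
  | base => exact le_rfl
  | succ y' hyy ih => exact (h.F_anti x y' (by omega)).trans ih

theorem Dat.F_le (h : Dat N d ν g F) {x y : ℕ} (hx : x ≤ y) : F x y ≤ d := by
  have h1 := h.F_anti' (le_refl x) hx
  rwa [h.F_diag] at h1

theorem Dat.mass_rect (h : Dat N d ν g F) (hB : N < B) {a b c e : ℕ} (hab : a ≤ b) (hbc : b ≤ c)
    (hce : c ≤ e) (he : e ≤ N) :
    mass B ν (rect a b c e) = (F b c - F a c) - (F b e - F a e) := by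
  have h1 : mass B ν (rect a b c e) = ∑ q ∈ Ioc a b, ∑ t ∈ Ioc c e, ν t q :=
    datb_mass ν _ (Ioc a b) (fun _ => Ioc c e) (fun q hq => by have := mem_Ioc.1 hq; omega)
      (fun q _ t ht => by have := mem_Ioc.1 ht; omega)
      (fun t q => by simp only [rect, mem_Ioc]; tauto)
  rw [h1, ← h.g_sum hab hbc, ← h.g_sum hab (hbc.trans hce), ← sum_sub_distrib]
  refine sum_congr rfl fun q hq => ?_
  have := mem_Ioc.1 hq
  exact h.col_sum (by omega) hce he

theorem Dat.mass_rect_le (h : Dat N d ν g F) (hB : N < B) {a b c e : ℕ} (hab : a ≤ b) (hbc : b ≤ c)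
    (hce : c ≤ e) (he : e ≤ N) : mass B ν (rect a b c e) ≤ F b c - F b e := by
  rw [h.mass_rect hB hab hbc hce he]
  have := h.F_anti' (hab.trans hbc) hce
  linarith

theorem Dat.corner (h : Dat N d ν g F) (hB : N < B) {r : ℕ} (hr : r ≤ N) :
    mass B ν (rect 0 r r N) ≤ d := by
  have h1 := h.mass_rect_le hB (Nat.zero_le r) (le_refl r) hr (le_refl N)
  rw [h.F_diag] at h1
  have := h.F_nonneg r N
  linarith

theorem Dat.leaf_mass (h : Dat N d ν g F) (hB : N < B) {a b : ℕ} (hab : a ≤ b) (hb : b ≤ N)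
    (hF : (d : ℝ) - 1 / 4 ≤ F a b) : mass B ν (fun t q => a < q ∧ q < t ∧ t ≤ b) ≤ 1 := by
  have h1 : mass B ν (fun t q => a < q ∧ q < t ∧ t ≤ b) = ∑ q ∈ Ioc a b, ∑ t ∈ Ioc q b, ν t q :=
    datb_mass ν _ (Ioc a b) (fun q => Ioc q b) (fun q hq => by have := mem_Ioc.1 hq; omega)
      (fun q _ t ht => by have := mem_Ioc.1 ht; omega)
      (fun t q => by simp only [mem_Ioc]; omega)
  have h2 : ∑ q ∈ Ioc a b, ∑ t ∈ Ioc q b, ν t q ≤ ∑ q ∈ Ioc a b, g q b := by
    refine sum_le_sum fun q hq => ?_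
    obtain ⟨hq1, hq2⟩ := mem_Ioc.1 hq
    rw [h.col_sum (le_refl q) hq2 hb]
    have h3 := h.quant q q q b le_rfl le_rfl hq2
    rw [h.F_diag] at h3
    have h4 := h.F_mono hq1.le hq2
    have h5 := h.g_nonneg q q
    have h6 := h.g_nonneg q b
    have h7 : ((d : ℝ) - F q b) * g q q ≤ 1 / 4 * g q q :=
      mul_le_mul_of_nonneg_right (by linarith) h5
    linarith
  rw [h.g_sum hab (le_refl b), h.F_diag] at h2
  rw [h1]
  linarith

end Crest.Agent.R239
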