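import Mathlib

/-!
# Row 239 (S0370, Euclidean prefix discrepancy): definitions

Entries are pairs `(t, q)` (row `t`, column `q`) in the box `range B × range B`; a region is a
predicate `R t q`. A *label* is a region with an amplitude `A`.
-/

set_option autoImplicit false

namespace Crest.Agent.R239

open Finset Classical

/-- Regions of entries (row first, column second). -/
abbrev Reg := ℕ → ℕ → Prop

/-- The `ν`-mass of a region. -/
noncomputable def mass (B : ℕ) (ν : ℕ → ℕ → ℝ) (R : Reg) : ℝ :=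
  ∑ t ∈ range B, ∑ q ∈ range B, if R t q then ν t q else 0

/-- The sum over rows of the squared row sums of `y` on a region. -/
noncomputable def nrm (B : ℕ) (y : ℕ → ℕ → ℝ) (R : Reg) : ℝ :=
  ∑ t ∈ range B, (∑ q ∈ range B, if R t q then y t q else 0) ^ 2

/-- All column prefixes of the region `R` have `nrm` at most `D * A`. -/
def Good (B : ℕ) (y : ℕ → ℕ → ℝ) (D : ℝ) (R : Reg) (A : ℝ) : Prop :=
  ∀ x : ℕ, nrm B y (fun t q => R t q ∧ q ≤ x) ≤ D * A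

/-- There is a finite family of labels of cost at most `c t q` at the entry `(t, q)` whose
goodness implies `Φ`. -/
def Sys (B : ℕ) (ν : ℕ → ℕ → ℝ) (c : ℕ → ℕ → ℝ) (Φ : (ℕ → ℕ → ℝ) → ℝ → Prop) : Prop :=
  ∃ 𝓕 : Finset (Reg × ℝ), (∀ l ∈ 𝓕, 0 < l.2 ∧ mass B ν l.1 ≤ l.2) ∧
    (∀ t q, ∑ l ∈ 𝓕, (if l.1 t q then mass B ν l.1 ^ 2 / l.2 ^ 3 else 0) ≤ c t q) ∧
    ∀ (y : ℕ → ℕ → ℝ) (D : ℝ), 0 ≤ D → (∀ l ∈ 𝓕, Good B y D l.1 l.2) → Φ y D

/-- The rectangle of columns `(a, b]` and rows `(c, e]`. -/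
def rect (a b c e : ℕ) : Reg := fun t q => a < q ∧ q ≤ b ∧ c < t ∧ t ≤ e

/-- Abstract properties of the closed-loop system: `F x y` is the squared Frobenius norm of the
transition from time `x` to time `y`, `g q y` the mass of the input `q` surviving at time `y`,
`ν t q` the part of it forgotten at time `t`. -/
structure Dat (N d : ℕ) (ν g F : ℕ → ℕ → ℝ) : Prop where
  ν_nonneg : ∀ t q, 0 ≤ ν t q
  ν_eq : ∀ q t, q ≤ t → t < N → ν (t + 1) q = g q t - g q (t + 1)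
  g_nonneg : ∀ q y, 0 ≤ g q y
  F_step : ∀ q y, q + 1 ≤ y → F (q + 1) y - F q y = g (q + 1) y
  F_diag : ∀ x, F x x = d
  F_nonneg : ∀ x y, 0 ≤ F x y
  F_anti : ∀ x y, x ≤ y → F x (y + 1) ≤ F x y
  F_drop : ∀ x y, x ≤ y → F x y - F x (y + 1) ≤ 1 / 4
  quant : ∀ q s s' b, q ≤ s → s ≤ s' → s' ≤ b → g q s' - g q b ≤ (F s s' - F s b) * g q s

/-- A tree of intervals: `(lo j r, hi j r]` is the node of depth `j` containing `r`; `L` is the depth
of the leaves, depth `L + 1` consists of singletons. -/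
structure Tree (N d L : ℕ) (F : ℕ → ℕ → ℝ) (lo hi : ℕ → ℕ → ℕ) : Prop where
  lo_lt : ∀ j r, 1 ≤ r → r ≤ N → lo j r < r
  le_hi : ∀ j r, 1 ≤ r → r ≤ N → r ≤ hi j r
  hi_le : ∀ j r, 1 ≤ r → r ≤ N → hi j r ≤ N
  same : ∀ j r r', 1 ≤ r → r ≤ N → lo j r < r' → r' ≤ hi j r →
    lo j r' = lo j r ∧ hi j r' = hi j r
  lo_mono : ∀ j r, 1 ≤ r → r ≤ N → lo j r ≤ lo (j + 1) r
  hi_anti : ∀ j r, 1 ≤ r → r ≤ N → hi (j + 1) r ≤ hi j r
  root : ∀ r, 1 ≤ r → r ≤ N → lo 0 r = 0 ∧ hi 0 r = N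
  bottom : ∀ r, 1 ≤ r → r ≤ N → lo (L + 1) r = r - 1 ∧ hi (L + 1) r = r
  leaf : ∀ r, 1 ≤ r → r ≤ N → (d : ℝ) - 1 / 4 ≤ F (lo L r) (hi L r)
  complete : ∀ j r, j < L → 1 ≤ r → r ≤ N → hi (j + 1) r < hi j r →
    F (lo (j + 1) r) (hi (j + 1) r) ≤ F (lo j r) (hi j r) + 1 / 2

/-- The children `(s i, s (i+1)]`, `i < n`, of the node `(a, b]`. -/
structure Kids (F : ℕ → ℕ → ℝ) (a b n : ℕ) (s : ℕ → ℕ) : Prop where
  zero : s 0 = a
  last : s n = b
  mono : Monotone s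
  le : ∀ i, s i ≤ b
  complete : ∀ i, s (i + 1) < b → F (s i) (s (i + 1)) ≤ F a b + 1 / 2

/-- The exceptional entries of the node `(a, b]` with children `(s i, s (i+1)]`. -/
def Exc (g : ℕ → ℕ → ℝ) (a b n : ℕ) (s : ℕ → ℕ) : Reg := fun t q =>
  a < q ∧ t ≤ b ∧ g q (t - 1) ≤ 3 * g q b ∧ ∃ i, i < n ∧ q ≤ s i ∧ s (i + 1) < t

/-- The number of depths `h < j` at which the left end moves and `q` is still to the left. -/
noncomputable def cnt (lo : ℕ → ℕ → ℕ) (j t q : ℕ) : ℕ :=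
  ((range j).filter fun h => lo h t < lo (h + 1) t ∧ q ≤ lo (h + 1) t).card

/-- The budget of the row shell of depth `j` at time `r`. -/
noncomputable def bud (B : ℕ) (ν : ℕ → ℕ → ℝ) (lo hi : ℕ → ℕ → ℕ) (j r : ℕ) : ℝ :=
  mass B (fun t q => ν t q * cnt lo j r q) (rect 0 (lo j r) (hi (j + 1) r) (hi j r))

/-! ### The uniform box -/

/-- The box `{-10, …, 10} ^ n`. -/
noncomputable def box (n : ℕ) : Finset (Fin n → ℤ) := Fintype.piFinset fun _ => Finset.Icc (-10 : ℤ) 10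

/-- Average over the box. -/
noncomputable def av (n : ℕ) (f : (Fin n → ℤ) → ℝ) : ℝ := (∑ k ∈ box n, f k) / 21 ^ n

/-- The largest norm of a prefix sum `∑_{q < x} β q • a q`. -/
noncomputable def pm {H : Type} [NormedAddCommGroup H] [NormedSpace ℝ H] {n : ℕ}
    (a : Fin n → H) (β : Fin n → ℝ) : ℝ :=
  (range (n + 1)).sup' ⟨0, by simp⟩ fun x => ‖∑ q ∈ univ.filter (fun q : Fin n => (q : ℕ) < x), β q • a q‖

/-- The rounding kernel: `rk (τ - x) ^ 2`, `τ ∈ ℤ`, is a probability vector. -/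
noncomputable def rk (t : ℝ) : ℝ := if |t| ≤ 1 then Real.cos (Real.pi * t / 2) else 0

/-- The normalised excess of the maximal prefix norm over the level `b`. -/
noncomputable def ex {H : Type} [NormedAddCommGroup H] [NormedSpace ℝ H] {n : ℕ}
    (a : Fin n → H) (b : ℝ) (β : Fin n → ℝ) : ℝ := max (pm a β - b) 0 / b

/-- The joint law of a uniform point `k` of the box and the roundings `τ l` of `φ l (3 k)`. -/
noncomputable def PP {n : ℕ} {L : Type} [Fintype L] (φ : L → (Fin n → ℝ) → ℝ)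
    (x : (Fin n → ℤ) × (L → ℤ)) : ℝ :=
  if x.1 ∈ box n then (∏ l, rk ((x.2 l : ℝ) - φ l fun q => 3 * (x.1 q : ℝ)) ^ 2) / 21 ^ n else 0

/-! ### The closed loop -/

section Loop

variable {d : ℕ}

/-- Euclidean space. -/
abbrev Eu (d : ℕ) := EuclideanSpace ℝ (Fin d)

/-- One step `x ↦ x - ε ⟪v, x⟫ v`. -/
noncomputable def Tm (ε : ℝ) (v : Eu d) : Eu d →ₗ[ℝ] Eu d :=
  LinearMap.id - ε • (LinearMap.toSpanSingleton ℝ (Eu d) v ∘ₗ (innerₗ (Eu d) v))

/-- The transition from time `x` to time `y` (identity for `y ≤ x`). -/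
noncomputable def Ph (ε : ℝ) (v : ℕ → Eu d) (x : ℕ) : ℕ → (Eu d →ₗ[ℝ] Eu d)
  | 0 => LinearMap.id
  | y + 1 => if x ≤ y then Tm ε (v (y + 1)) ∘ₗ Ph ε v x y else LinearMap.id

/-- The forgetting rate of step `t`. -/
noncomputable def cw (ε : ℝ) (v : ℕ → Eu d) (t : ℕ) : ℝ := 2 * ε - ε ^ 2 * ‖v t‖ ^ 2

/-- The state of the closed loop. -/
noncomputable def zz (ε : ℝ) (v : ℕ → Eu d) (β : ℕ → ℝ) : ℕ → Eu d
  | 0 => 0
  | t + 1 => Tm ε (v (t + 1)) (zz ε v β t) + β (t + 1) • v (t + 1)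

/-- The matrix of the closed loop: rows `t ≤ N` are the forgetting steps, rows `N + 1 + i`, `i < d`,
the coordinates of what survives at time `N`. -/
noncomputable def am (ε : ℝ) (v : ℕ → Eu d) (N t q : ℕ) : ℝ :=
  if q = 0 ∨ N < q then 0
  else if t ≤ N then
    (if q < t then √(cw ε v t) * inner ℝ (v t) (Ph ε v q (t - 1) (v q)) else 0)
  else if h : t - (N + 1) < d then Ph ε v q N (v q) ⟨t - (N + 1), h⟩ else 0

/-- Squared Frobenius norm of the transition. -/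
noncomputable def FF (ε : ℝ) (v : ℕ → Eu d) (x y : ℕ) : ℝ :=
  ∑ i : Fin d, ‖Ph ε v x y (EuclideanSpace.single i 1)‖ ^ 2

/-- Surviving mass of the input `q`. -/
noncomputable def gg (ε : ℝ) (v : ℕ → Eu d) (q y : ℕ) : ℝ := cw ε v q * ‖Ph ε v q y (v q)‖ ^ 2

/-- Forgotten mass. -/
noncomputable def nu (ε : ℝ) (v : ℕ → Eu d) (N t q : ℕ) : ℝ := cw ε v q * am ε v N t q ^ 2

end Loop

end Crest.Agent.R239
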