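import Crest.Agent.R239.Defs

/-!
# Row 239: the lifting lemma with causal offsets

Induction on `n`, generalising the group and the space. Step `n + 1`: put `g := g n`, `v := V n`,
`G' := G × ℤ`, `E' := E × ℝ`, `ι' (x, l) := (ι x, l)`, `g' i := (g i, 0)`, `V' i := (V i, 0)`,
`P' (x, 0) := max (P (x - g)) (P (x + g)) / 2`, `P' (x, 1) := min (P (x - g)) (P (x + g)) / 2`, `P' := 0` on
the other levels, `S' := (S.image (· + g) ∪ S.image (· - g)) ×ˢ {0, 1}`,
`K' := {(x, μ) | 0 ≤ μ ≤ 1 ∧ ∃ θ, |θ| ≤ 3 (1 - μ) ∧ x + (θ - 3 μ) • v ∈ K ∧ x + (θ + 3 μ) • v ∈ K}` (convex).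
`max + min = a + b`, so the mass of `P'` is `1` and its mean is `(mean of P, m)` with
`m = ∑ min / 2 = (2 - ∑ |a - b|) / 4 ≥ 2 / 5`. The shifts by `g' i` still move `P'` by at most `2 / 5`
because `|max a b - max a' b'| + |min a b - min a' b'| ≤ |a - a'| + |b - b'|`.
The induction hypothesis gives `s` with `y := mean + ∑_{i<n} s i • V i`, `(y, m) ∈ K'`: the segment
`y + [θ - 3m, θ + 3m] • v` lies in `K`; with `c := c n s`, if `c + 1 ≤ θ + 3m` take `s n := c + 1`
(`θ - 3m ≤ 3 - 6m ≤ 3/5 ≤ c + 1`), otherwise `s n := c - 1`. Use `Function.update s n _` and causality.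
-/

set_option autoImplicit false

namespace Crest.Agent.R239

open Finset Classical

theorem GFL.sum_shift {G M : Type} [AddCommGroup G] [AddCommMonoid M] (f : G → M) (S T : Finset G)
    (h : G) (hf : ∀ x, x ∉ S → f x = 0) (hT : ∀ x ∈ S, x + h ∈ T) :
    ∑ x ∈ T, f (x - h) = ∑ x ∈ S, f x := by
  have e1 : ∑ x ∈ S.image (· + h), f (x - h) = ∑ x ∈ S, f x := by
    rw [Finset.sum_image (fun x _ y _ e => add_right_cancel e)]
    simp
  rw [← e1]
  symm
  apply Finset.sum_subset
  · intro x hx
    obtain ⟨y, hy, rfl⟩ := Finset.mem_image.1 hx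
    exact hT y hy
  · intro x _ hx
    apply hf
    intro hs
    exact hx (Finset.mem_image.2 ⟨x - h, hs, by simp⟩)

theorem GFL.maxmin (a b a' b' : ℝ) :
    |max a b / 2 - max a' b' / 2| + |min a b / 2 - min a' b' / 2| ≤ (|a - a'| + |b - b'|) / 2 := by
  have h1 := le_abs_self (a - a')
  have h2 := neg_abs_le (a - a')
  have h3 := le_abs_self (b - b')
  have h4 := neg_abs_le (b - b')
  rcases le_total a b with h | h <;> rcases le_total a' b' with h' | h' <;>
    simp only [max_eq_right, max_eq_left, min_eq_left, min_eq_right, h, h'] <;>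
    (refine le_of_forall_pos_le_add fun ε _ => ?_) <;>
    (first
      | (rcases abs_cases (b / 2 - b' / 2) with e | e <;> rcases abs_cases (a / 2 - a' / 2) with e' | e' <;>
          linarith [e.1, e.2, e'.1, e'.2])
      | (rcases abs_cases (b / 2 - a' / 2) with e | e <;> rcases abs_cases (a / 2 - b' / 2) with e' | e' <;>
          linarith [e.1, e.2, e'.1, e'.2]))

theorem GFL.seg {E : Type} [AddCommGroup E] [Module ℝ E] {K : Set E} (hK : Convex ℝ K) {y v : E}
    {t₁ t₂ t : ℝ} (h₁ : y + t₁ • v ∈ K) (h₂ : y + t₂ • v ∈ K) (a : t₁ ≤ t) (b : t ≤ t₂) :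
    y + t • v ∈ K := by
  obtain ⟨p, q, hp, hq, hpq, e⟩ := Convex.mem_Icc (a.trans b) |>.1 ⟨a, b⟩
  have := hK h₁ h₂ hp hq hpq
  have e2 : p • (y + t₁ • v) + q • (y + t₂ • v) = y + t • v := by
    rw [← e]
    have : y = (p + q) • y := by rw [hpq, one_smul]
    conv_rhs => rw [this]
    module
  rwa [e2] at this

/-- The lifted law. -/
noncomputable def GFL.lift {G : Type} [AddCommGroup G] (P : G → ℝ) (g : G) (x : G × ℤ) : ℝ :=
  if x.2 = 0 then max (P (x.1 - g)) (P (x.1 + g)) / 2
  else if x.2 = 1 then min (P (x.1 - g)) (P (x.1 + g)) / 2 else 0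

/-- The lifted convex set. -/
def GFL.liftK {E : Type} [AddCommGroup E] [Module ℝ E] (K : Set E) (v : E) : Set (E × ℝ) :=
  {x | ∃ θ : ℝ, |θ| ≤ 3 * (1 - x.2) ∧ x.1 + (θ - 3 * x.2) • v ∈ K ∧ x.1 + (θ + 3 * x.2) • v ∈ K}

theorem GFL.convex_liftK {E : Type} [AddCommGroup E] [Module ℝ E] {K : Set E} (hK : Convex ℝ K)
    (v : E) : Convex ℝ (GFL.liftK K v) := by
  rintro ⟨x, μ⟩ ⟨θ, h1, h2, h3⟩ ⟨x', μ'⟩ ⟨θ', h1', h2', h3'⟩ a b ha hb hab
  simp only at h1 h2 h3 h1' h2' h3'
  refine ⟨a * θ + b * θ', ?_, ?_, ?_⟩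
  · simp only [Prod.smul_mk, Prod.mk_add_mk, smul_eq_mul]
    rw [abs_le] at h1 h1' ⊢
    constructor <;> nlinarith [mul_le_mul_of_nonneg_left h1.1 ha, mul_le_mul_of_nonneg_left h1.2 ha,
      mul_le_mul_of_nonneg_left h1'.1 hb, mul_le_mul_of_nonneg_left h1'.2 hb]
  · have := hK h2 h2' ha hb hab
    convert this using 1
    simp only [Prod.smul_mk, Prod.mk_add_mk, smul_eq_mul]
    module
  · have := hK h3 h3' ha hb hab
    convert this using 1
    simp only [Prod.smul_mk, Prod.mk_add_mk, smul_eq_mul]
    module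

theorem GFL.sum_pair {G M : Type} [AddCommMonoid M] (T : Finset G) (f : G × ℤ → M) :
    ∑ x ∈ T ×ˢ ({0, 1} : Finset ℤ), f x = ∑ x ∈ T, (f (x, 0) + f (x, 1)) := by
  rw [Finset.sum_product]
  refine Finset.sum_congr rfl fun x _ => ?_
  rw [Finset.sum_pair (by norm_num)]


theorem gfl (n : ℕ) : ∀ (G : Type) [AddCommGroup G] (E : Type) [AddCommGroup E] [Module ℝ E]
    (ι : G →+ E) (P : G → ℝ) (S : Finset G) (g : ℕ → G) (V : ℕ → E) (K : Set E)
    (c : ℕ → (ℕ → ℝ) → ℝ),
    (∀ x, 0 ≤ P x) → (∀ x, x ∉ S → P x = 0) → ∑ x ∈ S, P x = 1 →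
    (∀ i, i < n → ι (g i) = (3 : ℝ) • V i) →
    (∀ i, i < n → ∀ T : Finset G, ∑ x ∈ T, |P (x - g i) - P (x + g i)| ≤ 2 / 5) →
    Convex ℝ K → (∀ x, P x ≠ 0 → ι x ∈ K) →
    (∀ i (s s' : ℕ → ℝ), (∀ j, j < i → s j = s' j) → c i s = c i s') →
    (∀ i s, |c i s| ≤ 2 / 5) →
    ∃ s : ℕ → ℝ, (∀ i, i < n → s i - c i s = 1 ∨ s i - c i s = -1) ∧
      ∑ x ∈ S, P x • ι x + ∑ i ∈ range n, s i • V i ∈ K := by
  induction n with
  | zero =>
    intro G _ E _ _ ι P S g V K c h0 hS h1 _ _ hK hsup _ _
    refine ⟨fun _ => 0, fun i hi => absurd hi (Nat.not_lt_zero i), ?_⟩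
    rw [Finset.range_zero, Finset.sum_empty, add_zero]
    have e : ∑ x ∈ S, P x • ι x = ∑ x ∈ S.filter (fun x => P x ≠ 0), P x • ι x := by
      symm
      apply Finset.sum_filter_of_ne
      intro x _ hx hp
      exact hx (by rw [hp, zero_smul])
    rw [e]
    refine hK.sum_mem (fun x _ => h0 x) ?_ fun x hx => hsup x (Finset.mem_filter.1 hx).2
    rw [Finset.sum_filter_ne_zero, h1]
  | succ n ih =>
    intro G _ E _ _ ι P S g V K c h0 hS h1 hg hsh hK hsup hc hcb
    set g0 := g n with hg0
    set v := V n with hv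
    have hgv : ι g0 = (3 : ℝ) • v := hg n (Nat.lt_succ_self n)
    set S1 : Finset G := S.image (· + g0) ∪ S.image (· - g0) with hS1
    have mA : ∀ x ∈ S, x + g0 ∈ S1 := fun x hx =>
      Finset.mem_union_left _ (Finset.mem_image.2 ⟨x, hx, rfl⟩)
    have mB : ∀ x ∈ S, x + -g0 ∈ S1 := fun x hx =>
      Finset.mem_union_right _ (Finset.mem_image.2 ⟨x, hx, by simp [sub_eq_add_neg]⟩)
    have sA : ∑ x ∈ S1, P (x - g0) = 1 := by rw [GFL.sum_shift P S S1 g0 hS mA, h1]
    have sB : ∑ x ∈ S1, P (x + g0) = 1 := by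
      have := GFL.sum_shift P S S1 (-g0) hS mB
      simp only [sub_neg_eq_add] at this
      rw [this, h1]
    have vA : ∑ x ∈ S1, P (x - g0) • ι x = ∑ x ∈ S, P x • ι x + ι g0 := by
      have := GFL.sum_shift (fun x => P x • ι (x + g0)) S S1 g0
        (fun x hx => by simp only [hS x hx, zero_smul]) mA
      simp only [sub_add_cancel] at this
      rw [this]
      simp only [map_add, smul_add, Finset.sum_add_distrib, ← Finset.sum_smul, h1, one_smul]
    have vB : ∑ x ∈ S1, P (x + g0) • ι x = ∑ x ∈ S, P x • ι x - ι g0 := by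
      have := GFL.sum_shift (fun x => P x • ι (x - g0)) S S1 (-g0)
        (fun x hx => by simp only [hS x hx, zero_smul]) mB
      simp only [sub_neg_eq_add, add_sub_cancel_right] at this
      rw [this]
      simp only [map_sub, smul_sub, Finset.sum_sub_distrib, ← Finset.sum_smul, h1, one_smul]
    have l0 : ∀ x : G, GFL.lift P g0 (x, 0) = max (P (x - g0)) (P (x + g0)) / 2 := fun x => by
      simp [GFL.lift]
    have l1 : ∀ x : G, GFL.lift P g0 (x, 1) = min (P (x - g0)) (P (x + g0)) / 2 := fun x => by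
      simp [GFL.lift]
    have l2 : ∀ (x : G) (l : ℤ), l ≠ 0 → l ≠ 1 → GFL.lift P g0 (x, l) = 0 := fun x l a b => by
      simp [GFL.lift, a, b]
    have l01 : ∀ x : G, GFL.lift P g0 (x, 0) + GFL.lift P g0 (x, 1) =
        (P (x - g0) + P (x + g0)) / 2 := fun x => by
      rw [l0, l1, ← add_div, max_add_min]
    obtain ⟨s, hs1, hs2⟩ := ih (G × ℤ) (E × ℝ) (ι.prodMap (Int.castAddHom ℝ)) (GFL.lift P g0)
      (S1 ×ˢ ({0, 1} : Finset ℤ)) (fun i => (g i, 0)) (fun i => (V i, 0)) (GFL.liftK K v) c
      (by
        rintro ⟨x, l⟩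
        have a := h0 (x - g0)
        have b := h0 (x + g0)
        unfold GFL.lift
        split_ifs
        · exact div_nonneg (le_max_of_le_left a) (by norm_num)
        · exact div_nonneg (le_min a b) (by norm_num)
        · exact le_rfl)
      (by
        rintro ⟨x, l⟩ hx
        by_cases a : l = 0 ∨ l = 1
        · have hx1 : x ∉ S1 := fun h => hx (Finset.mem_product.2 ⟨h, by simpa using a⟩)
          have pa : P (x - g0) = 0 := hS _ fun h => hx1 (by simpa using mA _ h)
          have pb : P (x + g0) = 0 := hS _ fun h => hx1 (by simpa using mB _ h)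
          rcases a with rfl | rfl
          · rw [l0, pa, pb]; simp
          · rw [l1, pa, pb]; simp
        · push Not at a
          exact l2 x l a.1 a.2)
      (by
        rw [GFL.sum_pair]
        simp only [l01]
        rw [← Finset.sum_div, Finset.sum_add_distrib, sA, sB]
        norm_num)
      (by
        intro i hi
        have := hg i (Nat.lt_succ_of_lt hi)
        simp [this])
      (by
        intro i hi T
        have t1 : ∑ x ∈ T, |GFL.lift P g0 (x - (g i, 0)) - GFL.lift P g0 (x + (g i, 0))| ≤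
            ∑ x ∈ (T.image Prod.fst) ×ˢ ({0, 1} : Finset ℤ),
              |GFL.lift P g0 (x - (g i, 0)) - GFL.lift P g0 (x + (g i, 0))| := by
          rw [← Finset.sum_filter_ne_zero T]
          refine Finset.sum_le_sum_of_subset_of_nonneg ?_ fun _ _ _ => abs_nonneg _
          rintro ⟨x, l⟩ hx'
          obtain ⟨hx, hne⟩ := Finset.mem_filter.1 hx'
          refine Finset.mem_product.2 ⟨Finset.mem_image.2 ⟨_, hx, rfl⟩, ?_⟩
          by_contra hl
          simp only [Finset.mem_insert, Finset.mem_singleton, not_or] at hl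
          apply hne
          simp only [Prod.mk_sub_mk, Prod.mk_add_mk, sub_zero, add_zero]
          rw [l2 _ l hl.1 hl.2, l2 _ l hl.1 hl.2]
          simp
        refine t1.trans ?_
        rw [GFL.sum_pair]
        simp only [Prod.mk_sub_mk, Prod.mk_add_mk, sub_zero, add_zero, l0, l1]
        refine (Finset.sum_le_sum fun x _ => GFL.maxmin _ _ _ _).trans ?_
        rw [← Finset.sum_div, Finset.sum_add_distrib]
        have u1 := hsh i (Nat.lt_succ_of_lt hi) ((T.image Prod.fst).image (· - g0))
        have u2 := hsh i (Nat.lt_succ_of_lt hi) ((T.image Prod.fst).image (· + g0))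
        rw [Finset.sum_image (fun x _ y _ e => sub_left_injective e)] at u1
        rw [Finset.sum_image (fun x _ y _ e => add_right_cancel e)] at u2
        have w1 : ∀ x : G, x - g i - g0 = x - g0 - g i := fun x => by abel
        have w2 : ∀ x : G, x + g i - g0 = x - g0 + g i := fun x => by abel
        have w3 : ∀ x : G, x - g i + g0 = x + g0 - g i := fun x => by abel
        have w4 : ∀ x : G, x + g i + g0 = x + g0 + g i := fun x => by abel
        simp only [w1, w2, w3, w4]
        linarith)
      (GFL.convex_liftK hK v)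
      (by
        rintro ⟨x, l⟩ hx
        have ka : P (x - g0) ≠ 0 → ι x + (-3 : ℝ) • v ∈ K := fun h => by
          have := hsup _ h
          rw [map_sub, hgv] at this
          convert this using 1
          module
        have kb : P (x + g0) ≠ 0 → ι x + (3 : ℝ) • v ∈ K := fun h => by
          have := hsup _ h
          rwa [map_add, hgv] at this
        by_cases a : l = 0
        · subst a
          rw [l0] at hx
          by_cases pa : P (x - g0) = 0
          · have pb : P (x + g0) ≠ 0 := fun pb => hx (by rw [pa, pb]; simp)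
            refine ⟨3, ?_, ?_, ?_⟩
            · simp
            · simpa using kb pb
            · simpa using kb pb
          · refine ⟨-3, ?_, ?_, ?_⟩
            · simp
            · simpa using ka pa
            · simpa using ka pa
        · by_cases b : l = 1
          · subst b
            rw [l1] at hx
            have pa : P (x - g0) ≠ 0 := fun pa => hx (by
              rw [pa, min_eq_left (h0 _)]; simp)
            have pb : P (x + g0) ≠ 0 := fun pb => hx (by
              rw [pb, min_eq_right (h0 _)]; simp)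
            refine ⟨0, ?_, ?_, ?_⟩
            · simp
            · simpa using ka pa
            · simpa using kb pb
          · exact absurd (l2 x l a b) hx)
      hc hcb
    set m : ℝ := ∑ x ∈ S1, min (P (x - g0)) (P (x + g0)) / 2 with hm
    have hm25 : 2 / 5 ≤ m := by
      have u := hsh n (Nat.lt_succ_self n) S1
      have e : ∀ x : G, min (P (x - g0)) (P (x + g0)) / 2 =
          (P (x - g0) + P (x + g0) - |P (x - g0) - P (x + g0)|) / 4 := fun x => by
        rcases le_total (P (x - g0)) (P (x + g0)) with h | h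
        · rw [min_eq_left h, abs_of_nonpos (by linarith)]; ring
        · rw [min_eq_right h, abs_of_nonneg (by linarith)]; ring
      rw [hm]
      simp only [e]
      rw [← Finset.sum_div, Finset.sum_sub_distrib, Finset.sum_add_distrib, sA, sB]
      linarith
    set y : E := ∑ x ∈ S, P x • ι x + ∑ i ∈ range n, s i • V i with hy
    have key : ∑ x ∈ S1 ×ˢ ({0, 1} : Finset ℤ), GFL.lift P g0 x • (ι.prodMap (Int.castAddHom ℝ)) x +
        ∑ i ∈ range n, s i • ((V i, 0) : E × ℝ) = (y, m) := by
      rw [GFL.sum_pair]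
      ext
      · simp only [Prod.fst_add, Prod.fst_sum, Prod.smul_fst, AddMonoidHom.coe_prodMap, Prod.map_fst]
        simp only [← add_smul, l01]
        rw [hy]
        congr 1
        have e : ∀ x : G, ((P (x - g0) + P (x + g0)) / 2) • ι x =
            (1 / 2 : ℝ) • (P (x - g0) • ι x + P (x + g0) • ι x) := fun x => by module
        simp only [e]
        rw [← Finset.smul_sum, Finset.sum_add_distrib, vA, vB]
        module
      · simp only [Prod.snd_add, Prod.snd_sum, Prod.smul_snd, AddMonoidHom.coe_prodMap, Prod.map_snd,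
          l0, l1]
        simp [hm]
    rw [key] at hs2
    obtain ⟨θ, t1, t2, t3⟩ := hs2
    simp only at t1 t2 t3
    rw [abs_le] at t1
    have cb := abs_le.1 (hcb n s)
    have fin : ∀ t : ℝ, (t - c n s = 1 ∨ t - c n s = -1) → θ - 3 * m ≤ t → t ≤ θ + 3 * m →
        ∃ s : ℕ → ℝ, (∀ i, i < n + 1 → s i - c i s = 1 ∨ s i - c i s = -1) ∧
          ∑ x ∈ S, P x • ι x + ∑ i ∈ range (n + 1), s i • V i ∈ K := by
      intro t ht a b
      refine ⟨Function.update s n t, fun i hi => ?_, ?_⟩
      · have e : c i (Function.update s n t) = c i s :=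
          hc i _ _ fun j hj => Function.update_of_ne (by omega) _ _
        rw [e]
        rcases Nat.lt_succ_iff_lt_or_eq.1 hi with h | h
        · rw [Function.update_of_ne (by omega)]
          exact hs1 i h
        · subst h
          rw [Function.update_self]
          exact ht
      · rw [Finset.sum_range_succ, Function.update_self]
        have e : ∑ i ∈ range n, Function.update s n t i • V i = ∑ i ∈ range n, s i • V i :=
          Finset.sum_congr rfl fun i hi => by
            rw [Function.update_of_ne (by have := Finset.mem_range.1 hi; omega)]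
        rw [e, ← add_assoc]
        exact GFL.seg hK t2 t3 a b
    by_cases h : c n s + 1 ≤ θ + 3 * m
    · exact fin (c n s + 1) (Or.inl (by ring)) (by linarith) h
    · push Not at h
      exact fin (c n s - 1) (Or.inr (by ring)) (by linarith) (by linarith)

end Crest.Agent.R239
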