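import Crest.Agent.R239.Defs

/-!
# Row 239: the rounding kernel

`rk` is `π/2`-Lipschitz, vanishes outside `(-1, 1)`, and `cos² (π u / 2) + cos² (π (1 - u) / 2) = 1`.
`rk_dist`: at most four terms are not zero and `4 (π/2)² < 10`.
`rk_prod_dist`: enlarge `T` to a box `Fintype.piFinset fun l => T l` with `T l ∋ ⌊x l⌋, ⌊x l⌋ + 1, ⌊y l⌋,
⌊y l⌋ + 1`; put `u τ = ∏ rk (τ l - x l)`, `w τ = ∏ rk (τ l - y l)`, unit vectors (`Finset.prod_univ_sum`);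
`∑ |u² - w²| ≤ ‖u - w‖ ‖u + w‖ ≤ 2 ‖u - w‖` and `‖u - w‖² = 2 - 2 ∏ p l ≤ ∑ (2 - 2 p l)` where
`p l = ⟨u l, w l⟩ ∈ [0, 1]` and `2 - 2 p l = ‖u l - w l‖² ≤ 10 (x l - y l)²`.
-/

set_option autoImplicit false

namespace Crest.Agent.R239

open Finset Classical

namespace RndX

theorem rk_eq (t : ℝ) : rk t = Real.cos (Real.pi / 2 * max (-1) (min 1 t)) := by
  unfold rk
  split_ifs with h
  · obtain ⟨h1, h2⟩ := abs_le.1 h
    rw [min_eq_right h2, max_eq_right h1]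
    congr 1
    ring
  · rcases le_total t 0 with h0 | h0
    · rw [abs_of_nonpos h0] at h
      rw [min_eq_right (by linarith), max_eq_left (by linarith), mul_neg, mul_one, Real.cos_neg,
        Real.cos_pi_div_two]
    · rw [abs_of_nonneg h0] at h
      rw [min_eq_left (by linarith), max_eq_right (by norm_num), mul_one, Real.cos_pi_div_two]

theorem rk_lip (s t : ℝ) : |rk s - rk t| ≤ Real.pi / 2 * |s - t| := by
  have hp := Real.pi_pos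
  rw [rk_eq, rk_eq]
  refine (Real.abs_cos_sub_cos_le _ _).trans ?_
  rw [← mul_sub, abs_mul, abs_of_pos (by positivity : 0 < Real.pi / 2)]
  refine mul_le_mul_of_nonneg_left ?_ (by positivity)
  rw [max_comm (-1), max_comm (-1)]
  refine (abs_max_sub_max_le_abs _ _ _).trans ?_
  have := abs_min_sub_min_le_max (1 : ℝ) s 1 t
  rwa [sub_self, abs_zero, max_eq_right (abs_nonneg _)] at this

theorem one_sub_prod {ι : Type} (I : Finset ι) (p : ι → ℝ) (h0 : ∀ i, 0 ≤ p i) (h1 : ∀ i, p i ≤ 1) :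
    1 - ∏ i ∈ I, p i ≤ ∑ i ∈ I, (1 - p i) := by
  induction I using Finset.induction_on with
  | empty => simp
  | insert a I ha ih =>
      rw [prod_insert ha, sum_insert ha]
      have h2 : ∏ i ∈ I, p i ≤ 1 := prod_le_one (fun i _ => h0 i) fun i _ => h1 i
      nlinarith [h1 a, mul_nonneg (sub_nonneg.2 (h1 a)) (sub_nonneg.2 h2)]

end RndX

theorem rk_nonneg (t : ℝ) : 0 ≤ rk t := by
  have hp := Real.pi_pos
  unfold rk
  split_ifs with h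
  · obtain ⟨h1, h2⟩ := abs_le.1 h
    exact Real.cos_nonneg_of_neg_pi_div_two_le_of_le (by nlinarith) (by nlinarith)
  · exact le_rfl

theorem abs_lt_of_rk_ne {t : ℝ} (h : rk t ≠ 0) : |t| < 1 := by
  by_contra hc
  refine h ?_
  rw [RndX.rk_eq]
  rcases le_abs.1 (not_lt.1 hc) with h1 | h1
  · rw [min_eq_left h1, max_eq_right (by norm_num), mul_one, Real.cos_pi_div_two]
  · rw [min_eq_right (by linarith), max_eq_left (by linarith), mul_neg, mul_one, Real.cos_neg,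
      Real.cos_pi_div_two]

theorem RndX.supp {x : ℝ} {τ : ℤ} (h : rk ((τ : ℝ) - x) ≠ 0) : τ = ⌊x⌋ ∨ τ = ⌊x⌋ + 1 := by
  obtain ⟨h1, h2⟩ := abs_lt.1 (abs_lt_of_rk_ne h)
  have h3 := Int.floor_le x
  have h4 := Int.lt_floor_add_one x
  have h5 : ((⌊x⌋ - 1 : ℤ) : ℝ) < τ := by push_cast; linarith
  have h6 : (τ : ℝ) < ((⌊x⌋ + 2 : ℤ) : ℝ) := by push_cast; linarith
  have h7 := Int.cast_lt.1 h5
  have h8 := Int.cast_lt.1 h6
  omega

theorem rk_sum (x : ℝ) (T : Finset ℤ) (h0 : ⌊x⌋ ∈ T) (h1 : ⌊x⌋ + 1 ∈ T) :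
    ∑ τ ∈ T, rk ((τ : ℝ) - x) ^ 2 = 1 := by
  have h3 := Int.floor_le x
  have h4 := Int.lt_floor_add_one x
  rw [← sum_subset (s₁ := {⌊x⌋, ⌊x⌋ + 1}) (by
      intro τ hτ
      rcases mem_insert.1 hτ with rfl | hτ
      · exact h0
      · rw [mem_singleton.1 hτ]; exact h1) (fun τ _ hτ => by
      have : rk ((τ : ℝ) - x) = 0 := by
        by_contra hc
        exact hτ (by simpa using RndX.supp hc)
      rw [this]
      norm_num), sum_pair (by omega)]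
  unfold rk
  push_cast
  rw [if_pos (abs_le.2 ⟨by linarith, by linarith⟩), if_pos (abs_le.2 ⟨by linarith, by linarith⟩)]
  have e : Real.pi * ((⌊x⌋ : ℝ) + 1 - x) / 2 = Real.pi * ((⌊x⌋ : ℝ) - x) / 2 + Real.pi / 2 := by ring
  rw [e, Real.cos_add_pi_div_two, neg_sq, Real.cos_sq_add_sin_sq]

theorem rk_sum_le (x : ℝ) (T : Finset ℤ) : ∑ τ ∈ T, rk ((τ : ℝ) - x) ^ 2 ≤ 1 := by
  rw [← rk_sum x (T ∪ {⌊x⌋, ⌊x⌋ + 1}) (by simp) (by simp)]
  exact sum_le_sum_of_subset_of_nonneg subset_union_left fun _ _ _ => sq_nonneg _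

theorem rk_dist (x y : ℝ) (T : Finset ℤ) :
    ∑ τ ∈ T, (rk ((τ : ℝ) - x) - rk ((τ : ℝ) - y)) ^ 2 ≤ 10 * (x - y) ^ 2 := by
  have hp := Real.pi_pos
  have hp2 := Real.pi_lt_d2
  set S : Finset ℤ := {⌊x⌋, ⌊x⌋ + 1, ⌊y⌋, ⌊y⌋ + 1} with hS
  have h1 : ∑ τ ∈ T, (rk ((τ : ℝ) - x) - rk ((τ : ℝ) - y)) ^ 2 ≤
      ∑ τ ∈ S, (rk ((τ : ℝ) - x) - rk ((τ : ℝ) - y)) ^ 2 := by
    rw [← sum_filter_ne_zero T]
    refine sum_le_sum_of_subset_of_nonneg (fun τ hτ => ?_) fun _ _ _ => sq_nonneg _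
    replace hτ := (mem_filter.1 hτ).2
    by_cases c1 : rk ((τ : ℝ) - x) = 0
    · by_cases c2 : rk ((τ : ℝ) - y) = 0
      · rw [c1, c2] at hτ
        norm_num at hτ
      · rcases RndX.supp c2 with h | h <;> simp [hS, h]
    · rcases RndX.supp c1 with h | h <;> simp [hS, h]
  have h2 : (S.card : ℝ) ≤ 4 := by exact_mod_cast (card_le_four : S.card ≤ 4)
  have h3 : ∀ τ ∈ S, (rk ((τ : ℝ) - x) - rk ((τ : ℝ) - y)) ^ 2 ≤ (Real.pi / 2) ^ 2 * (x - y) ^ 2 := by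
    intro τ _
    have := RndX.rk_lip ((τ : ℝ) - x) ((τ : ℝ) - y)
    rw [sub_sub_sub_cancel_left, abs_sub_comm y x] at this
    have := pow_le_pow_left₀ (abs_nonneg _) this 2
    rwa [mul_pow, sq_abs, sq_abs] at this
  refine h1.trans ((sum_le_card_nsmul _ _ _ h3).trans ?_)
  rw [nsmul_eq_mul, ← mul_assoc]
  refine mul_le_mul_of_nonneg_right ?_ (sq_nonneg _)
  have h4 := mul_le_mul_of_nonneg_right h2 (sq_nonneg (Real.pi / 2))
  nlinarith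

theorem rk_prod_sum {L : Type} [Fintype L] (x : L → ℝ) (T : L → Finset ℤ)
    (h0 : ∀ l, ⌊x l⌋ ∈ T l) (h1 : ∀ l, ⌊x l⌋ + 1 ∈ T l) :
    ∑ τ ∈ Fintype.piFinset T, ∏ l, rk ((τ l : ℝ) - x l) ^ 2 = 1 := by
  rw [← prod_univ_sum T fun l τ => rk ((τ : ℝ) - x l) ^ 2]
  exact prod_eq_one fun l _ => rk_sum _ _ (h0 l) (h1 l)

theorem rk_prod_sum_le {L : Type} [Fintype L] (x : L → ℝ) (T : Finset (L → ℤ)) :
    ∑ τ ∈ T, ∏ l, rk ((τ l : ℝ) - x l) ^ 2 ≤ 1 := by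
  rw [← rk_prod_sum x (fun l => T.image (fun τ => τ l) ∪ {⌊x l⌋, ⌊x l⌋ + 1}) (by simp) (by simp)]
  refine sum_le_sum_of_subset_of_nonneg (fun τ hτ => ?_)
    fun _ _ _ => prod_nonneg fun _ _ => sq_nonneg _
  exact Fintype.mem_piFinset.2 fun l => mem_union_left _ (mem_image_of_mem (fun τ => τ l) hτ)

theorem rk_prod_dist {L : Type} [Fintype L] (x y : L → ℝ) (T : Finset (L → ℤ)) :
    ∑ τ ∈ T, |∏ l, rk ((τ l : ℝ) - x l) ^ 2 - ∏ l, rk ((τ l : ℝ) - y l) ^ 2| ≤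
      2 * √(10 * ∑ l, (x l - y l) ^ 2) := by
  set U : L → Finset ℤ := fun l =>
    T.image (fun τ => τ l) ∪ {⌊x l⌋, ⌊x l⌋ + 1, ⌊y l⌋, ⌊y l⌋ + 1} with hU
  have x0 : ∀ l, ⌊x l⌋ ∈ U l := by simp [hU]
  have x1 : ∀ l, ⌊x l⌋ + 1 ∈ U l := by simp [hU]
  have y0 : ∀ l, ⌊y l⌋ ∈ U l := by simp [hU]
  have y1 : ∀ l, ⌊y l⌋ + 1 ∈ U l := by simp [hU]
  have hsub : T ⊆ Fintype.piFinset U := fun τ hτ =>
    Fintype.mem_piFinset.2 fun l => mem_union_left _ (mem_image_of_mem (fun τ => τ l) hτ)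
  refine (sum_le_sum_of_subset_of_nonneg hsub fun _ _ _ => abs_nonneg _).trans ?_
  have hu := rk_prod_sum x U x0 x1
  have hw := rk_prod_sum y U y0 y1
  set p : L → ℝ := fun l => ∑ τ ∈ U l, rk ((τ : ℝ) - x l) * rk ((τ : ℝ) - y l) with hp
  have huw := prod_univ_sum U fun l (τ : ℤ) => rk ((τ : ℝ) - x l) * rk ((τ : ℝ) - y l)
  simp only [prod_pow, prod_mul_distrib] at hu hw huw ⊢
  set u : (L → ℤ) → ℝ := fun τ => ∏ l, rk ((τ l : ℝ) - x l) with hu'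
  set w : (L → ℤ) → ℝ := fun τ => ∏ l, rk ((τ l : ℝ) - y l) with hw'
  have e1 : ∀ l, ∑ τ ∈ U l, (rk ((τ : ℝ) - x l) - rk ((τ : ℝ) - y l)) ^ 2 = 2 * (1 - p l) := by
    intro l
    simp only [sub_sq, sum_add_distrib, sum_sub_distrib, mul_assoc, ← mul_sum]
    rw [rk_sum _ _ (x0 l) (x1 l), rk_sum _ _ (y0 l) (y1 l)]
    ring
  have p0 : ∀ l, 0 ≤ p l := fun l => sum_nonneg fun τ _ => mul_nonneg (rk_nonneg _) (rk_nonneg _)
  have p1 : ∀ l, p l ≤ 1 := fun l => by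
    have : 0 ≤ 2 * (1 - p l) := e1 l ▸ sum_nonneg fun τ _ => sq_nonneg _
    linarith
  have h1 := RndX.one_sub_prod univ p p0 p1
  have h2 : 2 * ∑ l, (1 - p l) ≤ 10 * ∑ l, (x l - y l) ^ 2 := by
    rw [mul_sum, mul_sum]
    exact sum_le_sum fun l _ => e1 l ▸ rk_dist _ _ _
  have e2 : ∑ τ ∈ Fintype.piFinset U, (u τ - w τ) ^ 2 = 2 * (1 - ∏ l, p l) := by
    simp only [sub_sq, sum_add_distrib, sum_sub_distrib, mul_assoc, ← mul_sum]
    rw [hu, hw, ← huw]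
    ring
  have e3 : ∑ τ ∈ Fintype.piFinset U, (u τ + w τ) ^ 2 ≤ 4 := by
    simp only [add_sq, sum_add_distrib, mul_assoc, ← mul_sum]
    rw [hu, hw, ← huw]
    have : ∏ l, p l ≤ 1 := prod_le_one (fun i _ => p0 i) fun i _ => p1 i
    linarith
  have h3 := sum_mul_sq_le_sq_mul_sq (Fintype.piFinset U) (fun τ => |u τ + w τ|)
    fun τ => |u τ - w τ|
  simp only [sq_abs, ← abs_mul, ← sq_sub_sq] at h3
  have h4 : 0 ≤ ∑ τ ∈ Fintype.piFinset U, (u τ - w τ) ^ 2 := sum_nonneg fun _ _ => sq_nonneg _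
  have h5 := mul_le_mul_of_nonneg_right e3 h4
  have h6 : 0 ≤ 10 * ∑ l, (x l - y l) ^ 2 := by positivity
  refine abs_le_of_sq_le_sq' ?_ (by positivity) |>.2
  rw [mul_pow, Real.sq_sqrt h6]
  linarith

end Crest.Agent.R239
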