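import Crest.Agent.R239.Pm
import Crest.Agent.R239.Rnd

/-!
# Row 239: the joint law `PP`

`PP_supp`: take `S := box n ×ˢ Fintype.piFinset fun _ => Icc (-M) M` with `M` so large that
`⌊φ l (3k)⌋` and `⌊φ l (3k)⌋ + 1` lie in `Icc (-M) M` for all `k` in the box (`rk (τ - x) ≠ 0` forces
`τ ∈ {⌊x⌋, ⌊x⌋ + 1}`); for fixed `k` the weights `∏ rk²` sum to `1` (`rk_prod_sum`) and on their support
`τ l ≤ φ l (3k) + 1`.
`PP_tv`: bound the sum over `T` by the sum over `T₁ ×ˢ T₂` (images of `T`); for fixed `k`: if both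
`k ± e i` are in the box (then `k` is in the box) use `rk_prod_dist` and `hX`; if exactly one is in
the box the inner sum is at most `1 / 21 ^ n` (`rk_prod_sum_le`) and there are at most
`4 · 21 ^ (n - 1)` such `k` (`k i ∈ {-11, -10, 10, 11}`, the other coordinates in `Icc (-10) 10`);
finish with `av_sqrt_le`.
-/

set_option autoImplicit false

namespace Crest.Agent.R239

open Finset Classical

theorem PP_nonneg {n : ℕ} {L : Type} [Fintype L] (φ : L → (Fin n → ℝ) → ℝ)
    (x : (Fin n → ℤ) × (L → ℤ)) : 0 ≤ PP φ x := by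
  unfold PP
  split_ifs
  · exact div_nonneg (prod_nonneg fun _ _ => sq_nonneg _) (by positivity)
  · exact le_rfl

theorem LabAX.abs_lt_of_PP {n : ℕ} {L : Type} [Fintype L] (φ : L → (Fin n → ℝ) → ℝ)
    (x : (Fin n → ℤ) × (L → ℤ)) (h : PP φ x ≠ 0) (l : L) :
    |(x.2 l : ℝ) - φ l (fun q => 3 * (x.1 q : ℝ))| < 1 := by
  unfold PP at h
  split_ifs at h with hx
  · refine abs_lt_of_rk_ne fun h0 => h ?_
    rw [prod_eq_zero (mem_univ l) (by rw [h0]; norm_num), zero_div]
  · exact absurd rfl h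

theorem LabAX.mem_box {n : ℕ} (k : Fin n → ℤ) : k ∈ box n ↔ ∀ j, -10 ≤ k j ∧ k j ≤ 10 := by
  simp [box, Fintype.mem_piFinset]

theorem LabAX.PP_of_mem {n : ℕ} {L : Type} [Fintype L] (φ : L → (Fin n → ℝ) → ℝ)
    {k : Fin n → ℤ} (hk : k ∈ box n) (τ : L → ℤ) : PP φ (k, τ) =
      (∏ l, rk ((τ l : ℝ) - φ l fun q => 3 * (k q : ℝ)) ^ 2) / 21 ^ n := if_pos hk

theorem LabAX.PP_of_not_mem {n : ℕ} {L : Type} [Fintype L] (φ : L → (Fin n → ℝ) → ℝ)
    {k : Fin n → ℤ} (hk : k ∉ box n) (τ : L → ℤ) : PP φ (k, τ) = 0 := if_neg hk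

theorem LabAX.sum_PP_le {n : ℕ} {L : Type} [Fintype L] (φ : L → (Fin n → ℝ) → ℝ)
    {k : Fin n → ℤ} (hk : k ∈ box n) (T : Finset (L → ℤ)) :
    ∑ τ ∈ T, PP φ (k, τ) ≤ 1 / 21 ^ n := by
  simp only [LabAX.PP_of_mem φ hk]
  rw [← sum_div]
  exact div_le_div_of_nonneg_right (rk_prod_sum_le _ T) (by positivity)

/-- the boundary layer -/
noncomputable def LabAX.bd (n : ℕ) (i : Fin n) : Finset (Fin n → ℤ) :=
  Fintype.piFinset fun j => if j = i then ({-11, -10, 10, 11} : Finset ℤ) else Finset.Icc (-10) 10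

theorem LabAX.card_bd (n : ℕ) (i : Fin n) : ((LabAX.bd n i).card : ℝ) * 21 = 4 * 21 ^ n := by
  unfold LabAX.bd
  rw [Fintype.card_piFinset, ← Finset.mul_prod_erase univ _ (mem_univ i), if_pos rfl]
  have h1 : ∏ j ∈ univ.erase i, (if j = i then ({-11, -10, 10, 11} : Finset ℤ)
      else Finset.Icc (-10) 10).card = 21 ^ (n - 1) := by
    rw [prod_congr rfl (g := fun _ => 21), prod_const, card_erase_of_mem (mem_univ i), card_univ,
      Fintype.card_fin]
    intro j hj
    rw [if_neg (ne_of_mem_erase hj)]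
    rfl
  have h2 : ({-11, -10, 10, 11} : Finset ℤ).card = 4 := by decide
  have h3 : n = (n - 1) + 1 := by have := i.2; omega
  rw [h1, h2]
  conv_rhs => rw [h3, pow_succ]
  push_cast
  ring

theorem LabAX.mem_bd {n : ℕ} {i : Fin n} {k : Fin n → ℤ}
    (h1 : k i = -11 ∨ k i = -10 ∨ k i = 10 ∨ k i = 11) (h2 : ∀ j, j ≠ i → -10 ≤ k j ∧ k j ≤ 10) :
    k ∈ LabAX.bd n i := by
  unfold LabAX.bd
  rw [Fintype.mem_piFinset]
  intro j
  split_ifs with h
  · subst h
    simpa using h1
  · exact mem_Icc.2 (h2 j h)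

theorem PP_ne {n : ℕ} {L : Type} [Fintype L] (φ : L → (Fin n → ℝ) → ℝ)
    (x : (Fin n → ℤ) × (L → ℤ)) (h : PP φ x ≠ 0) (l : L) :
    φ l (fun q => 3 * (x.1 q : ℝ)) ≤ (x.2 l : ℝ) + 1 := by
  have := LabAX.abs_lt_of_PP φ x h l
  rw [abs_lt] at this
  linarith [this.1]

theorem PP_supp {n : ℕ} {L : Type} [Fintype L] (φ : L → (Fin n → ℝ) → ℝ) :
    ∃ S : Finset ((Fin n → ℤ) × (L → ℤ)), (∀ x, x ∉ S → PP φ x = 0) ∧ ∑ x ∈ S, PP φ x = 1 ∧
      (∀ i, ∑ x ∈ S, PP φ x * (x.1 i : ℝ) = 0) ∧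
      ∀ l, ∑ x ∈ S, PP φ x * (x.2 l : ℝ) ≤ av n (fun k => φ l fun q => 3 * (k q : ℝ)) + 1 := by
  set T : L → Finset ℤ := fun l => (box n).biUnion fun k =>
    {⌊φ l fun q => 3 * (k q : ℝ)⌋, ⌊φ l fun q => 3 * (k q : ℝ)⌋ + 1} with hT
  have hone : ∀ k ∈ box n, ∑ τ ∈ Fintype.piFinset T, PP φ (k, τ) = 1 / 21 ^ n := by
    intro k hk
    simp only [LabAX.PP_of_mem φ hk]
    rw [← sum_div, rk_prod_sum]
    · intro l
      exact mem_biUnion.2 ⟨k, hk, by simp⟩
    · intro l
      exact mem_biUnion.2 ⟨k, hk, by simp⟩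
  refine ⟨box n ×ˢ Fintype.piFinset T, fun x hx => ?_, ?_, fun i => ?_, fun l => ?_⟩
  · by_contra h
    refine hx (mem_product.2 ⟨?_, Fintype.mem_piFinset.2 fun l => ?_⟩)
    · by_contra h'
      exact h (if_neg h')
    · have hk : x.1 ∈ box n := by
        by_contra h'
        exact h (if_neg h')
      have h1 := abs_lt.1 (LabAX.abs_lt_of_PP φ x h l)
      refine mem_biUnion.2 ⟨x.1, hk, ?_⟩
      have h2 : x.2 l - 1 ≤ ⌊φ l fun q => 3 * (x.1 q : ℝ)⌋ :=
        Int.le_floor.2 (by push_cast; linarith [h1.2])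
      have h3 : ⌊φ l fun q => 3 * (x.1 q : ℝ)⌋ < x.2 l + 1 :=
        Int.floor_lt.2 (by push_cast; linarith [h1.1])
      rw [mem_insert, mem_singleton]
      omega
  · rw [sum_product, sum_congr rfl hone, sum_const, card_box, nsmul_eq_mul]
    push_cast
    field_simp
  · rw [sum_product, ← av_coord i]
    unfold av
    rw [sum_div]
    refine sum_congr rfl fun k hk => ?_
    simp only
    rw [← sum_mul, hone k hk]
    ring
  · rw [sum_product, ← av_const n 1, ← av_add]
    unfold av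
    rw [sum_div]
    refine sum_le_sum fun k hk => ?_
    have h1 : ∀ τ ∈ Fintype.piFinset T, PP φ (k, τ) * (τ l : ℝ) ≤
        PP φ (k, τ) * ((φ l fun q => 3 * (k q : ℝ)) + 1) := by
      intro τ _
      by_cases h : PP φ (k, τ) = 0
      · rw [h, zero_mul, zero_mul]
      · have h2 := (abs_lt.1 (LabAX.abs_lt_of_PP φ (k, τ) h l)).2
        exact mul_le_mul_of_nonneg_left (by simp only at h2; linarith) (PP_nonneg φ _)
    refine (sum_le_sum h1).trans (le_of_eq ?_)
    rw [← sum_mul, hone k hk]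
    ring

theorem PP_tv {n : ℕ} {L : Type} [Fintype L] (φ : L → (Fin n → ℝ) → ℝ) (i : Fin n)
    (X : (Fin n → ℤ) → ℝ) (hX0 : ∀ k, 0 ≤ X k)
    (hX : ∀ k : Fin n → ℤ, ∑ l, (φ l ((fun q => 3 * (k q : ℝ)) - Pi.single i 3) -
      φ l ((fun q => 3 * (k q : ℝ)) + Pi.single i 3)) ^ 2 ≤ X k)
    (T : Finset ((Fin n → ℤ) × (L → ℤ))) :
    ∑ x ∈ T, |PP φ (x - (Pi.single i 1, 0)) - PP φ (x + (Pi.single i 1, 0))| ≤
      4 / 21 + 2 * √(10 * av n X) := by
  set e : Fin n → ℤ := Pi.single i 1 with he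
  have hei : e i = 1 := by simp [he]
  have hej : ∀ j, j ≠ i → e j = 0 := fun j hj => by simp [he, hj]
  set T1 := T.image Prod.fst
  set T2 := T.image Prod.snd
  have hsub : T ⊆ T1 ×ˢ T2 := fun x hx =>
    mem_product.2 ⟨mem_image_of_mem _ hx, mem_image_of_mem _ hx⟩
  refine (sum_le_sum_of_subset_of_nonneg hsub fun _ _ _ => abs_nonneg _).trans ?_
  rw [sum_product]
  have key : ∀ k ∈ T1, ∑ τ ∈ T2, |PP φ ((k, τ) - (e, 0)) - PP φ ((k, τ) + (e, 0))| ≤
      (if k ∈ LabAX.bd n i then 1 / 21 ^ n else 0) +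
        (if k ∈ box n then 2 * √(10 * X k) / 21 ^ n else 0) := by
    intro k _
    simp only [Prod.mk_sub_mk, Prod.mk_add_mk, sub_zero, add_zero]
    have n1 : (0 : ℝ) ≤ if k ∈ LabAX.bd n i then 1 / 21 ^ n else 0 := by
      split_ifs <;> positivity
    have n2 : (0 : ℝ) ≤ if k ∈ box n then 2 * √(10 * X k) / 21 ^ n else 0 := by
      split_ifs <;> positivity
    by_cases h1 : k - e ∈ box n <;> by_cases h2 : k + e ∈ box n
    · have hk : k ∈ box n := by
        rw [LabAX.mem_box] at h1 h2 ⊢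
        intro j
        have a1 := h1 j
        have a2 := h2 j
        simp only [Pi.sub_apply, Pi.add_apply] at a1 a2
        omega
      rw [if_pos hk]
      refine le_trans ?_ (le_add_of_nonneg_left n1)
      simp only [LabAX.PP_of_mem φ h1, LabAX.PP_of_mem φ h2, ← sub_div, abs_div]
      rw [← sum_div, abs_of_pos (by positivity : (0 : ℝ) < 21 ^ n)]
      refine div_le_div_of_nonneg_right ((rk_prod_dist _ _ T2).trans ?_) (by positivity)
      refine mul_le_mul_of_nonneg_left (Real.sqrt_le_sqrt ?_) (by norm_num)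
      refine mul_le_mul_of_nonneg_left (le_trans (le_of_eq ?_) (hX k)) (by norm_num)
      have e1 : (fun q => 3 * (((k - e) q : ℤ) : ℝ))
          = (fun q => 3 * (k q : ℝ)) - Pi.single i 3 := by
        funext q
        by_cases hq : q = i
        · subst hq; simp [hei]; ring
        · simp [hej q hq, hq]
      have e2 : (fun q => 3 * (((k + e) q : ℤ) : ℝ))
          = (fun q => 3 * (k q : ℝ)) + Pi.single i 3 := by
        funext q
        by_cases hq : q = i
        · subst hq; simp [hei]; ring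
        · simp [hej q hq, hq]
      rw [e1, e2]
    · have hk : k ∈ LabAX.bd n i := by
        rw [LabAX.mem_box] at h1 h2
        have a0 : ∀ j, j ≠ i → -10 ≤ k j ∧ k j ≤ 10 := by
          intro j hj
          have a1 := h1 j
          simp only [Pi.sub_apply, hej j hj] at a1
          omega
        refine LabAX.mem_bd ?_ a0
        by_contra hc
        refine h2 fun j => ?_
        by_cases hj : j = i
        · subst hj
          have a1 := h1 j
          simp only [Pi.sub_apply, Pi.add_apply, hei] at a1 ⊢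
          omega
        · have a1 := a0 j hj
          simp only [Pi.add_apply, hej j hj]
          omega
      rw [if_pos hk]
      refine le_trans ?_ (le_add_of_nonneg_right n2)
      simp only [LabAX.PP_of_not_mem φ h2, sub_zero, abs_of_nonneg (PP_nonneg φ _)]
      exact LabAX.sum_PP_le φ h1 T2
    · have hk : k ∈ LabAX.bd n i := by
        rw [LabAX.mem_box] at h1 h2
        have a0 : ∀ j, j ≠ i → -10 ≤ k j ∧ k j ≤ 10 := by
          intro j hj
          have a1 := h2 j
          simp only [Pi.add_apply, hej j hj] at a1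
          omega
        refine LabAX.mem_bd ?_ a0
        by_contra hc
        refine h1 fun j => ?_
        by_cases hj : j = i
        · subst hj
          have a1 := h2 j
          simp only [Pi.sub_apply, Pi.add_apply, hei] at a1 ⊢
          omega
        · have a1 := a0 j hj
          simp only [Pi.sub_apply, hej j hj]
          omega
      rw [if_pos hk]
      refine le_trans ?_ (le_add_of_nonneg_right n2)
      simp only [LabAX.PP_of_not_mem φ h1, zero_sub, abs_neg, abs_of_nonneg (PP_nonneg φ _)]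
      exact LabAX.sum_PP_le φ h2 T2
    · simp only [LabAX.PP_of_not_mem φ h1, LabAX.PP_of_not_mem φ h2, sub_zero, abs_zero,
        sum_const_zero]
      exact add_nonneg n1 n2
  refine (sum_le_sum key).trans ?_
  rw [sum_add_distrib, ← sum_filter, ← sum_filter]
  refine add_le_add ?_ ?_
  · have h1 : T1.filter (fun k => k ∈ LabAX.bd n i) ⊆ LabAX.bd n i := fun k hk => (mem_filter.1 hk).2
    refine (sum_le_sum_of_subset_of_nonneg h1 fun _ _ _ => by positivity).trans (le_of_eq ?_)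
    rw [sum_const, nsmul_eq_mul]
    have := LabAX.card_bd n i
    field_simp
    linarith
  · have h1 : T1.filter (fun k => k ∈ box n) ⊆ box n := fun k hk => (mem_filter.1 hk).2
    refine (sum_le_sum_of_subset_of_nonneg h1 fun _ _ _ => by positivity).trans ?_
    have h2 := av_sqrt_le (n := n) (fun k => 10 * X k) (fun k => mul_nonneg (by norm_num) (hX0 k))
    rw [av_mul] at h2
    refine le_trans (le_of_eq ?_) (mul_le_mul_of_nonneg_left h2 (by norm_num : (0 : ℝ) ≤ 2))
    unfold av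
    rw [← sum_div, ← mul_sum, mul_div_assoc]

end Crest.Agent.R239
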