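import Crest.Agent.R239.Defs

/-!
# Row 239: fourth moment of the maximal prefix norm

The steps `ξ q = 3 k q` are independent, symmetric, `|ξ q| ≤ σ := 30`; `m := ∑ ‖a q‖²`.
(1) By induction on `n` (peel the first coordinate with `Fin.cons`, any start `x`):
`E ‖x + S‖⁴ ≤ ‖x‖⁴ + 6 σ² m ‖x‖² + 3 σ⁴ m²`, since for one symmetric step
`E ‖y + ξ a‖⁴ ≤ ‖y‖⁴ + 6 σ² ‖a‖² ‖y‖² + σ⁴ ‖a‖⁴` and `E ‖y + ξ a‖² ≤ ‖y‖² + σ² ‖a‖²`.
(2) Lévy's inequality in moment form, `E max_k ‖S_k‖⁴ ≤ 2 E ‖S_n‖⁴`, again by induction on `n` with a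
start `x` and a running maximum `M ≥ 0`: with `h u = u ^ 4`,
`E h (max M (max_{0 ≤ k ≤ n} ‖x + S_k‖)) ≤ h M + 2 E (h ‖x + S_n‖ - h M)₊`.
Case `‖x‖ ≤ M`: peel the first step. Case `‖x‖ > M`: reduce to `M' := ‖x‖` using that, by the symmetry
`k ↦ -k` of the box and convexity, `‖x + S‖ ≥ ‖x‖` or `‖x - S‖ ≥ ‖x‖`, so
`h ‖x‖ - h M + 2 E (h ‖x+S‖ - h ‖x‖)₊ ≤ 2 E (h ‖x+S‖ - h M)₊`.
The constant is generous (`6 · 30⁴ < 5 · 10⁶` suffices); any other route (Doob) is fine.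
-/

set_option autoImplicit false

namespace Crest.Agent.R239

open Finset Classical

variable {H : Type} [NormedAddCommGroup H] [InnerProductSpace ℝ H]

theorem MomX.sum_box_succ (n : ℕ) (g : (Fin (n + 1) → ℤ) → ℝ) :
    ∑ k ∈ box (n + 1), g k = ∑ t ∈ Finset.Icc (-10 : ℤ) 10, ∑ k ∈ box n, g (Fin.cons t k) := by
  rw [← Finset.sum_product']
  refine Finset.sum_nbij' (fun k => (k 0, Fin.tail k)) (fun p => Fin.cons p.1 p.2) ?_ ?_ ?_ ?_ ?_
  · intro k hk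
    simp only [box, Fintype.mem_piFinset, Finset.mem_product] at hk ⊢
    exact ⟨hk 0, fun i => hk i.succ⟩
  · intro p hp
    simp only [box, Fintype.mem_piFinset, Finset.mem_product] at hp ⊢
    intro i
    refine Fin.cases ?_ (fun j => ?_) i
    · simpa using hp.1
    · simpa using hp.2 j
  · intro k _
    exact Fin.cons_self_tail k
  · intro p _
    simp
  · intro k _
    simp only [Fin.cons_self_tail]

/-- The prefix sums. -/
noncomputable def MomX.pre {n : ℕ} (a : Fin n → H) (k : Fin n → ℤ) (j : ℕ) : H :=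
  ∑ q : Fin n, if (q : ℕ) < j then (3 * (k q : ℝ)) • a q else 0

theorem MomX.pre_zero {n : ℕ} (a : Fin n → H) (k : Fin n → ℤ) : MomX.pre a k 0 = 0 := by
  simp [MomX.pre]

theorem MomX.pre_succ {n : ℕ} (a : Fin (n + 1) → H) (t : ℤ) (k : Fin n → ℤ) (j : ℕ) :
    MomX.pre a (Fin.cons t k) (j + 1) = (3 * (t : ℝ)) • a 0 + MomX.pre (fun q => a q.succ) k j := by
  simp [MomX.pre, Fin.sum_univ_succ]

/-- The potential (Doob's and the fourth moment Bellman functions). -/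
def MomX.Phi (s M m : ℝ) : ℝ :=
  2 * M * (M - 2 * s) + 4 * (s ^ 2 + 5400 * m * s + 2430000 * m ^ 2)

theorem MomX.step (s M m α b ξ : ℝ) (hs : 0 ≤ s) (hM : 0 ≤ M) (hm : 0 ≤ m) (hα : 0 ≤ α)
    (hb : b ^ 2 ≤ s * α) (hξ : ξ ^ 2 ≤ 900) :
    MomX.Phi (s + 2 * ξ * b + ξ ^ 2 * α) (max M (s + 2 * ξ * b + ξ ^ 2 * α)) m ≤
      MomX.Phi s M (α + m) + ξ * (-8 * M * b + 16 * s * b + 43200 * m * b) + ξ ^ 3 * (16 * b * α) := by
  have h1 : 2 * max M (s + 2 * ξ * b + ξ ^ 2 * α) *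
      (max M (s + 2 * ξ * b + ξ ^ 2 * α) - 2 * (s + 2 * ξ * b + ξ ^ 2 * α)) ≤
      2 * M * (M - 2 * (s + 2 * ξ * b + ξ ^ 2 * α)) := by
    rcases le_total M (s + 2 * ξ * b + ξ ^ 2 * α) with h | h
    · rw [max_eq_right h]; nlinarith [sq_nonneg (M - (s + 2 * ξ * b + ξ ^ 2 * α))]
    · rw [max_eq_left h]
  unfold MomX.Phi
  have e0 : 0 ≤ ξ ^ 2 := sq_nonneg ξ
  have e1 : 0 ≤ M * (ξ ^ 2 * α) := by positivity
  have e2 : ξ ^ 2 * b ^ 2 ≤ 900 * (s * α) :=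
    mul_le_mul hξ hb (sq_nonneg b) (by norm_num)
  have e3 : (ξ ^ 2) ^ 2 * α ^ 2 ≤ 900 ^ 2 * α ^ 2 :=
    mul_le_mul_of_nonneg_right (pow_le_pow_left₀ e0 hξ 2) (sq_nonneg α)
  have e4 : ξ ^ 2 * (s * α) ≤ 900 * (s * α) := mul_le_mul_of_nonneg_right hξ (by positivity)
  have e5 : ξ ^ 2 * (m * α) ≤ 900 * (m * α) := mul_le_mul_of_nonneg_right hξ (by positivity)
  have e6 : 0 ≤ α ^ 2 := sq_nonneg α
  nlinarith

theorem MomX.main (n : ℕ) : ∀ (a : Fin n → H) (x : H) (M : ℝ) (f : (Fin n → ℤ) → ℝ),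
    ‖x‖ ^ 2 ≤ M → (∀ k, 0 ≤ f k ∧ (f k ≤ M ∨ ∃ j, f k ≤ ‖x + MomX.pre a k j‖ ^ 2)) →
    ∑ k ∈ box n, f k ^ 2 ≤ 21 ^ n * MomX.Phi (‖x‖ ^ 2) M (∑ q, ‖a q‖ ^ 2) := by
  induction n with
  | zero =>
    intro a x M f hx hf
    have hb : box 0 = {fun i => i.elim0} := by
      ext k
      simp only [box, Fintype.mem_piFinset, Finset.mem_singleton]
      exact ⟨fun _ => Subsingleton.elim _ _, fun _ i => i.elim0⟩
    rw [hb, Finset.sum_singleton]
    obtain ⟨h0, h1⟩ := hf fun i => i.elim0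
    have h2 : f (fun i => i.elim0) ≤ M := by
      rcases h1 with h | ⟨j, h⟩
      · exact h
      · simp only [MomX.pre, Finset.univ_eq_empty, Finset.sum_empty, add_zero] at h
        exact h.trans hx
    have h3 := pow_le_pow_left₀ h0 h2 2
    simp only [MomX.Phi, Finset.univ_eq_empty, Finset.sum_empty, pow_zero]
    nlinarith [sq_nonneg (M - 2 * ‖x‖ ^ 2)]
  | succ n ih =>
    intro a x M f hx hf
    rw [MomX.sum_box_succ, Fin.sum_univ_succ]
    set m := ∑ q : Fin n, ‖a q.succ‖ ^ 2 with hm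
    have hm0 : 0 ≤ m := Finset.sum_nonneg fun _ _ => sq_nonneg _
    set b := inner ℝ x (a 0) with hb
    have hb2 : b ^ 2 ≤ ‖x‖ ^ 2 * ‖a 0‖ ^ 2 := by
      rw [← mul_pow, ← sq_abs]
      exact pow_le_pow_left₀ (abs_nonneg _) (abs_real_inner_le_norm _ _) 2
    have hM : 0 ≤ M := (sq_nonneg _).trans hx
    have key : ∀ t ∈ Finset.Icc (-10 : ℤ) 10, ∑ k ∈ box n, f (Fin.cons t k) ^ 2 ≤
        21 ^ n * (MomX.Phi (‖x‖ ^ 2) M (‖a 0‖ ^ 2 + m) +
          (t : ℝ) * (3 * (-8 * M * b + 16 * ‖x‖ ^ 2 * b + 43200 * m * b)) +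
          (t : ℝ) ^ 3 * (27 * (16 * b * ‖a 0‖ ^ 2))) := by
      intro t ht
      have e : ‖x + (3 * (t : ℝ)) • a 0‖ ^ 2 =
          ‖x‖ ^ 2 + 2 * (3 * (t : ℝ)) * b + (3 * (t : ℝ)) ^ 2 * ‖a 0‖ ^ 2 := by
        rw [norm_add_sq_real, real_inner_smul_right, norm_smul, mul_pow, Real.norm_eq_abs, sq_abs]
        ring
      have h1 := ih (fun q => a q.succ) (x + (3 * (t : ℝ)) • a 0)
        (max M (‖x + (3 * (t : ℝ)) • a 0‖ ^ 2)) (fun k => f (Fin.cons t k)) (le_max_right _ _) (by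
          intro k
          obtain ⟨h0, h1⟩ := hf (Fin.cons t k)
          refine ⟨h0, ?_⟩
          rcases h1 with h | ⟨j, h⟩
          · exact Or.inl (h.trans (le_max_left _ _))
          · rcases j with _ | j
            · rw [MomX.pre_zero, add_zero] at h
              exact Or.inl (h.trans (hx.trans (le_max_left _ _)))
            · rw [MomX.pre_succ, ← add_assoc] at h
              exact Or.inr ⟨j, h⟩)
      refine h1.trans (mul_le_mul_of_nonneg_left ?_ (by positivity))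
      rw [e]
      have ht' := Finset.mem_Icc.1 ht
      have t1 : (-10 : ℝ) ≤ t := by exact_mod_cast ht'.1
      have t2 : (t : ℝ) ≤ 10 := by exact_mod_cast ht'.2
      refine (MomX.step _ M m _ b _ (sq_nonneg _) hM hm0 (sq_nonneg _) hb2 (by nlinarith)).trans
        (le_of_eq ?_)
      ring
    refine (Finset.sum_le_sum key).trans (le_of_eq ?_)
    rw [← Finset.mul_sum, Finset.sum_add_distrib, Finset.sum_add_distrib, ← Finset.sum_mul,
      ← Finset.sum_mul, Finset.sum_const]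
    have s1 : ∑ t ∈ Finset.Icc (-10 : ℤ) 10, (t : ℝ) = 0 := by
      have : ∑ t ∈ Finset.Icc (-10 : ℤ) 10, t = 0 := by decide
      have h := congrArg (Int.cast : ℤ → ℝ) this
      rwa [Int.cast_sum, Int.cast_zero] at h
    have s3 : ∑ t ∈ Finset.Icc (-10 : ℤ) 10, (t : ℝ) ^ 3 = 0 := by
      have : ∑ t ∈ Finset.Icc (-10 : ℤ) 10, t ^ 3 = 0 := by decide
      exact_mod_cast this
    have s0 : (Finset.Icc (-10 : ℤ) 10).card = 21 := by simp
    rw [s1, s3, s0, nsmul_eq_mul]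
    push_cast
    ring


theorem av_pm_four {n : ℕ} (a : Fin n → H) :
    av n (fun k => pm a (fun q => 3 * (k q : ℝ)) ^ 4) ≤ 10 ^ 8 * (∑ q, ‖a q‖ ^ 2) ^ 2 := by
  have h := MomX.main n a 0 0 (fun k => pm a (fun q => 3 * (k q : ℝ)) ^ 2) (by simp) (by
    intro k
    refine ⟨sq_nonneg _, Or.inr ?_⟩
    obtain ⟨j, -, hj⟩ := Finset.exists_mem_eq_sup' (s := range (n + 1)) ⟨0, by simp⟩
      fun x => ‖∑ q ∈ univ.filter (fun q : Fin n => (q : ℕ) < x), (3 * (k q : ℝ)) • a q‖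
    refine ⟨j, le_of_eq ?_⟩
    unfold pm
    rw [hj, zero_add, Finset.sum_filter]
    rfl)
  unfold av
  rw [div_le_iff₀ (by positivity)]
  simp only [← pow_mul] at h
  refine h.trans ?_
  rw [mul_comm]
  refine mul_le_mul_of_nonneg_right ?_ (by positivity)
  simp only [MomX.Phi, norm_zero]
  nlinarith [sq_nonneg (∑ q, ‖a q‖ ^ 2)]

end Crest.Agent.R239
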