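import Crest.Agent.R239.GFL
import Crest.Agent.R239.Mom
import Crest.Agent.R239.LabA

/-!
# Row 239: signs with causal offsets and many small prefix norms

Put `Λ := 10 ^ 5 * (1 + C0)`, `C1 := 16 Λ`, `b l := √(Λ * A l)`, `a' l : Fin n → H := fun q => a l q`,
`φ l := ex (a' l) (b l)`. Apply `gfl n` with `G := (Fin n → ℤ) × (L → ℤ)`, `E := (Fin n → ℝ) × (L → ℝ)`,
`ι (k, τ) := (3 k, τ)`, `P := PP φ`, `S` from `PP_supp`, `g i := (Pi.single i 1, 0)`,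
`V i := (Pi.single i 1, 0)` for `i < n` (zero otherwise), `K := {x | ∀ l, φ l x.1 ≤ x.2 l + 1}`
(`ex_convex`, `PP_ne`). Total variation: `PP_tv` with
`X k := ∑ l, 576 ‖a l i‖² pm (a' l) (3k) ^ 4 / b l ^ 6` (`ex_shift`; `36 ‖a l i‖² ≤ 36 A l ≤ Λ A l`),
`av X ≤ 576 · 10⁸ · C0 / Λ³ ≤ 10⁻⁴` by `av_pm_four`, and `4/21 + 2 √(10⁻³) ≤ 2/5`.
The mean of `P` is `(0, μ)` with `μ l ≤ av (φ l) + 1 ≤ 10⁸ / Λ² + 1 ≤ 2` (`ex_le_four`), so the conclusion of
`gfl` reads `φ l (fun q => s q) ≤ 3`; `pm_le_of_ex` and `le_pm` finish.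
-/

set_option autoImplicit false

namespace Crest.Agent.R239

open Finset Classical

namespace LabX

/-- the embedding of the lattice -/
def io (n : ℕ) (L : Type) : ((Fin n → ℤ) × (L → ℤ)) →+ ((Fin n → ℝ) × (L → ℝ)) where
  toFun x := (fun q => 3 * (x.1 q : ℝ), fun l => (x.2 l : ℝ))
  map_zero' := by ext <;> simp
  map_add' x y := by
    ext
    · simp [mul_add]
    · simp

theorem sum_fin {H : Type} [AddCommMonoid H] {n x : ℕ} (hx : x ≤ n) (f : ℕ → H) :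
    ∑ q ∈ univ.filter (fun q : Fin n => (q : ℕ) < x), f q = ∑ q ∈ range x, f q := by
  rw [sum_filter, Fin.sum_univ_eq_sum_range (fun q => if q < x then f q else 0) n, ← sum_filter]
  congr 1
  ext q
  simp only [mem_filter, mem_range]
  omega

end LabX

open LabX in
theorem thmB (C0 : ℝ) (hC0 : 0 ≤ C0) : ∃ C1 : ℝ, 0 < C1 ∧
    ∀ (H : Type) [NormedAddCommGroup H] [InnerProductSpace ℝ H] (L : Type) [Fintype L] (n : ℕ)
      (a : L → ℕ → H) (A : L → ℝ) (c : ℕ → (ℕ → ℝ) → ℝ),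
      (∀ l, 0 < A l) → (∀ l, ∑ q ∈ range n, ‖a l q‖ ^ 2 ≤ A l) →
      (∀ q, q < n → ∑ l, ‖a l q‖ ^ 2 * (∑ q' ∈ range n, ‖a l q'‖ ^ 2) ^ 2 / A l ^ 3 ≤ C0) →
      (∀ i (s s' : ℕ → ℝ), (∀ j, j < i → s j = s' j) → c i s = c i s') →
      (∀ i s, |c i s| ≤ 2 / 5) →
      ∃ β : ℕ → ℝ, (∀ i, i < n → β i - c i β = 1 ∨ β i - c i β = -1) ∧
        ∀ l x, x ≤ n → ‖∑ q ∈ range x, β q • a l q‖ ^ 2 ≤ C1 * A l := by
  set Λ : ℝ := 10 ^ 5 * (1 + C0) with hΛ
  have hΛ5 : (10 : ℝ) ^ 5 ≤ Λ := by rw [hΛ]; nlinarith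
  have hΛ0 : 0 < Λ := lt_of_lt_of_le (by norm_num) hΛ5
  refine ⟨16 * Λ, by positivity, ?_⟩
  intro H _ _ L _ n a A c hA hm hC hc hc1
  set b : L → ℝ := fun l => √(Λ * A l) with hb
  have hb0 : ∀ l, 0 < b l := fun l => Real.sqrt_pos.2 (mul_pos hΛ0 (hA l))
  have hb2 : ∀ l, b l ^ 2 = Λ * A l := fun l => Real.sq_sqrt (mul_pos hΛ0 (hA l)).le
  have hb4 : ∀ l, b l ^ 4 = Λ ^ 2 * A l ^ 2 := fun l => by
    rw [show b l ^ 4 = (b l ^ 2) ^ 2 by ring, hb2]; ring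
  have hb6 : ∀ l, b l ^ 6 = Λ ^ 3 * A l ^ 3 := fun l => by
    rw [show b l ^ 6 = (b l ^ 2) ^ 3 by ring, hb2]; ring
  set a' : L → Fin n → H := fun l q => a l q with ha'
  set φ : L → (Fin n → ℝ) → ℝ := fun l => ex (a' l) (b l) with hφ
  set m : L → ℝ := fun l => ∑ q ∈ range n, ‖a l q‖ ^ 2 with hmdef
  have hm0 : ∀ l, 0 ≤ m l := fun l => sum_nonneg fun _ _ => by positivity
  have hmom : ∀ l, av n (fun k => pm (a' l) (fun q => 3 * (k q : ℝ)) ^ 4) ≤ 10 ^ 8 * m l ^ 2 := by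
    intro l
    have h := av_pm_four (a' l)
    rwa [show ∑ q : Fin n, ‖a' l q‖ ^ 2 = m l from
      Fin.sum_univ_eq_sum_range (fun q => ‖a l q‖ ^ 2) n] at h
  obtain ⟨S, hS0, hS1, hS2, hS3⟩ := PP_supp φ
  set g : ℕ → (Fin n → ℤ) × (L → ℤ) := fun i =>
    if h : i < n then (Pi.single ⟨i, h⟩ 1, 0) else 0 with hg
  set V : ℕ → (Fin n → ℝ) × (L → ℝ) := fun i =>
    if h : i < n then (Pi.single ⟨i, h⟩ 1, 0) else 0 with hV
  set K : Set ((Fin n → ℝ) × (L → ℝ)) := {x | ∀ l, φ l x.1 ≤ x.2 l + 1} with hK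
  have h1 : ∀ i, i < n → io n L (g i) = (3 : ℝ) • V i := by
    intro i hi
    simp only [hg, hV, dif_pos hi]
    ext q
    · simp only [io, AddMonoidHom.coe_mk, ZeroHom.coe_mk, Prod.smul_mk, Pi.smul_apply,
        smul_eq_mul, Pi.single_apply]
      split_ifs <;> simp
    · simp [io]
  have h2 : ∀ i, i < n → ∀ T : Finset ((Fin n → ℤ) × (L → ℤ)),
      ∑ x ∈ T, |PP φ (x - g i) - PP φ (x + g i)| ≤ 2 / 5 := by
    intro i hi T
    simp only [hg, dif_pos hi]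
    have hai : ∀ l, 6 * ‖a' l ⟨i, hi⟩‖ ≤ b l := by
      intro l
      refine Real.le_sqrt_of_sq_le ?_
      have e1 : ‖a l i‖ ^ 2 ≤ m l :=
        single_le_sum (f := fun q => ‖a l q‖ ^ 2) (fun _ _ => by positivity) (mem_range.2 hi)
      have e2 : m l ≤ A l := hm l
      have e3 := hA l
      change (6 * ‖a l i‖) ^ 2 ≤ Λ * A l
      nlinarith
    refine (PP_tv φ ⟨i, hi⟩ (fun k => ∑ l, 576 * ‖a' l ⟨i, hi⟩‖ ^ 2 / b l ^ 6 *
      pm (a' l) (fun q => 3 * (k q : ℝ)) ^ 4) (fun k => sum_nonneg fun l _ => by positivity)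
      (fun k => sum_le_sum fun l _ => ?_) T).trans ?_
    · refine (ex_shift (a' l) (hb0 l) _ ⟨i, hi⟩ (hai l)).trans (le_of_eq ?_)
      ring
    · have e1 : av n (fun k => ∑ l, 576 * ‖a' l ⟨i, hi⟩‖ ^ 2 / b l ^ 6 *
          pm (a' l) (fun q => 3 * (k q : ℝ)) ^ 4) ≤ 576 * 10 ^ 8 / Λ ^ 3 * C0 := by
        rw [av_sum]
        refine le_trans (sum_le_sum fun l _ => ?_)
          (le_trans (le_of_eq (mul_sum _ _ _).symm)
            (mul_le_mul_of_nonneg_left (hC i hi) (by positivity)))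
        rw [av_mul]
        refine (mul_le_mul_of_nonneg_left (hmom l) (by positivity)).trans (le_of_eq ?_)
        rw [hb6]
        have := (hA l).ne'
        change 576 * ‖a l i‖ ^ 2 / (Λ ^ 3 * A l ^ 3) * (10 ^ 8 * m l ^ 2)
          = 576 * 10 ^ 8 / Λ ^ 3 * (‖a l i‖ ^ 2 * m l ^ 2 / A l ^ 3)
        field_simp
      have e2 : 576 * 10 ^ 8 / Λ ^ 3 * C0 ≤ 1 / 10 ^ 4 := by
        rw [div_mul_eq_mul_div, div_le_div_iff₀ (by positivity) (by positivity)]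
        have e3 : (10 : ℝ) ^ 10 ≤ Λ ^ 2 := by nlinarith
        have e4 : 10 ^ 5 * C0 ≤ Λ := by rw [hΛ]; nlinarith
        have e5 : (10 : ℝ) ^ 10 * (10 ^ 5 * C0) ≤ Λ ^ 2 * Λ :=
          mul_le_mul e3 e4 (by positivity) (by positivity)
        nlinarith
      have e6 : √(10 * av n (fun k => ∑ l, 576 * ‖a' l ⟨i, hi⟩‖ ^ 2 / b l ^ 6 *
          pm (a' l) (fun q => 3 * (k q : ℝ)) ^ 4)) ≤ 1 / 10 := by
        refine Real.sqrt_le_iff.2 ⟨by norm_num, ?_⟩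
        linarith
      linarith
  have h3 : Convex ℝ K := by
    intro x hx y hy u w hu hw huw l
    have e1 := (ex_convex (a' l) (hb0 l)).2 (Set.mem_univ x.1) (Set.mem_univ y.1) hu hw huw
    have e2 := mul_le_mul_of_nonneg_left (hx l) hu
    have e3 := mul_le_mul_of_nonneg_left (hy l) hw
    simp only [smul_eq_mul] at e1
    change ex (a' l) (b l) (u • x.1 + w • y.1) ≤ u * x.2 l + w * y.2 l + 1
    change u * ex (a' l) (b l) x.1 ≤ _ at e2
    change w * ex (a' l) (b l) y.1 ≤ _ at e3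
    nlinarith
  have h4 : ∀ x, PP φ x ≠ 0 → io n L x ∈ K := fun x hx l => PP_ne φ x hx l
  obtain ⟨s, hs1, hs2⟩ := gfl n _ _ (io n L) (PP φ) S g V K c (PP_nonneg φ) hS0 hS1 h1 h2 h3 h4
    hc hc1
  refine ⟨s, hs1, fun l x hx => ?_⟩
  have f1 : (∑ x ∈ S, PP φ x • io n L x + ∑ i ∈ range n, s i • V i).1 = fun q : Fin n => s q := by
    funext q
    rw [Prod.fst_add, Prod.fst_sum, Prod.fst_sum, Pi.add_apply, Finset.sum_apply, Finset.sum_apply]
    have e1 : ∑ x ∈ S, (PP φ x • io n L x).1 q = 0 := by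
      have : ∀ x ∈ S, (PP φ x • io n L x).1 q = 3 * (PP φ x * (x.1 q : ℝ)) := by
        intro x _
        change PP φ x * (3 * (x.1 q : ℝ)) = _
        ring
      rw [sum_congr rfl this, ← mul_sum, hS2 q, mul_zero]
    rw [e1, zero_add, sum_eq_single (q : ℕ)]
    · simp [hV, q.2]
    · intro i hi hne
      have hi' := mem_range.1 hi
      have : q ≠ ⟨i, hi'⟩ := fun e => hne (by rw [e])
      simp [hV, hi', Pi.single_apply, this]
    · intro h
      exact absurd (mem_range.2 q.2) h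
  have f2 : (∑ x ∈ S, PP φ x • io n L x + ∑ i ∈ range n, s i • V i).2 l
      = ∑ x ∈ S, PP φ x * (x.2 l : ℝ) := by
    rw [Prod.snd_add, Prod.snd_sum, Prod.snd_sum, Pi.add_apply, Finset.sum_apply, Finset.sum_apply]
    have e1 : ∑ i ∈ range n, (s i • V i).2 l = 0 := by
      refine sum_eq_zero fun i hi => ?_
      simp [hV, mem_range.1 hi]
    rw [e1, add_zero]
    rfl
  have f3 : av n (fun k => φ l fun q => 3 * (k q : ℝ)) ≤ 1 := by
    have e1 : av n (fun k => φ l fun q => 3 * (k q : ℝ)) ≤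
        av n (fun k => (b l ^ 4)⁻¹ * pm (a' l) (fun q => 3 * (k q : ℝ)) ^ 4) := by
      refine av_mono fun k _ => (ex_le_four (a' l) (hb0 l) _).trans (le_of_eq ?_)
      ring
    rw [av_mul] at e1
    refine e1.trans ((mul_le_mul_of_nonneg_left (hmom l) (by positivity)).trans ?_)
    rw [inv_mul_le_iff₀ (pow_pos (hb0 l) 4), hb4, mul_one]
    have e2 : m l ^ 2 ≤ A l ^ 2 := pow_le_pow_left₀ (hm0 l) (hm l) 2
    have e3 : (10 : ℝ) ^ 8 ≤ Λ ^ 2 := by nlinarith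
    exact mul_le_mul e3 e2 (by positivity) (by positivity)
  have f4 := hs2 l
  rw [f1, f2] at f4
  have f5 : pm (a' l) (fun q : Fin n => s q) ≤ 4 * b l :=
    pm_le_of_ex (a' l) (hb0 l) _ (by
      have := hS3 l
      change φ l (fun q : Fin n => s q) ≤ 3
      linarith)
  have f6 := (le_pm (a' l) (fun q : Fin n => s q) x hx).trans f5
  rw [show (∑ q ∈ univ.filter (fun q : Fin n => (q : ℕ) < x), (fun q : Fin n => s q) q • a' l q)
      = ∑ q ∈ range x, s q • a l q from sum_fin hx (fun q => s q • a l q)] at f6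
  calc ‖∑ q ∈ range x, s q • a l q‖ ^ 2 ≤ (4 * b l) ^ 2 := pow_le_pow_left₀ (norm_nonneg _) f6 2
    _ = 16 * Λ * A l := by rw [mul_pow, hb2]; ring

end Crest.Agent.R239
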