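import Crest.Agent.R239.Defs

/-!
# Row 239: basic facts on the closed loop

`Tm` is symmetric and `‖Tm x‖² = ‖x‖² - (2ε - ε²‖v‖²) ⟪v, x⟫²`.
`dual_tele`: induction on `y` for all `u` (the term `q = y + 1` is `cw (y+1) ⟪u, v (y+1)⟫²`; for
`q ≤ y`, `⟪u, Tm (Ph q y w)⟫ = ⟪Tm u, Ph q y w⟫`, and `‖Tm u‖² = ‖u‖² - cw (y+1) ⟪v (y+1), u⟫²`).
`dual_contr`: `∑ i, ⟪u, Ph (single i 1)⟫² ≤ ‖u‖²`, same induction.
-/

set_option autoImplicit false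

namespace Crest.Agent.R239

open Finset Classical

variable {d : ℕ} {ε : ℝ} {v : ℕ → Eu d}

theorem Tm_apply (ε : ℝ) (w x : Eu d) : Tm ε w x = x - (ε * inner ℝ w x) • w := by
  simp [Tm, LinearMap.toSpanSingleton_apply, smul_smul]

theorem Tm_symm (ε : ℝ) (w x y : Eu d) : inner ℝ (Tm ε w x) y = inner ℝ x (Tm ε w y) := by
  rw [Tm_apply, Tm_apply, inner_sub_left, inner_sub_right, real_inner_smul_left,
    real_inner_smul_right, real_inner_comm w x]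
  ring

theorem norm_Tm (ε : ℝ) (v : ℕ → Eu d) (t : ℕ) (x : Eu d) :
    ‖Tm ε (v t) x‖ ^ 2 = ‖x‖ ^ 2 - cw ε v t * inner ℝ (v t) x ^ 2 := by
  rw [Tm_apply, norm_sub_sq_real, real_inner_smul_right, norm_smul, mul_pow, Real.norm_eq_abs,
    sq_abs, real_inner_comm (v t) x, cw]
  ring

theorem le_cw (h0 : 0 < ε) (h1 : ε ≤ 1 / 8) (hv : ∀ t, ‖v t‖ ≤ 1) (t : ℕ) : ε ≤ cw ε v t := by
  have h2 : ‖v t‖ ^ 2 ≤ 1 := pow_le_one₀ (norm_nonneg _) (hv t)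
  have h3 : ε ^ 2 * ‖v t‖ ^ 2 ≤ ε ^ 2 := mul_le_of_le_one_right (sq_nonneg _) h2
  unfold cw
  nlinarith

theorem cw_le (ε : ℝ) (v : ℕ → Eu d) (t : ℕ) : cw ε v t ≤ 2 * ε := by
  have : 0 ≤ ε ^ 2 * ‖v t‖ ^ 2 := by positivity
  unfold cw
  linarith

theorem Ph_of_le (ε : ℝ) (v : ℕ → Eu d) {x y : ℕ} (h : y ≤ x) (w : Eu d) : Ph ε v x y w = w := by
  cases y with
  | zero => rfl
  | succ y => rw [Ph, if_neg (by omega)]; rfl

theorem Ph_succ (ε : ℝ) (v : ℕ → Eu d) {x y : ℕ} (h : x ≤ y) (w : Eu d) :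
    Ph ε v x (y + 1) w = Tm ε (v (y + 1)) (Ph ε v x y w) := by
  rw [Ph, if_pos h]; rfl

theorem Ph_comp (ε : ℝ) (v : ℕ → Eu d) {x y z : ℕ} (h : x ≤ y) (h' : y ≤ z) (w : Eu d) :
    Ph ε v y z (Ph ε v x y w) = Ph ε v x z w := by
  induction z, h' using Nat.le_induction with
  | base => exact Ph_of_le ε v le_rfl _
  | succ z hz ih => rw [Ph_succ ε v hz, ih, Ph_succ ε v (h.trans hz)]

theorem norm_tele (ε : ℝ) (v : ℕ → Eu d) {x y : ℕ} (h : x ≤ y) (w : Eu d) :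
    ‖w‖ ^ 2 = ∑ t ∈ Ioc x y, cw ε v t * inner ℝ (v t) (Ph ε v x (t - 1) w) ^ 2 +
      ‖Ph ε v x y w‖ ^ 2 := by
  induction y, h using Nat.le_induction with
  | base => simp [Ph_of_le ε v le_rfl]
  | succ y hy ih =>
    rw [Finset.sum_Ioc_succ_top hy, Ph_succ ε v hy, norm_Tm, Nat.add_sub_cancel]
    linarith

theorem dual_tele (h0 : 0 < ε) (h1 : ε ≤ 1 / 8) (hv : ∀ t, ‖v t‖ ≤ 1) (y : ℕ) (u : Eu d) :
    ∑ q ∈ Ioc 0 y, cw ε v q * inner ℝ u (Ph ε v q y (v q)) ^ 2 ≤ ‖u‖ ^ 2 := by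
  induction y generalizing u with
  | zero => simp
  | succ y ih =>
    rw [Finset.sum_Ioc_succ_top (Nat.zero_le y), Ph_of_le ε v le_rfl]
    have h2 := ih (Tm ε (v (y + 1)) u)
    rw [norm_Tm, real_inner_comm] at h2
    have h3 : ∑ q ∈ Ioc 0 y, cw ε v q * inner ℝ u (Ph ε v q (y + 1) (v q)) ^ 2 =
        ∑ q ∈ Ioc 0 y, cw ε v q * inner ℝ (Tm ε (v (y + 1)) u) (Ph ε v q y (v q)) ^ 2 :=
      Finset.sum_congr rfl fun q hq => by rw [Ph_succ ε v (Finset.mem_Ioc.1 hq).2, Tm_symm]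
    linarith

theorem dual_contr (h0 : 0 < ε) (h1 : ε ≤ 1 / 8) (hv : ∀ t, ‖v t‖ ≤ 1) (x y : ℕ) (u : Eu d) :
    ∑ i : Fin d, inner ℝ u (Ph ε v x y (EuclideanSpace.single i 1)) ^ 2 ≤ ‖u‖ ^ 2 := by
  have base : ∀ u : Eu d, ∑ i : Fin d, inner ℝ u (EuclideanSpace.single i (1 : ℝ)) ^ 2 ≤ ‖u‖ ^ 2 := by
    intro u
    rw [EuclideanSpace.real_norm_sq_eq]
    simp [EuclideanSpace.inner_single_right]
  induction y generalizing u with
  | zero => simpa only [Ph_of_le ε v (Nat.zero_le x)] using base u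
  | succ y ih =>
    by_cases h : x ≤ y
    · simp only [Ph_succ ε v h, ← Tm_symm]
      refine (ih _).trans ?_
      rw [norm_Tm]
      have := mul_nonneg (h0.le.trans (le_cw h0 h1 hv (y + 1))) (sq_nonneg (inner ℝ (v (y + 1)) u))
      linarith
    · simpa only [Ph_of_le ε v (by omega : y + 1 ≤ x)] using base u

end Crest.Agent.R239
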