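import Crest.Agent.R239.Loop0

/-!
# Row 239: the closed loop satisfies `Dat`

`ν_eq`: `norm_Tm` (for `q = 0` both sides vanish as `v 0 = 0`).
`F_step`: `Ph q y = Ph (q+1) y ∘ Tm (v (q+1))`; for a linear map `M`, with `e i = single i 1`,
`∑ ‖M (Tm e i)‖² = ∑ ‖M e i - ε v i • M v‖² = ∑ ‖M e i‖² - (2ε - ε²‖v‖²) ‖M v‖²` since `∑ v i • M e i = M v`.
`F_drop`: `cw ∑ ⟪v, Ph e i⟫² ≤ 2ε ‖v‖²` (`dual_contr`).
`quant`: with `w := Ph q s (v q)`, `‖Ph s s' w‖² - ‖Ph s b w‖² = ∑_{s' < t ≤ b} cw t ⟪v t, Ph s (t-1) w⟫²`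
(`norm_tele`, `Ph_comp`), the same identity for each `e i` computes `F s s' - F s b`, and
`⟪v t, M w⟫² = (∑ w i ⟪v t, M e i⟫)² ≤ ‖w‖² ∑ ⟪v t, M e i⟫²`.
-/

set_option autoImplicit false

namespace Crest.Agent.R239

open Finset Classical

section LoopAux

variable {d : ℕ}

theorem loopA_expand (M : Eu d →ₗ[ℝ] Eu d) (w : Eu d) :
    M w = ∑ i : Fin d, w i • M (EuclideanSpace.single i 1) := by
  have hw : w = ∑ i : Fin d, w i • (EuclideanSpace.single i (1 : ℝ) : Eu d) := by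
    have := (EuclideanSpace.basisFun (Fin d) ℝ).sum_repr w
    simpa using this.symm
  conv_lhs => rw [hw]
  simp [map_sum, map_smul]

theorem loopA_norm_sq (w : Eu d) : ‖w‖ ^ 2 = ∑ i : Fin d, w i ^ 2 := by
  rw [EuclideanSpace.norm_sq_eq]
  simp

theorem loopA_cs (M : Eu d →ₗ[ℝ] Eu d) (u w : Eu d) :
    inner ℝ u (M w) ^ 2 ≤
      ‖w‖ ^ 2 * ∑ i : Fin d, inner ℝ u (M (EuclideanSpace.single i 1)) ^ 2 := by
  rw [loopA_expand M w, inner_sum, loopA_norm_sq]
  simp only [inner_smul_right]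
  exact Finset.sum_mul_sq_le_sq_mul_sq _ _ _

theorem loopA_frob (M : Eu d →ₗ[ℝ] Eu d) (ε : ℝ) (w : Eu d) :
    ∑ i : Fin d, ‖M (Tm ε w (EuclideanSpace.single i 1))‖ ^ 2 =
      ∑ i : Fin d, ‖M (EuclideanSpace.single i 1)‖ ^ 2 -
        (2 * ε - ε ^ 2 * ‖w‖ ^ 2) * ‖M w‖ ^ 2 := by
  have h1 : ∀ i : Fin d, ‖M (Tm ε w (EuclideanSpace.single i 1))‖ ^ 2 =
      ‖M (EuclideanSpace.single i 1)‖ ^ 2 -
        2 * ε * (w i * inner ℝ (M (EuclideanSpace.single i 1)) (M w)) +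
        ε ^ 2 * ‖M w‖ ^ 2 * w i ^ 2 := by
    intro i
    have hi : inner ℝ w (EuclideanSpace.single i (1 : ℝ) : Eu d) = w i := by
      simp [EuclideanSpace.inner_single_right]
    rw [Tm_apply, hi, map_sub, map_smul, norm_sub_sq_real, inner_smul_right, norm_smul,
      mul_pow, Real.norm_eq_abs, sq_abs]
    ring
  have h2 : ∑ i : Fin d, w i * inner ℝ (M (EuclideanSpace.single i 1)) (M w) = ‖M w‖ ^ 2 := by
    rw [← real_inner_self_eq_norm_sq]
    conv_rhs => enter [2]; rw [loopA_expand M w]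
    rw [sum_inner]
    simp only [real_inner_smul_left]
  simp only [h1]
  rw [Finset.sum_add_distrib, Finset.sum_sub_distrib, ← Finset.mul_sum, ← Finset.mul_sum, h2,
    ← loopA_norm_sq]
  ring

theorem loopA_F_succ (ε : ℝ) (v : ℕ → Eu d) {x y : ℕ} (h : x ≤ y) :
    FF ε v x y - FF ε v x (y + 1) =
      cw ε v (y + 1) *
        ∑ i : Fin d, inner ℝ (v (y + 1)) (Ph ε v x y (EuclideanSpace.single i 1)) ^ 2 := by
  unfold FF
  rw [← Finset.sum_sub_distrib, Finset.mul_sum]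
  refine Finset.sum_congr rfl fun i _ => ?_
  rw [Ph_succ ε v h, norm_Tm]
  ring

theorem loopA_g_succ (ε : ℝ) (v : ℕ → Eu d) {q y : ℕ} (h : q ≤ y) :
    gg ε v q y - gg ε v q (y + 1) =
      cw ε v q * (cw ε v (y + 1) * inner ℝ (v (y + 1)) (Ph ε v q y (v q)) ^ 2) := by
  unfold gg
  rw [Ph_succ ε v h, norm_Tm]
  ring

end LoopAux

theorem dat_loop {d : ℕ} {ε : ℝ} {v : ℕ → Eu d} (h0 : 0 < ε) (h1 : ε ≤ 1 / 8)
    (hv : ∀ t, ‖v t‖ ≤ 1) (hv0 : v 0 = 0) (N : ℕ) :
    Dat N d (nu ε v N) (gg ε v) (FF ε v) := by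
  have hc : ∀ t, 0 ≤ cw ε v t := fun t => h0.le.trans (le_cw h0 h1 hv t)
  refine ⟨?_, ?_, ?_, ?_, ?_, ?_, ?_, ?_, ?_⟩
  · intro t q
    exact mul_nonneg (hc q) (sq_nonneg _)
  · intro q t hqt htN
    rw [loopA_g_succ ε v hqt]
    unfold nu am
    by_cases hq : q = 0
    · subst hq
      simp [hv0]
    · have hA : ¬ (q = 0 ∨ N < q) := by omega
      have hB : t + 1 ≤ N := htN
      have hC : q < t + 1 := by omega
      rw [if_neg hA, if_pos hB, if_pos hC, mul_pow, Real.sq_sqrt (hc _), Nat.add_sub_cancel]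
  · intro q y
    exact mul_nonneg (hc q) (sq_nonneg _)
  · intro q y hqy
    have hP : ∀ w : Eu d, Ph ε v q y w = Ph ε v (q + 1) y (Tm ε (v (q + 1)) w) := by
      intro w
      rw [← Ph_comp ε v (Nat.le_succ q) hqy, Ph_succ ε v le_rfl, Ph_of_le ε v le_rfl]
    have := loopA_frob (Ph ε v (q + 1) y) ε (v (q + 1))
    unfold FF gg cw
    simp only [hP]
    rw [this]
    ring
  · intro x
    unfold FF
    simp [Ph_of_le ε v (le_refl x)]
  · intro x y
    exact Finset.sum_nonneg fun i _ => sq_nonneg _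
  · intro x y hxy
    have := loopA_F_succ ε v hxy
    have h2 : 0 ≤ cw ε v (y + 1) *
        ∑ i : Fin d, inner ℝ (v (y + 1)) (Ph ε v x y (EuclideanSpace.single i 1)) ^ 2 :=
      mul_nonneg (hc _) (Finset.sum_nonneg fun i _ => sq_nonneg _)
    linarith
  · intro x y hxy
    rw [loopA_F_succ ε v hxy]
    have h2 := dual_contr h0 h1 hv x y (v (y + 1))
    have h3 : ‖v (y + 1)‖ ^ 2 ≤ 1 := by
      have := hv (y + 1)
      have h' := norm_nonneg (v (y + 1))
      nlinarith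
    have h4 := cw_le ε v (y + 1)
    have h5 := hc (y + 1)
    have h6 : 0 ≤ ∑ i : Fin d,
        inner ℝ (v (y + 1)) (Ph ε v x y (EuclideanSpace.single i 1)) ^ 2 :=
      Finset.sum_nonneg fun i _ => sq_nonneg _
    calc _ ≤ cw ε v (y + 1) * 1 := mul_le_mul_of_nonneg_left (h2.trans h3) h5
      _ ≤ 1 / 4 := by linarith
  · intro q s s' b hqs hss' hs'b
    induction b, hs'b using Nat.le_induction with
    | base => simp
    | succ b hb ih =>
      have hsb : s ≤ b := hss'.trans hb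
      have e1 := loopA_g_succ ε v (hqs.trans hsb)
      have e2 := loopA_F_succ ε v hsb
      have e3 := loopA_cs (Ph ε v s b) (v (b + 1)) (Ph ε v q s (v q))
      rw [Ph_comp ε v hqs hsb] at e3
      have e4 : gg ε v q b - gg ε v q (b + 1) ≤
          (FF ε v s b - FF ε v s (b + 1)) * gg ε v q s := by
        rw [e1, e2]
        unfold gg
        have := mul_le_mul_of_nonneg_left
          (mul_le_mul_of_nonneg_left e3 (hc (b + 1))) (hc q)
        calc _ ≤ _ := this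
          _ = _ := by ring
      have e5 : (FF ε v s s' - FF ε v s (b + 1)) * gg ε v q s =
          (FF ε v s s' - FF ε v s b) * gg ε v q s +
            (FF ε v s b - FF ε v s (b + 1)) * gg ε v q s := by ring
      rw [e5]
      linarith

end Crest.Agent.R239
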