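import Crest.Agent.R239.LoopA
import Crest.Agent.R239.DatB

/-!
# Row 239: the matrix of the closed loop

`B = N + d + 1`. `am_col`: rows `q < t ≤ N` and rows `N + 1 + i` give `‖v q‖²` by `norm_tele`.
`zz_eq`: induction. `zz_norm`: `norm_tele` from `r` to `N` applied to `zz r`, `zz_eq`, `Ph_comp`.
`row_mass`: `dual_tele` with `u = v t`, `y = t - 1`. `fin_mass`: `∑_{1 ≤ q ≤ N} gg q N = FF N N - FF 0 N ≤ d`
(`Dat.g_sum`, `dat_loop`).
-/

set_option autoImplicit false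

namespace Crest.Agent.R239

open Finset Classical

variable {d : ℕ} {ε : ℝ} {v : ℕ → Eu d}

namespace LoopBX

theorem split (N d : ℕ) (f : ℕ → ℝ) :
    ∑ t ∈ range (N + d + 1), f t = ∑ t ∈ range (N + 1), f t + ∑ i : Fin d, f (N + 1 + i) := by
  rw [show N + d + 1 = N + 1 + d by omega, sum_range_add,
    Fin.sum_univ_eq_sum_range (fun i => f (N + 1 + i)) d]

theorem sum_Ioc {B a b : ℕ} (hb : b < B) {f g : ℕ → ℝ} (h1 : ∀ q, a < q → q ≤ b → f q = g q)
    (h2 : ∀ q, q < B → q ≤ a ∨ b < q → f q = 0) : ∑ q ∈ range B, f q = ∑ q ∈ Ioc a b, g q := by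
  rw [← sum_subset (s₁ := Ioc a b) (fun q hq => mem_range.2 ((mem_Ioc.1 hq).2.trans_lt hb))
    fun q hq hq' => h2 q (mem_range.1 hq) (by rw [mem_Ioc] at hq'; omega)]
  exact sum_congr rfl fun q hq => h1 q (mem_Ioc.1 hq).1 (mem_Ioc.1 hq).2

theorem am_lo {N t q : ℕ} (hq : 0 < q) (hqt : q < t) (ht : t ≤ N) :
    am ε v N t q = √(cw ε v t) * inner ℝ (v t) (Ph ε v q (t - 1) (v q)) := by
  unfold am
  rw [if_neg (by omega), if_pos ht, if_pos hqt]

theorem am_out {N t q : ℕ} (hq : q ≤ 0 ∨ N < q) : am ε v N t q = 0 := by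
  unfold am
  rw [if_pos (by omega)]

theorem am_zero {N t q : ℕ} (hq : q ≤ 0 ∨ t ≤ q) (ht : t ≤ N) : am ε v N t q = 0 := by
  unfold am
  split_ifs
  · rfl
  · omega
  · rfl

theorem am_hi {N q : ℕ} (hq : 0 < q) (hqN : q ≤ N) (i : Fin d) :
    am ε v N (N + 1 + i) q = Ph ε v q N (v q) i := by
  unfold am
  have h : N + 1 + i - (N + 1) < d := by have := i.2; omega
  rw [if_neg (by omega), if_neg (by omega), dif_pos h]
  simp only [Nat.add_sub_cancel_left]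

theorem sq_sqrt_cw (h0 : 0 < ε) (h1 : ε ≤ 1 / 8) (hv : ∀ t, ‖v t‖ ≤ 1) (t : ℕ) (a : ℝ) :
    (√(cw ε v t) * a) ^ 2 = cw ε v t * a ^ 2 := by
  rw [mul_pow, Real.sq_sqrt (h0.le.trans (le_cw h0 h1 hv t))]

end LoopBX

open LoopBX

theorem am_col (h0 : 0 < ε) (h1 : ε ≤ 1 / 8) (hv : ∀ t, ‖v t‖ ≤ 1) (N q : ℕ) :
    ∑ t ∈ range (N + d + 1), am ε v N t q ^ 2 ≤ 1 := by
  by_cases hq : q ≤ 0 ∨ N < q
  · simp only [am_out hq]
    simp
  rw [split, sum_Ioc (a := q) (Nat.lt_succ_self N)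
    (g := fun t => cw ε v t * inner ℝ (v t) (Ph ε v q (t - 1) (v q)) ^ 2)
    (fun t c1 c2 => by rw [am_lo (by omega) c1 c2, sq_sqrt_cw h0 h1 hv])
    (fun t c1 c2 => by rw [am_zero (by omega) (by omega), zero_pow two_ne_zero])]
  simp only [am_hi (by omega : 0 < q) (by omega : q ≤ N)]
  rw [← EuclideanSpace.real_norm_sq_eq, ← norm_tele ε v (by omega : q ≤ N)]
  exact pow_le_one₀ (norm_nonneg _) (hv q)

theorem zz_eq (ε : ℝ) (v : ℕ → Eu d) (β : ℕ → ℝ) (r : ℕ) :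
    zz ε v β r = ∑ q ∈ Ioc 0 r, β q • Ph ε v q r (v q) := by
  induction r with
  | zero => simp [zz]
  | succ r ih =>
      rw [zz, ih, sum_Ioc_succ_top (Nat.zero_le r), Ph_of_le ε v le_rfl, map_sum]
      congr 1
      exact sum_congr rfl fun q hq => by rw [map_smul, Ph_succ ε v (mem_Ioc.1 hq).2]

theorem zz_causal (ε : ℝ) (v : ℕ → Eu d) (β β' : ℕ → ℝ) (r : ℕ) (h : ∀ q, q ≤ r → β q = β' q) :
    zz ε v β r = zz ε v β' r := by
  rw [zz_eq, zz_eq]
  exact sum_congr rfl fun q hq => by rw [h q (mem_Ioc.1 hq).2]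

theorem LoopBX.Ph_zz (ε : ℝ) (v : ℕ → Eu d) (β : ℕ → ℝ) {r s : ℕ} (h : r ≤ s) :
    Ph ε v r s (zz ε v β r) = ∑ q ∈ Ioc 0 r, β q • Ph ε v q s (v q) := by
  rw [zz_eq, map_sum]
  exact sum_congr rfl fun q hq => by rw [map_smul, Ph_comp ε v (mem_Ioc.1 hq).2 h]

theorem zz_norm (h0 : 0 < ε) (h1 : ε ≤ 1 / 8) (hv : ∀ t, ‖v t‖ ≤ 1) (β : ℕ → ℝ) {N r : ℕ}
    (hr : r ≤ N) :
    ‖zz ε v β r‖ ^ 2 = nrm (N + d + 1) (fun t q => β q * am ε v N t q) (rect 0 r r N) +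
      nrm (N + d + 1) (fun t q => β q * am ε v N t q) (fun t q => N < t ∧ q ≤ r) := by
  rw [norm_tele ε v hr]
  unfold nrm
  beta_reduce
  congr 1
  · refine (sum_Ioc (by omega) (fun t c1 c2 => ?_) fun t _ c2 => ?_).symm
    · rw [← sq_sqrt_cw h0 h1 hv, Ph_zz ε v β (by omega), inner_sum, mul_sum]
      congr 1
      refine sum_Ioc (by omega) (fun q e1 e2 => ?_) fun q _ e2 => ?_
      · rw [if_pos ⟨e1, e2, c1, c2⟩, am_lo e1 (by omega) c2, inner_smul_right]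
        ring
      · exact if_neg fun c => by unfold rect at c; omega
    · rw [sum_eq_zero fun q _ => if_neg fun c => by unfold rect at c; omega, zero_pow two_ne_zero]
  · rw [split, sum_eq_zero (s := range (N + 1)) fun t ht => by
      have : ¬ N < t := by have := mem_range.1 ht; omega
      simp [this], zero_add, EuclideanSpace.real_norm_sq_eq, Ph_zz ε v β hr]
    refine sum_congr rfl fun i _ => ?_
    congr 1
    rw [WithLp.ofLp_sum, Finset.sum_apply]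
    refine (sum_Ioc (by omega) (fun q e1 e2 => ?_) fun q _ e2 => ?_).symm
    · rw [if_pos ⟨by omega, e2⟩, am_hi e1 (by omega)]
      rfl
    · split_ifs with c
      · rw [am_out (by omega), mul_zero]
      · rfl

theorem row_nrm (h0 : 0 < ε) (h1 : ε ≤ 1 / 8) (hv : ∀ t, ‖v t‖ ≤ 1) (β : ℕ → ℝ) {N t : ℕ}
    (ht : 1 ≤ t) (htN : t ≤ N) :
    nrm (N + d + 1) (fun t q => β q * am ε v N t q) (fun t' _ => t' = t) =
      cw ε v t * inner ℝ (v t) (zz ε v β (t - 1)) ^ 2 := by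
  unfold nrm
  beta_reduce
  rw [sum_eq_single_of_mem t (mem_range.2 (by omega)) fun t' _ c => by simp [c],
    ← sq_sqrt_cw h0 h1 hv, zz_eq, inner_sum, mul_sum]
  congr 1
  refine sum_Ioc (by omega) (fun q e1 e2 => ?_) fun q _ e2 => ?_
  · rw [if_pos rfl, am_lo e1 (by omega) htN, inner_smul_right]
    ring
  · rw [if_pos rfl, am_zero (by omega) htN, mul_zero]

theorem row_mass (h0 : 0 < ε) (h1 : ε ≤ 1 / 8) (hv : ∀ t, ‖v t‖ ≤ 1) {N t : ℕ} (htN : t ≤ N) :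
    mass (N + d + 1) (nu ε v N) (fun t' _ => t' = t) ≤ 2 * ε := by
  unfold mass
  beta_reduce
  rw [sum_eq_single_of_mem t (mem_range.2 (by omega)) fun t' _ c => by simp [c],
    sum_Ioc (a := 0) (b := t - 1) (by omega)
      (g := fun q => cw ε v t * (cw ε v q * inner ℝ (v t) (Ph ε v q (t - 1) (v q)) ^ 2))
      (fun q e1 e2 => by
        rw [if_pos rfl, nu, am_lo e1 (by omega) htN, sq_sqrt_cw h0 h1 hv]
        ring)
      (fun q _ e2 => by rw [if_pos rfl, nu, am_zero (by omega) htN]; ring), ← mul_sum]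
  have h2 := (dual_tele h0 h1 hv (t - 1) (v t)).trans (pow_le_one₀ (norm_nonneg _) (hv t))
  exact (mul_le_of_le_one_right (h0.le.trans (le_cw h0 h1 hv t)) h2).trans (cw_le ε v t)

theorem fin_mass (h0 : 0 < ε) (h1 : ε ≤ 1 / 8) (hv : ∀ t, ‖v t‖ ≤ 1) (hv0 : v 0 = 0) (N : ℕ) :
    mass (N + d + 1) (nu ε v N) (fun t _ => N < t) ≤ d := by
  have hD := dat_loop h0 h1 hv hv0 N
  rw [mass_eq_cols, sum_Ioc (a := 0) (b := N) (by omega) (g := fun q => gg ε v q N)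
    (fun q e1 e2 => by
      rw [split, sum_eq_zero (s := range (N + 1)) fun t ht => by
        have : ¬ N < t := by have := mem_range.1 ht; omega
        simp [this], zero_add, gg,
        EuclideanSpace.real_norm_sq_eq, mul_sum]
      exact sum_congr rfl fun i _ => by rw [if_pos (by omega), nu, am_hi e1 e2])
    (fun q _ e2 => sum_eq_zero fun t _ => by rw [nu, am_out e2]; simp),
    hD.g_sum (Nat.zero_le N) le_rfl, hD.F_diag]
  linarith [hD.F_nonneg 0 N]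

end Crest.Agent.R239
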