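import Crest.Agent.R239.Node
import Crest.Agent.R239.TreeB

/-!
# Row 239: the near parts of the shells

Index the nodes of depth `j` by `a < N` with `lo j (a + 1) = a` (for `1 ≤ r ≤ N`, `a := lo j r` is such an
index and `hi j (a + 1) = hi j r` by `same`). For `j < L` use `node_sys` with the children of
`Tree.kids` at `r := a + 1`; an entry in the support of the cost has `lo j t = a` and
`lo j t < q ≤ lo (j+1) t`, which determines `(j, a)` (`lo_mono'`), so the total cost is `≤ 4`.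
For `j = L` use one label `a < q < t ≤ hi L (a+1)` per leaf, `m = A = 1` (`Dat.leaf_mass`, `leaf`);
`t` determines `a`, cost `≤ 1`; `hi (L+1) r = r` and
`rect a r r b = (label ∧ q ≤ r) ∧ r < t`, so `nrm ≤ D` by `nrm_rows_le`.
-/

set_option autoImplicit false

namespace Crest.Agent.R239

open Finset Classical

variable {B N d L : ℕ} {ν g F : ℕ → ℕ → ℝ} {lo hi : ℕ → ℕ → ℕ}

namespace NearX

theorem sum_le {ι : Type} (I : Finset ι) (P : ι → Prop) [DecidablePred P] {a : ℝ} (ha : 0 ≤ a)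
    (hdis : ∀ i ∈ I, ∀ j ∈ I, P i → P j → i = j) : ∑ i ∈ I, (if P i then a else 0) ≤ a := by
  by_cases h : ∃ i ∈ I, P i
  · obtain ⟨i, hi, hP⟩ := h
    rw [sum_eq_single_of_mem i hi fun j hj hji => if_neg fun hPj => hji (hdis j hj i hi hPj hP),
      if_pos hP]
  · rw [sum_eq_zero fun i hi => if_neg fun hP => h ⟨i, hi, hP⟩]
    exact ha

theorem inner (h : Dat N d ν g F) (hB : N < B) (T : Tree N d L F lo hi) {j b : ℕ} (hj : j < L)
    (h1 : 1 ≤ b) (hN : b ≤ N) :
    Sys B ν (fun t q => if (lo j b < t ∧ t ≤ hi j b) ∧ lo j t < q ∧ q ≤ lo (j + 1) t then 4 else 0)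
      (fun y D => ∀ r, lo j b < r → r ≤ hi j b →
        nrm B y (rect (lo j b) r (hi (j + 1) r) (hi j b)) ≤
          350 * D * (1 + mass B ν (rect (lo j b) r (hi (j + 1) r) (hi j b)))) := by
  obtain ⟨n, s, hk, k1, k2⟩ := T.kids hj h1 hN
  refine (node_sys h hB hk (T.hi_le j b h1 hN)).mono (fun t q => ?_) fun y D _ hΦ r r1 r2 => ?_
  · split_ifs with c1 c2
    · exact le_rfl
    · obtain ⟨i, a1, a2, a3, a4⟩ := c1
      have a5 := (T.same j b t h1 hN (by omega) a4).1
      have a6 := k2 i t a3 a4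
      exact absurd ⟨⟨by omega, a4⟩, by omega, by omega⟩ c2
    · norm_num
    · exact le_rfl
  · obtain ⟨i, a1, a2, a3, a4⟩ := k1 r r1 r2
    rw [← a4]
    exact hΦ i r a1 a2 a3

theorem leaf (h : Dat N d ν g F) (hB : N < B) (T : Tree N d L F lo hi) {b : ℕ}
    (h1 : 1 ≤ b) (hN : b ≤ N) :
    Sys B ν (fun t _ => if lo L b < t ∧ t ≤ hi L b then 1 else 0)
      (fun y D => ∀ r, lo L b < r → r ≤ hi L b →
        nrm B y (rect (lo L b) r (hi (L + 1) r) (hi L b)) ≤
          350 * D * (1 + mass B ν (rect (lo L b) r (hi (L + 1) r) (hi L b)))) := by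
  have a1 := T.lo_lt L b h1 hN
  have a2 := T.le_hi L b h1 hN
  have a3 := T.hi_le L b h1 hN
  refine (Sys.single h.ν_nonneg _ one_pos (h.leaf_mass hB (by omega) a3 (T.leaf b h1 hN))
    le_rfl).mono (fun t q => ?_) fun y D hD hΦ r r1 r2 => ?_
  · split_ifs with c1 c2
    · norm_num
    · exact absurd ⟨by omega, c1.2.2⟩ c2
    · norm_num
    · exact le_rfl
  · rw [(T.bottom r (by omega) (by omega)).2]
    have b1 := (nrm_rows_le y (R' := rect (lo L b) r r (hi L b)) (fun t => r < t)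
      fun t q _ _ => by simp only [rect]; omega).trans (hΦ r)
    have b2 := mul_nonneg hD (mass_nonneg (B := B) h.ν_nonneg (rect (lo L b) r r (hi L b)))
    linarith

end NearX

open NearX

theorem near_sys (h : Dat N d ν g F) (hB : N < B) (T : Tree N d L F lo hi) :
    Sys B ν (fun _ _ => 5) (fun y D => ∀ j r, j ≤ L → 1 ≤ r → r ≤ N →
      nrm B y (rect (lo j r) r (hi (j + 1) r) (hi j r)) ≤
        350 * D * (1 + mass B ν (rect (lo j r) r (hi (j + 1) r) (hi j r)))) := by
  have hu : ∀ {j b b' t : ℕ}, 1 ≤ b → b ≤ N → hi j b = b → 1 ≤ b' → b' ≤ N → hi j b' = b' →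
      lo j b < t ∧ t ≤ hi j b → lo j b' < t ∧ t ≤ hi j b' → b = b' :=
    fun {j b b' t} a1 a2 a3 b1 b2 b3 c1 c2 => by
      rw [← a3, ← b3, ← (T.same j b t a1 a2 c1.1 c1.2).2, ← (T.same j b' t b1 b2 c2.1 c2.2).2]
  have S1 := Sys.all ((range L ×ˢ Icc 1 N).filter fun p => hi p.1 p.2 = p.2) fun p hp =>
    NearX.inner h hB T (mem_range.1 (mem_product.1 (mem_filter.1 hp).1).1)
      (mem_Icc.1 (mem_product.1 (mem_filter.1 hp).1).2).1
      (mem_Icc.1 (mem_product.1 (mem_filter.1 hp).1).2).2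
  have S2 := Sys.all ((Icc 1 N).filter fun b => hi L b = b) fun b hb =>
    leaf h hB T (mem_Icc.1 (mem_filter.1 hb).1).1 (mem_Icc.1 (mem_filter.1 hb).1).2
  refine (S1.and S2).mono (fun t q => ?_) fun y D _ hΦ j r hj h1 hN => ?_
  · refine (add_le_add (sum_le _ _ (by norm_num) ?_) (sum_le _ _ (by norm_num) ?_)).trans
      (by norm_num)
    · rintro ⟨j, b⟩ hp ⟨j', b'⟩ hp' c c'
      simp only [mem_filter, mem_product, mem_range, mem_Icc] at hp hp' c c'
      have t1 := T.hi_le j b hp.1.2.1 hp.1.2.2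
      obtain rfl : j = j' := by
        by_contra hne
        rcases Nat.lt_or_gt_of_ne hne with a | a
        · have := T.lo_mono' (r := t) (Nat.succ_le_of_lt a) (by omega) (by omega)
          simp only [Nat.succ_eq_add_one] at this
          omega
        · have := T.lo_mono' (r := t) (Nat.succ_le_of_lt a) (by omega) (by omega)
          simp only [Nat.succ_eq_add_one] at this
          omega
      rw [hu hp.1.2.1 hp.1.2.2 hp.2 hp'.1.2.1 hp'.1.2.2 hp'.2 c.1 c'.1]
    · intro b hb b' hb' c c'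
      simp only [mem_filter, mem_Icc] at hb hb'
      exact hu hb.1.1 hb.1.2 hb.2 hb'.1.1 hb'.1.2 hb'.2 c c'
  · have a1 := T.lo_lt j r h1 hN
    have a2 := T.le_hi j r h1 hN
    have a3 := T.hi_le j r h1 hN
    obtain ⟨e1, e2⟩ := T.same j r (hi j r) h1 hN (by omega) le_rfl
    rcases hj.lt_or_eq with hj | rfl
    · have := hΦ.1 (j, hi j r) (mem_filter.2 ⟨mem_product.2
        ⟨mem_range.2 hj, mem_Icc.2 ⟨by omega, a3⟩⟩, e2⟩) r
      simp only [e1, e2] at this
      exact this a1 a2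
    · have := hΦ.2 (hi j r) (mem_filter.2 ⟨mem_Icc.2 ⟨by omega, a3⟩, e2⟩) r
      simp only [e1, e2] at this
      exact this a1 a2

end Crest.Agent.R239
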