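import Crest.Agent.R239.NodeA
import Crest.Agent.R239.Cls

/-!
# Row 239: the label system of one node

Three families (`Sys.and`, `Sys.all`, `Sys.mono`), all supported on `∃ i, a < q ≤ s i < t ≤ b`:
(a) for `i < n`, `clsCol` on `rect (s i) (s (i+1)) (s (i+1)) b`; the column `q` determines `i`: cost `≤ 2`;
(b) the label `Exc g a b n s` with `m = A = 1` (`exc_mass`): cost `≤ 1`;
(c) for `i' < i < n` the label `rect (s i') (s (i'+1)) (s (i+1)) b ∧ ¬ Exc` with `δ = i - i'`,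
`m = 2 (1/2)^δ`, `A = 2 (3/4)^δ` (`nonexc_mass`); `q` determines `i'`, and
`∑_{δ ≥ 1} m² / A³ = ∑ (16/27)^δ / 2 ≤ 8/11 ≤ 1`.
Query: `rect a r (s (i+1)) b` is the disjoint union of (1) columns `(s i, r]`: family (a) with `x = r`,
`≤ D (2 mass + 1)`; (2) `Exc ∧ q ≤ s i ∧ s (i+1) < t`: `≤ D` (`Good` at `x = s i`, `nrm_rows_le`);
(3) the union over `i' < i` of the labels (c): `nrm_weighted` with `w = (7/8)^δ` gives
`≤ 7 · ∑ 2 (6/7)^δ D ≤ 84 D`. With `nrm_two` twice: `≤ 2 D (2 mass + 1) + 4 D + 4 · 84 D`... use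
`nrm_two` as `2 (1) + 2 (2 (2) + 2 (3))` `≤ D (4 mass + 2 + 4 + 336) ≤ 350 D (1 + mass)`.
-/

set_option autoImplicit false

namespace Crest.Agent.R239

open Finset Classical

variable {B N d : ℕ} {ν g F : ℕ → ℕ → ℝ} {a b n : ℕ} {s : ℕ → ℕ}

namespace NodeX

theorem geo {ρ : ℝ} (h0 : 0 ≤ ρ) (h1 : ρ < 1) (K : ℕ) :
    ∑ k ∈ range K, ρ ^ (k + 1) ≤ ρ * (1 - ρ)⁻¹ := by
  simp only [pow_succ', ← mul_sum]
  rw [← tsum_geometric_of_lt_one h0 h1]
  exact mul_le_mul_of_nonneg_left ((summable_geometric_of_lt_one h0 h1).sum_le_tsum _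
    fun _ _ => pow_nonneg h0 _) h0

theorem col_uniq (hs : Monotone s) {i j q : ℕ} (h1 : s i < q) (h2 : q ≤ s (i + 1)) (h3 : s j < q)
    (h4 : q ≤ s (j + 1)) : i = j := by
  by_contra hne
  rcases Nat.lt_or_gt_of_ne hne with h | h
  · have := hs (show i + 1 ≤ j from h); omega
  · have := hs (show j + 1 ≤ i from h); omega

theorem col_ex {i q : ℕ} (h1 : s 0 < q) (h2 : q ≤ s i) : ∃ j < i, s j < q ∧ q ≤ s (j + 1) := by
  induction i with
  | zero => omega
  | succ i ih =>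
    rcases le_or_gt q (s i) with h | h
    · obtain ⟨j, hj, h⟩ := ih h
      exact ⟨j, by omega, h⟩
    · exact ⟨i, by omega, h, h2⟩

theorem cost_le (hs : Monotone s) (P : ℕ → Prop) (Sp : Prop) {c : ℝ} (hc : 0 ≤ c) {q : ℕ}
    (h : ∀ i, P i → s i < q ∧ q ≤ s (i + 1) ∧ Sp) :
    ∑ i ∈ range n, (if P i then c else 0) ≤ if Sp then c else 0 := by
  rw [SysBX.sum_ite_disj _ P c fun i _ j _ hi hj =>
    col_uniq hs (h i hi).1 (h i hi).2.1 (h j hj).1 (h j hj).2.1]
  split_ifs with h1 h2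
  · exact le_rfl
  · obtain ⟨i, _, hi⟩ := h1
    exact absurd (h i hi).2.2 h2
  · exact hc
  · exact le_rfl

end NodeX

open NodeX in
theorem node_sys (h : Dat N d ν g F) (hB : N < B) (hk : Kids F a b n s) (hb : b ≤ N) :
    Sys B ν (fun t q => if ∃ i, a < q ∧ q ≤ s i ∧ s i < t ∧ t ≤ b then 4 else 0)
      (fun y D => ∀ i r, i < n → s i < r → r ≤ s (i + 1) →
        nrm B y (rect a r (s (i + 1)) b) ≤ 350 * D * (1 + mass B ν (rect a r (s (i + 1)) b))) := by
  have hν := h.ν_nonneg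
  have ha : ∀ i, a ≤ s i := fun i => hk.zero ▸ hk.mono (Nat.zero_le i)
  have hA := (Sys.all (range n) fun i _ =>
    clsCol (B := B) hν (rect (s i) (s (i + 1)) (s (i + 1)) b)).mono
    (c' := fun t q => if ∃ i, a < q ∧ q ≤ s i ∧ s i < t ∧ t ≤ b then 2 else 0)
    (fun t q => cost_le hk.mono _ _ (by norm_num) fun i hi =>
      ⟨hi.1, hi.2.1, i + 1, (ha i).trans_lt hi.1, hi.2.1, hi.2.2.1, hi.2.2.2⟩)
    (fun _ _ _ h => h)
  have hE := (Sys.single hν (Exc g a b n s) one_pos (exc_mass h hB hk hb) le_rfl).mono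
    (c' := fun t q => if ∃ i, a < q ∧ q ≤ s i ∧ s i < t ∧ t ≤ b then 1 else 0)
    (fun t q => by
      split_ifs with h1 h2
      · norm_num
      · obtain ⟨a1, a2, -, i, -, a3, a4⟩ := h1
        exact absurd ⟨i, a1, a3, (hk.mono (Nat.le_succ i)).trans_lt a4, a2⟩ h2
      · norm_num
      · exact le_rfl)
    (fun _ _ _ h => h)
  have hC0 : ∀ j ∈ range n, Sys B ν (fun t q => if s j < q ∧ q ≤ s (j + 1) ∧
      ∃ i, a < q ∧ q ≤ s i ∧ s i < t ∧ t ≤ b then 1 else 0)
      fun y D => ∀ k ∈ range (n - (j + 1)), Good B y D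
        (fun t q => rect (s j) (s (j + 1)) (s (j + (k + 1) + 1)) b t q ∧ ¬ Exc g a b n s t q)
        (2 * (3 / 4) ^ (k + 1)) := by
    intro j _
    refine (Sys.all (range (n - (j + 1))) fun k hk' => Sys.single hν
      (fun t q => rect (s j) (s (j + 1)) (s (j + (k + 1) + 1)) b t q ∧ ¬ Exc g a b n s t q)
      (m := 2 * (1 / 2) ^ (k + 1)) (A := 2 * (3 / 4) ^ (k + 1)) (by positivity) ?_
      (mul_le_mul_of_nonneg_left (pow_le_pow_left₀ (by norm_num) (by norm_num) _) (by norm_num))).mono (fun t q => ?_) fun _ _ _ h => h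
    · have := nonexc_mass h hB hk hb (i' := j) (i := j + (k + 1)) (by omega)
        (by have := mem_range.1 hk'; omega)
      rwa [Nat.add_sub_cancel_left] at this
    · split_ifs with h1
      · refine le_trans (sum_le_sum (g := fun k => (16 / 27 : ℝ) ^ (k + 1) / 2) fun k _ => ?_) ?_
        · split_ifs
          · refine le_of_eq ?_
            have e : (16 / 27 : ℝ) ^ (k + 1) = ((1 / 2) ^ (k + 1)) ^ 2 / ((3 / 4) ^ (k + 1)) ^ 3 := by
              rw [← pow_mul, ← pow_mul, mul_comm (k + 1), mul_comm (k + 1), pow_mul, pow_mul,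
                ← div_pow]
              norm_num
            rw [e]
            field_simp
          · positivity
        · rw [← sum_div]
          have := geo (ρ := 16 / 27) (by norm_num) (by norm_num) (n - (j + 1))
          norm_num at this
          linarith
      · refine le_of_eq (sum_eq_zero fun k _ => if_neg fun hc => h1 ?_)
        obtain ⟨⟨a1, a2, a3, a4⟩, -⟩ := hc
        exact ⟨a1, a2, j + 1, (ha j).trans_lt a1, a2,
          (hk.mono (by omega)).trans_lt a3, a4⟩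
  have hC := (Sys.all (range n) hC0).mono
    (c' := fun t q => if ∃ i, a < q ∧ q ≤ s i ∧ s i < t ∧ t ≤ b then 1 else 0)
    (fun t q => by
      convert cost_le (n := n) hk.mono (fun j => s j < q ∧ q ≤ s (j + 1) ∧
        ∃ i, a < q ∧ q ≤ s i ∧ s i < t ∧ t ≤ b) _ zero_le_one fun i hi => hi) (fun _ _ _ h => h)
  refine ((hA.and hE).and hC).mono (fun t q => ?_) fun y D hD hΦ i r hi hr1 hr2 => ?_
  · split_ifs <;> norm_num
  obtain ⟨⟨Φa, Φb⟩, Φc⟩ := hΦ
  have hai := ha i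
  have n1 := Φa i (mem_range.2 hi) r
  have m1 : mass B ν (fun t q => rect (s i) (s (i + 1)) (s (i + 1)) b t q ∧ q ≤ r) ≤
      mass B ν (rect a r (s (i + 1)) b) := mass_mono hν fun t q _ _ hc =>
    ⟨hai.trans_lt hc.1.1, hc.2, hc.1.2.2⟩
  have m0 := mass_nonneg (B := B) hν (rect a r (s (i + 1)) b)
  have n2 : nrm B y (fun t q => (Exc g a b n s t q ∧ q ≤ s i) ∧ s (i + 1) < t) ≤ D * 1 :=
    (nrm_rows_le y (fun t => s (i + 1) < t) fun _ _ _ _ => Iff.rfl).trans (Φb (s i))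
  have n3 : nrm B y (fun t q => rect a (s i) (s (i + 1)) b t q ∧ ¬ Exc g a b n s t q) ≤ 84 * D := by
    refine (nrm_weighted y (range i) _ (fun k t q =>
      rect (s (i - (k + 1))) (s (i - (k + 1) + 1)) (s (i + 1)) b t q ∧ ¬ Exc g a b n s t q)
      (fun k => (7 / 8 : ℝ) ^ (k + 1)) (fun _ _ => by positivity) (fun t q _ _ => ?_)
      fun k hk1 k' hk2 t q a1 a2 => ?_).trans ?_
    · constructor
      · rintro ⟨⟨a1, a2, a3⟩, a4⟩
        obtain ⟨j, hj, b1, b2⟩ := col_ex (hk.zero ▸ a1) a2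
        refine ⟨i - (j + 1), mem_range.2 (by omega), ?_, a4⟩
        rw [show i - (i - (j + 1) + 1) = j by omega]
        exact ⟨b1, b2, a3⟩
      · rintro ⟨k, hk1, ⟨a1, a2, a3⟩, a4⟩
        have := mem_range.1 hk1
        exact ⟨⟨(ha _).trans_lt a1, a2.trans (hk.mono (by omega)), a3⟩, a4⟩
    · have := col_uniq hk.mono a1.1.1 a1.1.2.1 a2.1.1 a2.1.2.1
      have := mem_range.1 hk1
      have := mem_range.1 hk2
      omega
    · have g1 := geo (ρ := 7 / 8) (by norm_num) (by norm_num) i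
      have g2 := geo (ρ := 6 / 7) (by norm_num) (by norm_num) i
      norm_num at g1 g2
      have g3 : ∑ k ∈ range i, nrm B y (fun t q =>
          rect (s (i - (k + 1))) (s (i - (k + 1) + 1)) (s (i + 1)) b t q ∧ ¬ Exc g a b n s t q) /
            (7 / 8 : ℝ) ^ (k + 1) ≤ 2 * D * ∑ k ∈ range i, (6 / 7 : ℝ) ^ (k + 1) := by
        rw [mul_sum]
        refine sum_le_sum fun k hk1 => ?_
        have hk2 := mem_range.1 hk1
        have := (Φc (i - (k + 1)) (mem_range.2 (by omega)) k (mem_range.2 (by omega))).nrm_le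
        rw [show i - (k + 1) + (k + 1) = i by omega] at this
        rw [div_le_iff₀ (by positivity), mul_assoc, ← mul_pow]
        norm_num
        linarith
      have g4 : 2 * D * ∑ k ∈ range i, (6 / 7 : ℝ) ^ (k + 1) ≤ 2 * D * 6 :=
        mul_le_mul_of_nonneg_left g2 (by positivity)
      refine (mul_le_mul g1 (g3.trans g4)
        (sum_nonneg fun _ _ => div_nonneg (nrm_nonneg _ _) (by positivity)) (by norm_num)).trans ?_
      linarith
  have n4 := nrm_two (B := B) y (rect a (s i) (s (i + 1)) b)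
    (fun t q => (Exc g a b n s t q ∧ q ≤ s i) ∧ s (i + 1) < t)
    (fun t q => rect a (s i) (s (i + 1)) b t q ∧ ¬ Exc g a b n s t q)
    (fun t q _ _ => ⟨fun hc => (Classical.em (Exc g a b n s t q)).imp (fun he => ⟨⟨he, hc.2.1⟩, hc.2.2.1⟩)
      fun he => ⟨hc, he⟩, fun hc => hc.elim (fun he => ⟨he.1.1.1, he.1.2, he.2, he.1.1.2.1⟩)
        fun he => he.1⟩)
    fun t q a1 a2 => a2.2 a1.1.1
  have n5 := nrm_two (B := B) y (rect a r (s (i + 1)) b)
    (fun t q => rect (s i) (s (i + 1)) (s (i + 1)) b t q ∧ q ≤ r) (rect a (s i) (s (i + 1)) b)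
    (fun t q _ _ => by unfold rect; omega) fun t q a1 a2 => by unfold rect at a1 a2; omega
  have m2 := mul_le_mul_of_nonneg_left m1 hD
  have m3 := mul_nonneg hD m0
  linarith

end Crest.Agent.R239
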