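import Crest.Agent.R239.DatB

/-!
# Row 239: masses inside one node

`exc_mass`: if no `i < n` has `s (i+1) < b` the region is empty; otherwise let `m` be the largest such
`i`; every entry has `a < q ≤ s m`. In column `q`, let `t₀` be the first row of the region; then
`q ≤ t₀ - 1` and the column mass is at most `∑_{t₀ ≤ t ≤ b} ν t q = g q (t₀ - 1) - g q b ≤ 2 g q b`.
Sum: `2 (F (s m) b - F a b) ≤ 2 (F (s m) (s (m+1)) - F a b) ≤ 1` by `complete`.
`nonexc_mass`: empty if `s (i+1) = b`. Otherwise fix `q ∈ (s i', s (i'+1)]`, `G k := g q (s k)`,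
`γ := g q b`. For `i' + 1 ≤ k ≤ i`, `quant` with `(q, s k, s (k+1), b)`, `complete k` and
`F a b ≤ F (s k) b` give `G (k+1) - γ ≤ G k / 2`, so `G (i+1) - 2γ ≤ 2⁻¹ ^ (i - i' - 1) * G (i'+2)`
(iterate from `k = i' + 2`). If the column meets the region at a row `t`, then (not exceptional, although
`q ≤ s i` and `s (i+1) < t`) `3 γ < g q (t-1) ≤ G (i+1)`, so the column mass is at most
`G (i+1) - γ ≤ 2 (G (i+1) - 2γ)`. Finally `∑_q G (i'+2) = F (s (i'+1)) (s (i'+2)) - F (s i') (s (i'+2))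
≤ F a b + 1/2 - F a b`.
-/

set_option autoImplicit false

namespace Crest.Agent.R239

open Finset Classical

variable {B N d : ℕ} {ν g F : ℕ → ℕ → ℝ} {a b n : ℕ} {s : ℕ → ℕ}

namespace NodeAX

theorem col_le (h : Dat N d ν g F) (R : ℕ → Prop) {q c e : ℕ} (hq : q ≤ c) (hc : c ≤ e) (he : e ≤ N)
    (hR : ∀ t, R t → c < t ∧ t ≤ e) :
    ∑ t ∈ range B, (if R t then ν t q else 0) ≤ g q c - g q e := by
  rw [← h.col_sum hq hc he, ← sum_filter]
  exact sum_le_sum_of_subset_of_nonneg (fun t ht => mem_Ioc.2 (hR t (mem_filter.1 ht).2))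
    fun t _ _ => h.ν_nonneg t q

theorem mass_le (R : Reg) (x x' : ℕ) (G : ℕ → ℝ)
    (hR : ∀ t q, R t q → x < q ∧ q ≤ x') (hG0 : ∀ q, 0 ≤ G q)
    (hG : ∀ q t₀, R t₀ q → (∀ t, R t q → t₀ ≤ t) →
      ∑ t ∈ range B, (if R t q then ν t q else 0) ≤ G q) :
    mass B ν R ≤ ∑ q ∈ Ioc x x', G q := by
  unfold mass
  rw [sum_comm]
  calc _ ≤ ∑ q ∈ range B, (if q ∈ Ioc x x' then G q else 0) := by
        refine sum_le_sum fun q _ => ?_
        by_cases hq : ∃ t, R t q
        · rw [if_pos (mem_Ioc.2 (hR _ q (Nat.find_spec hq)))]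
          exact hG q _ (Nat.find_spec hq) fun t ht => Nat.find_min' hq ht
        · rw [sum_eq_zero fun t _ => if_neg fun h' => hq ⟨t, h'⟩]
          split_ifs
          · exact hG0 q
          · exact le_rfl
    _ ≤ _ := by
        rw [← sum_filter]
        exact sum_le_sum_of_subset_of_nonneg (fun q hq => (mem_filter.1 hq).2) fun q _ _ => hG0 q

theorem mass_none (R : Reg) (hR : ∀ t q, ¬ R t q) : mass B ν R = 0 :=
  sum_eq_zero fun t _ => sum_eq_zero fun q _ => if_neg (hR t q)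

end NodeAX

open NodeAX

theorem exc_mass (h : Dat N d ν g F) (hB : N < B) (hk : Kids F a b n s) (hb : b ≤ N) :
    mass B ν (Exc g a b n s) ≤ 1 := by
  by_cases hne : ((range n).filter fun i => s (i + 1) < b).Nonempty
  · obtain ⟨m, hm, hmax⟩ := exists_max_image _ id hne
    have hm2 := (mem_filter.1 hm).2
    have ham : a ≤ s m := hk.zero ▸ hk.mono (Nat.zero_le m)
    refine (mass_le _ a (s m) (fun q => 2 * g q b) ?_
      (fun q => by have := h.g_nonneg q b; positivity) ?_).trans ?_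
    · rintro t q ⟨h1, h2, -, i, hi, h3, h4⟩
      exact ⟨h1, h3.trans (hk.mono (hmax i (mem_filter.2 ⟨mem_range.2 hi, by omega⟩)))⟩
    · rintro q t₀ ⟨h1, h2, h5, i, hi, h3, h4⟩ hmin
      have h6 : s i ≤ s (i + 1) := hk.mono (Nat.le_succ i)
      have := col_le (B := B) h (fun t => Exc g a b n s t q) (q := q) (c := t₀ - 1) (e := b)
        (by omega) (by omega) hb (fun t ht => ⟨by have := hmin t ht; omega, ht.2.1⟩)
      linarith
    · rw [← mul_sum, h.g_sum ham (hk.le m)]
      have h1 := h.F_anti' (hk.mono (Nat.le_succ m)) hm2.le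
      have h2 := hk.complete m hm2
      linarith
  · rw [mass_none]
    · exact zero_le_one
    · intro t q hx
      obtain ⟨_, h2, _, i, hi, _, h4⟩ := hx
      exact hne ⟨i, mem_filter.2 ⟨mem_range.2 hi, by omega⟩⟩

theorem nonexc_mass (h : Dat N d ν g F) (hB : N < B) (hk : Kids F a b n s) (hb : b ≤ N)
    {i' i : ℕ} (hi' : i' < i) (hi : i < n) :
    mass B ν (fun t q => rect (s i') (s (i' + 1)) (s (i + 1)) b t q ∧ ¬ Exc g a b n s t q) ≤
      2 * (1 / 2) ^ (i - i') := by
  rcases (hk.le (i + 1)).eq_or_lt with hib | hib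
  · rw [mass_none]
    · positivity
    · intro t q hx
      exact absurd (hib ▸ hx.1.2.2.1) (not_lt.2 hx.1.2.2.2)
  obtain ⟨j, rfl⟩ : ∃ j, i = i' + 1 + j := ⟨i - i' - 1, by omega⟩
  have ha : ∀ k, a ≤ s k := fun k => hk.zero ▸ hk.mono (Nat.zero_le k)
  refine (mass_le _ (s i') (s (i' + 1)) (fun q => 2 * (1 / 2) ^ j * g q (s (i' + 2))) ?_
    (fun q => by have := h.g_nonneg q (s (i' + 2)); positivity) ?_).trans ?_
  · rintro t q ⟨⟨h1, h2, -, -⟩, -⟩
    exact ⟨h1, h2⟩
  · rintro q t₀ ⟨⟨h1, h2, h3, h4⟩, h5⟩ -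
    have hq : ∀ k, i' + 1 ≤ k → q ≤ s k := fun k hk' => h2.trans (hk.mono hk')
    have hγ := h.g_nonneg q b
    have key : ∀ l, l ≤ j → g q (s (i' + 2 + l)) - 2 * g q b ≤ (1 / 2) ^ l * g q (s (i' + 2)) := by
      intro l
      induction l with
      | zero => intro _; simp only [add_zero, pow_zero, one_mul]; linarith
      | succ l ih =>
        intro hl
        have ih := ih (by omega)
        have e1 : s (i' + 2 + l + 1) < b :=
          (hk.mono (by omega : i' + 2 + l + 1 ≤ i' + 1 + j + 1)).trans_lt hib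
        have q1 := h.quant q (s (i' + 2 + l)) (s (i' + 2 + l + 1)) b (hq _ (by omega))
          (hk.mono (Nat.le_succ _)) e1.le
        have q2 := hk.complete _ e1
        have q3 := h.F_mono (ha (i' + 2 + l)) (hk.le _)
        have q4 : (F (s (i' + 2 + l)) (s (i' + 2 + l + 1)) - F (s (i' + 2 + l)) b) *
            g q (s (i' + 2 + l)) ≤ 1 / 2 * g q (s (i' + 2 + l)) :=
          mul_le_mul_of_nonneg_right (by linarith) (h.g_nonneg _ _)
        rw [pow_succ, ← add_assoc]
        linarith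
    have k1 := key j le_rfl
    rw [show i' + 2 + j = i' + 1 + j + 1 by omega] at k1
    have c1 := col_le (B := B) h (fun t => rect (s i') (s (i' + 1)) (s (i' + 1 + j + 1)) b t q ∧
      ¬ Exc g a b n s t q) (q := q) (c := s (i' + 1 + j + 1)) (e := b) (hq _ (by omega)) hib.le hb
      (fun t ht => ⟨ht.1.2.2.1, ht.1.2.2.2⟩)
    have c2 : 3 * g q b < g q (t₀ - 1) := by
      by_contra hc
      exact h5 ⟨(ha i').trans_lt h1, h4, not_lt.1 hc, i' + 1 + j, hi, hq _ (by omega), h3⟩
    have c3 := h.g_anti (q := q) (c := s (i' + 1 + j + 1)) (e := t₀ - 1) (hq _ (by omega))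
      (by omega) (by omega)
    refine le_trans (le_of_eq ?_) (c1.trans (by linarith))
    exact sum_congr rfl fun t _ => by congr
  · have e1 : s (i' + 1 + 1) < b :=
      (hk.mono (by omega : i' + 1 + 1 ≤ i' + 1 + j + 1)).trans_lt hib
    rw [← mul_sum, h.g_sum (hk.mono (Nat.le_succ i')) (hk.mono (by omega : i' + 1 ≤ i' + 2)),
      show i' + 1 + j - i' = j + 1 by omega, pow_succ, mul_assoc]
    have q2 := hk.complete _ e1
    have q3 := h.F_mono (ha i') (hk.le _)
    have q4 := h.F_anti' (hk.mono (by omega : i' ≤ i' + 2)) e1.le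
    refine mul_le_mul_of_nonneg_left (mul_le_mul_of_nonneg_left ?_ (by positivity)) (by norm_num)
    have : s (i' + 1 + 1) = s (i' + 2) := rfl
    rw [this] at q2 q4
    linarith

end Crest.Agent.R239
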