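import Crest.Agent.R239.Defs

/-!
# Row 239: basic facts on `pm`, `ex`, `av`

Easy facts. `pm` is a maximum of norms of linear maps of `β`.
-/

set_option autoImplicit false

namespace Crest.Agent.R239

open Finset Classical

variable {H : Type} [NormedAddCommGroup H] [NormedSpace ℝ H]

theorem pm_nonneg {n : ℕ} (a : Fin n → H) (β : Fin n → ℝ) : 0 ≤ pm a β := by
  exact (norm_nonneg _).trans (le_sup' (fun x =>
    ‖∑ q ∈ univ.filter (fun q : Fin n => (q : ℕ) < x), β q • a q‖) (mem_range.2 n.succ_pos))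

theorem le_pm {n : ℕ} (a : Fin n → H) (β : Fin n → ℝ) (x : ℕ) (hx : x ≤ n) :
    ‖∑ q ∈ univ.filter (fun q : Fin n => (q : ℕ) < x), β q • a q‖ ≤ pm a β := by
  exact le_sup' (fun x => ‖∑ q ∈ univ.filter (fun q : Fin n => (q : ℕ) < x), β q • a q‖)
    (mem_range.2 (Nat.lt_succ_of_le hx))

namespace PmX

theorem pm_le {n : ℕ} (a : Fin n → H) (β : Fin n → ℝ) {c : ℝ}
    (h : ∀ x : ℕ, x ≤ n → ‖∑ q ∈ univ.filter (fun q : Fin n => (q : ℕ) < x), β q • a q‖ ≤ c) :
    pm a β ≤ c :=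
  sup'_le _ _ fun x hx => h x (Nat.lt_succ_iff.1 (mem_range.1 hx))

theorem pm_add {n : ℕ} (a : Fin n → H) (β γ : Fin n → ℝ) : pm a (β + γ) ≤ pm a β + pm a γ :=
  pm_le a _ fun x hx => by
    simp only [Pi.add_apply, add_smul, sum_add_distrib]
    exact (norm_add_le _ _).trans (add_le_add (le_pm a β x hx) (le_pm a γ x hx))

theorem pm_smul {n : ℕ} (a : Fin n → H) (β : Fin n → ℝ) (c : ℝ) : pm a (c • β) ≤ |c| * pm a β :=
  pm_le a _ fun x hx => by
    simp only [Pi.smul_apply, smul_eq_mul, mul_smul, ← smul_sum, norm_smul, Real.norm_eq_abs]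
    exact mul_le_mul_of_nonneg_left (le_pm a β x hx) (abs_nonneg c)

theorem pm_single {n : ℕ} (a : Fin n → H) (i : Fin n) (u : ℝ) :
    pm a (Pi.single i u) ≤ |u| * ‖a i‖ :=
  pm_le a _ fun x _ => by
    simp only [Pi.single_apply, ite_smul, zero_smul, sum_ite_eq']
    split_ifs
    · rw [norm_smul, Real.norm_eq_abs]
    · rw [norm_zero]; positivity

end PmX

open PmX

theorem pm_convex {n : ℕ} (a : Fin n → H) : ConvexOn ℝ Set.univ (pm a) := by
  refine ⟨convex_univ, fun x _ y _ s t hs ht _ => (pm_add a _ _).trans (add_le_add ?_ ?_)⟩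
  · simpa [abs_of_nonneg hs] using pm_smul a x s
  · simpa [abs_of_nonneg ht] using pm_smul a y t

theorem pm_lip {n : ℕ} (a : Fin n → H) (β : Fin n → ℝ) (i : Fin n) (u : ℝ) :
    |pm a (β + Pi.single i u) - pm a β| ≤ |u| * ‖a i‖ := by
  have h1 := pm_add a β (Pi.single i u)
  have h2 := pm_add a (β + Pi.single i u) (Pi.single i (-u))
  have h3 := pm_single a i u
  have h4 := pm_single a i (-u)
  rw [Pi.single_neg, add_neg_cancel_right, ← Pi.single_neg] at h2
  rw [abs_neg] at h4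
  rw [abs_le]
  constructor <;> linarith

theorem ex_convex {n : ℕ} (a : Fin n → H) {b : ℝ} (hb : 0 < b) : ConvexOn ℝ Set.univ (ex a b) := by
  refine ⟨convex_univ, fun x _ y _ s t hs ht hst => ?_⟩
  have h1 := (pm_convex a).2 (Set.mem_univ x) (Set.mem_univ y) hs ht hst
  have h2 := mul_le_mul_of_nonneg_left (le_max_left (pm a x - b) 0) hs
  have h3 := mul_le_mul_of_nonneg_left (le_max_left (pm a y - b) 0) ht
  have h4 := mul_nonneg hs (le_max_right (pm a x - b) 0)
  have h5 := mul_nonneg ht (le_max_right (pm a y - b) 0)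
  have h6 : s * b + t * b = b := by rw [← add_mul, hst, one_mul]
  simp only [ex, smul_eq_mul, ← mul_div_assoc, ← add_div] at h1 ⊢
  exact div_le_div_of_nonneg_right (max_le (by linarith) (by linarith)) hb.le

theorem ex_nonneg {n : ℕ} (a : Fin n → H) {b : ℝ} (hb : 0 < b) (β : Fin n → ℝ) : 0 ≤ ex a b β := by
  exact div_nonneg (le_max_right _ _) hb.le

/-- `(w - 1)₊ ≤ w ^ 4`. -/
theorem ex_le_four {n : ℕ} (a : Fin n → H) {b : ℝ} (hb : 0 < b) (β : Fin n → ℝ) :
    ex a b β ≤ pm a β ^ 4 / b ^ 4 := by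
  unfold ex
  rcases le_total (pm a β) b with h | h
  · rw [max_eq_right (by linarith), zero_div]; positivity
  · have h1 : 1 ≤ pm a β / b := (one_le_div hb).2 h
    rw [max_eq_left (by linarith), ← div_pow, sub_div, div_self hb.ne']
    linarith [le_self_pow₀ h1 (by norm_num : 4 ≠ 0)]

theorem pm_le_of_ex {n : ℕ} (a : Fin n → H) {b : ℝ} (hb : 0 < b) (β : Fin n → ℝ)
    (h : ex a b β ≤ 3) : pm a β ≤ 4 * b := by
  rw [ex, div_le_iff₀ hb] at h
  linarith [le_max_left (pm a β - b) 0]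

/-- If the difference is not zero then one of the two values of `pm` exceeds `b`, so
`pm a β ≥ b - 3 ‖a i‖ ≥ b / 2`; and the difference is at most `6 ‖a i‖ / b`. -/
theorem ex_shift {n : ℕ} (a : Fin n → H) {b : ℝ} (hb : 0 < b) (β : Fin n → ℝ) (i : Fin n)
    (hi : 6 * ‖a i‖ ≤ b) :
    (ex a b (β - Pi.single i 3) - ex a b (β + Pi.single i 3)) ^ 2 ≤
      576 * ‖a i‖ ^ 2 * pm a β ^ 4 / b ^ 6 := by
  have h1 := abs_le.1 (pm_lip a β i 3)
  have h2 := abs_le.1 (pm_lip a β i (-3))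
  rw [Pi.single_neg, ← sub_eq_add_neg, abs_neg] at h2
  rw [abs_of_pos (by norm_num : (0 : ℝ) < 3)] at h1 h2
  unfold ex
  by_cases h : pm a β < b / 2
  · rw [max_eq_right (by linarith), max_eq_right (by linarith), sub_self, zero_pow two_ne_zero]
    positivity
  · have h3 := abs_max_sub_max_le_abs (pm a (β - Pi.single i 3) - b) (pm a (β + Pi.single i 3) - b) 0
    have h4 : |pm a (β - Pi.single i 3) - b - (pm a (β + Pi.single i 3) - b)| ≤ 6 * ‖a i‖ := by
      rw [abs_le]; constructor <;> linarith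
    have h5 := pow_le_pow_left₀ (abs_nonneg _) (h3.trans h4) 2
    have h6 := pow_le_pow_left₀ (by positivity) (not_lt.1 h) 4
    rw [sq_abs] at h5
    rw [← sub_div, div_pow, div_le_div_iff₀ (by positivity) (by positivity)]
    calc _ ≤ (6 * ‖a i‖) ^ 2 * b ^ 6 := by gcongr
      _ = 576 * ‖a i‖ ^ 2 * (b / 2) ^ 4 * b ^ 2 := by ring
      _ ≤ _ := by gcongr

theorem card_box (n : ℕ) : (box n).card = 21 ^ n := by
  simp [box]

theorem av_mono {n : ℕ} {f g : (Fin n → ℤ) → ℝ} (h : ∀ k ∈ box n, f k ≤ g k) : av n f ≤ av n g := by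
  exact div_le_div_of_nonneg_right (sum_le_sum h) (by positivity)

theorem av_const (n : ℕ) (c : ℝ) : av n (fun _ => c) = c := by
  rw [av, sum_const, card_box, nsmul_eq_mul]
  push_cast
  field_simp

theorem av_add {n : ℕ} (f g : (Fin n → ℤ) → ℝ) :
    av n (fun k => f k + g k) = av n f + av n g := by
  simp only [av, sum_add_distrib, add_div]

theorem av_mul {n : ℕ} (c : ℝ) (f : (Fin n → ℤ) → ℝ) :
    av n (fun k => c * f k) = c * av n f := by
  simp only [av, ← mul_sum, mul_div_assoc]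

theorem av_sum {n : ℕ} {L : Type} (I : Finset L) (f : L → (Fin n → ℤ) → ℝ) :
    av n (fun k => ∑ l ∈ I, f l k) = ∑ l ∈ I, av n (f l) := by
  simp only [av, ← sum_div]
  rw [sum_comm]

/-- Jensen (Cauchy–Schwarz). -/
theorem av_sqrt_le {n : ℕ} (f : (Fin n → ℤ) → ℝ) (hf : ∀ k, 0 ≤ f k) :
    av n (fun k => √(f k)) ≤ √(av n f) := by
  refine Real.le_sqrt_of_sq_le ?_
  have h := sq_sum_le_card_mul_sum_sq (s := box n) (f := fun k => √(f k))
  simp only [Real.sq_sqrt (hf _), card_box] at h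
  push_cast at h
  rw [av, av, div_pow, div_le_div_iff₀ (by positivity) (by positivity)]
  calc _ ≤ 21 ^ n * (∑ k ∈ box n, f k) * 21 ^ n := by gcongr
    _ = _ := by ring

/-- The box is symmetric. -/
theorem av_coord {n : ℕ} (i : Fin n) : av n (fun k => (k i : ℝ)) = 0 := by
  have h : ∑ k ∈ box n, (k i : ℝ) = ∑ k ∈ box n, -(k i : ℝ) := by
    have hm : ∀ k ∈ box n, -k ∈ box n := fun k hk => by
      simp only [box, Fintype.mem_piFinset, mem_Icc, Pi.neg_apply] at hk ⊢
      intro j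
      have := hk j
      omega
    exact sum_nbij' (fun k => -k) (fun k => -k) hm hm (fun _ _ => neg_neg _) (fun _ _ => neg_neg _)
      fun k _ => by simp
  rw [sum_neg_distrib] at h
  rw [av, show ∑ k ∈ box n, (k i : ℝ) = 0 by linarith, zero_div]

end Crest.Agent.R239
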