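import Crest.Agent.R239.Defs

/-!
# Row 239: algebra of label systems, `mass` and `nrm`

Easy facts. `Sys.and`: take the union of the two families (all cost terms are nonnegative because the
amplitudes are positive). `nrm_weighted`: in each row, the row sum is the sum of the row sums of the
pieces; Cauchy–Schwarz `(∑ u i)² ≤ (∑ w i) ∑ u i ² / w i`.
-/

set_option autoImplicit false

namespace Crest.Agent.R239

open Finset Classical

variable {B : ℕ} {ν : ℕ → ℕ → ℝ}

namespace SysBX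

theorem ite_iff {P Q : Prop} [Decidable P] [Decidable Q] (h : P ↔ Q) (a : ℝ) :
    (if P then a else 0) = if Q then a else 0 := if_congr h rfl rfl

/-- a sum of indicators of disjoint events -/
theorem sum_ite_disj {ι : Type} (I : Finset ι) (P : ι → Prop) (a : ℝ)
    (hdis : ∀ i ∈ I, ∀ j ∈ I, P i → P j → i = j) :
    ∑ i ∈ I, (if P i then a else 0) = if ∃ i ∈ I, P i then a else 0 := by
  split_ifs with h
  · obtain ⟨i, hi, hP⟩ := h
    rw [sum_eq_single_of_mem i hi fun j hj hji => if_neg fun hPj => hji (hdis j hj i hi hPj hP),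
      if_pos hP]
  · exact sum_eq_zero fun i hi => if_neg fun hP => h ⟨i, hi, hP⟩

theorem cs {ι : Type} (I : Finset ι) (u w : ι → ℝ) (hw : ∀ i ∈ I, 0 < w i) :
    (∑ i ∈ I, u i) ^ 2 ≤ (∑ i ∈ I, w i) * ∑ i ∈ I, u i ^ 2 / w i :=
  sum_sq_le_sum_mul_sum_of_sq_le_mul I (fun i hi => (hw i hi).le)
    (fun i hi => div_nonneg (sq_nonneg _) (hw i hi).le) fun i hi => by
      rw [mul_div_cancel₀ _ (hw i hi).ne']

end SysBX

open SysBX

theorem Sys.mono {c c' : ℕ → ℕ → ℝ} {Φ Φ' : (ℕ → ℕ → ℝ) → ℝ → Prop} (h : Sys B ν c Φ)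
    (hc : ∀ t q, c t q ≤ c' t q) (hΦ : ∀ y D, 0 ≤ D → Φ y D → Φ' y D) : Sys B ν c' Φ' := by
  obtain ⟨F, h1, h2, h3⟩ := h
  exact ⟨F, h1, fun t q => (h2 t q).trans (hc t q), fun y D hD hG => hΦ y D hD (h3 y D hD hG)⟩

theorem Sys.and {c c' : ℕ → ℕ → ℝ} {Φ Φ' : (ℕ → ℕ → ℝ) → ℝ → Prop} (h : Sys B ν c Φ)
    (h' : Sys B ν c' Φ') :
    Sys B ν (fun t q => c t q + c' t q) (fun y D => Φ y D ∧ Φ' y D) := by
  obtain ⟨F, h1, h2, h3⟩ := h
  obtain ⟨F', h1', h2', h3'⟩ := h'
  refine ⟨F ∪ F', fun l hl => (mem_union.1 hl).elim (h1 l) (h1' l), fun t q => ?_,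
    fun y D hD hG => ⟨h3 y D hD fun l hl => hG l (mem_union_left _ hl),
      h3' y D hD fun l hl => hG l (mem_union_right _ hl)⟩⟩
  refine le_trans ?_ (add_le_add (h2 t q) (h2' t q))
  rw [← sum_union_inter]
  refine le_add_of_nonneg_right (sum_nonneg fun l hl => ?_)
  have := (h1 l (mem_inter.1 hl).1).1
  split_ifs
  · positivity
  · exact le_rfl

theorem Sys.all {ι : Type} (I : Finset ι) {c : ι → ℕ → ℕ → ℝ}
    {Φ : ι → (ℕ → ℕ → ℝ) → ℝ → Prop} (h : ∀ i ∈ I, Sys B ν (c i) (Φ i)) :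
    Sys B ν (fun t q => ∑ i ∈ I, c i t q) (fun y D => ∀ i ∈ I, Φ i y D) := by
  induction I using Finset.induction_on with
  | empty => exact ⟨∅, by simp, by simp, by simp⟩
  | insert a I ha ih =>
      refine ((h a (mem_insert_self _ _)).and
        (ih fun i hi => h i (mem_insert_of_mem hi))).mono (fun t q => ?_) fun y D _ hΦ => ?_
      · rw [sum_insert ha]
      · exact (forall_mem_insert _ _ _).2 hΦ

/-- One label of mass at most `m ≤ A`. -/
theorem Sys.single (hν : ∀ t q, 0 ≤ ν t q) (R : Reg) {m A : ℝ} (hA : 0 < A)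
    (hm : mass B ν R ≤ m) (hmA : m ≤ A) :
    Sys B ν (fun t q => if R t q then m ^ 2 / A ^ 3 else 0) (fun y D => Good B y D R A) := by
  refine ⟨{(R, A)}, fun l hl => ?_, fun t q => ?_, fun y D _ hG => hG _ (mem_singleton_self _)⟩
  · rw [mem_singleton.1 hl]
    exact ⟨hA, hm.trans hmA⟩
  · rw [sum_singleton]
    have h0 : 0 ≤ mass B ν R := sum_nonneg fun t _ => sum_nonneg fun q _ => by
      split_ifs
      exacts [hν t q, le_rfl]
    simp only
    split_ifs
    · gcongr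
    · exact le_rfl

theorem mass_nonneg (hν : ∀ t q, 0 ≤ ν t q) (R : Reg) : 0 ≤ mass B ν R := by
  refine sum_nonneg fun t _ => sum_nonneg fun q _ => ?_
  split_ifs
  exacts [hν t q, le_rfl]

theorem mass_congr {R R' : Reg} (h : ∀ t q, t < B → q < B → (R t q ↔ R' t q)) :
    mass B ν R = mass B ν R' := by
  exact sum_congr rfl fun t ht => sum_congr rfl fun q hq =>
    ite_iff (h t q (mem_range.1 ht) (mem_range.1 hq)) _

theorem mass_mono (hν : ∀ t q, 0 ≤ ν t q) {R R' : Reg}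
    (h : ∀ t q, t < B → q < B → R t q → R' t q) : mass B ν R ≤ mass B ν R' := by
  refine sum_le_sum fun t ht => sum_le_sum fun q hq => ?_
  by_cases h1 : R t q
  · rw [if_pos h1, if_pos (h t q (mem_range.1 ht) (mem_range.1 hq) h1)]
  · rw [if_neg h1]
    split_ifs
    exacts [hν t q, le_rfl]

theorem mass_empty {R : Reg} (h : ∀ t q, t < B → q < B → ¬ R t q) : mass B ν R = 0 := by
  exact sum_eq_zero fun t ht => sum_eq_zero fun q hq =>
    if_neg (h t q (mem_range.1 ht) (mem_range.1 hq))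

/-- Column by column. -/
theorem mass_eq_cols (R : Reg) :
    mass B ν R = ∑ q ∈ range B, ∑ t ∈ range B, if R t q then ν t q else 0 := by
  exact sum_comm

/-- Disjoint pieces inside `R`. -/
theorem sum_mass_le (hν : ∀ t q, 0 ≤ ν t q) {ι : Type} (I : Finset ι) (R : Reg) (Rs : ι → Reg)
    (hsub : ∀ i ∈ I, ∀ t q, Rs i t q → R t q)
    (hdis : ∀ i ∈ I, ∀ j ∈ I, ∀ t q, Rs i t q → Rs j t q → i = j) :
    ∑ i ∈ I, mass B ν (Rs i) ≤ mass B ν R := by
  unfold mass
  rw [sum_comm]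
  refine sum_le_sum fun t _ => ?_
  rw [sum_comm]
  refine sum_le_sum fun q _ => ?_
  rw [sum_ite_disj I (fun i => Rs i t q) _ fun i hi j hj => hdis i hi j hj t q]
  split_ifs with h1 h2
  · exact le_rfl
  · obtain ⟨i, hi, h3⟩ := h1
    exact absurd (hsub i hi t q h3) h2
  · exact hν t q
  · exact le_rfl

theorem nrm_nonneg (y : ℕ → ℕ → ℝ) (R : Reg) : 0 ≤ nrm B y R := by
  exact sum_nonneg fun t _ => sq_nonneg _

theorem nrm_congr (y : ℕ → ℕ → ℝ) {R R' : Reg} (h : ∀ t q, t < B → q < B → (R t q ↔ R' t q)) :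
    nrm B y R = nrm B y R' := by
  refine sum_congr rfl fun t ht => ?_
  congr 1
  exact sum_congr rfl fun q hq => ite_iff (h t q (mem_range.1 ht) (mem_range.1 hq)) _

theorem nrm_empty (y : ℕ → ℕ → ℝ) {R : Reg} (h : ∀ t q, t < B → q < B → ¬ R t q) :
    nrm B y R = 0 := by
  refine sum_eq_zero fun t ht => ?_
  rw [sum_eq_zero fun q hq => if_neg (h t q (mem_range.1 ht) (mem_range.1 hq))]
  norm_num

/-- Restricting to a set of rows. -/
theorem nrm_rows_le (y : ℕ → ℕ → ℝ) {R R' : Reg} (P : ℕ → Prop)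
    (h : ∀ t q, t < B → q < B → (R' t q ↔ R t q ∧ P t)) : nrm B y R' ≤ nrm B y R := by
  refine sum_le_sum fun t ht => ?_
  by_cases hP : P t
  · refine le_of_eq ?_
    congr 1
    exact sum_congr rfl fun q hq =>
      ite_iff ((h t q (mem_range.1 ht) (mem_range.1 hq)).trans (and_iff_left hP)) _
  · rw [sum_eq_zero fun q hq => if_neg fun c =>
      hP ((h t q (mem_range.1 ht) (mem_range.1 hq)).1 c).2, zero_pow two_ne_zero]
    exact sq_nonneg _

/-- Covering the rows. -/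
theorem nrm_le_sum_rows (y : ℕ → ℕ → ℝ) {ι : Type} (I : Finset ι) (R : Reg) (P : ι → ℕ → Prop)
    (Rs : ι → Reg) (hcov : ∀ t q, t < B → q < B → R t q → ∃ i ∈ I, P i t)
    (h : ∀ i ∈ I, ∀ t q, t < B → q < B → (Rs i t q ↔ R t q ∧ P i t)) :
    nrm B y R ≤ ∑ i ∈ I, nrm B y (Rs i) := by
  unfold nrm
  rw [sum_comm]
  refine sum_le_sum fun t ht => ?_
  by_cases hP : ∃ i ∈ I, P i t
  · obtain ⟨i, hi, hP⟩ := hP
    refine le_trans (le_of_eq ?_) (single_le_sum
      (f := fun i => (∑ q ∈ range B, if Rs i t q then y t q else 0) ^ 2)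
      (fun i _ => sq_nonneg _) hi)
    congr 1
    exact sum_congr rfl fun q hq =>
      (ite_iff ((h i hi t q (mem_range.1 ht) (mem_range.1 hq)).trans (and_iff_left hP)) _).symm
  · rw [sum_eq_zero fun q hq => if_neg fun c =>
      hP (hcov t q (mem_range.1 ht) (mem_range.1 hq) c), zero_pow two_ne_zero]
    exact sum_nonneg fun i _ => sq_nonneg _

/-- Partition of the entries, weighted Cauchy–Schwarz. -/
theorem nrm_weighted (y : ℕ → ℕ → ℝ) {ι : Type} (I : Finset ι) (R : Reg) (Rs : ι → Reg)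
    (w : ι → ℝ) (hw : ∀ i ∈ I, 0 < w i)
    (h : ∀ t q, t < B → q < B → (R t q ↔ ∃ i ∈ I, Rs i t q))
    (hdis : ∀ i ∈ I, ∀ j ∈ I, ∀ t q, Rs i t q → Rs j t q → i = j) :
    nrm B y R ≤ (∑ i ∈ I, w i) * ∑ i ∈ I, nrm B y (Rs i) / w i := by
  unfold nrm
  simp only [sum_div]
  rw [sum_comm, mul_sum]
  refine sum_le_sum fun t ht => ?_
  refine le_trans (le_of_eq ?_) (cs I (fun i => ∑ q ∈ range B, if Rs i t q then y t q else 0) w hw)
  congr 1
  rw [sum_comm]
  refine sum_congr rfl fun q hq => ?_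
  rw [sum_ite_disj I (fun i => Rs i t q) _ fun i hi j hj => hdis i hi j hj t q]
  exact ite_iff (h t q (mem_range.1 ht) (mem_range.1 hq)) _

theorem nrm_two (y : ℕ → ℕ → ℝ) (R R₁ R₂ : Reg)
    (h : ∀ t q, t < B → q < B → (R t q ↔ R₁ t q ∨ R₂ t q))
    (hdis : ∀ t q, R₁ t q → ¬ R₂ t q) : nrm B y R ≤ 2 * nrm B y R₁ + 2 * nrm B y R₂ := by
  unfold nrm
  rw [mul_sum, mul_sum, ← sum_add_distrib]
  refine sum_le_sum fun t ht => ?_
  have e : (∑ q ∈ range B, if R t q then y t q else 0) =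
      (∑ q ∈ range B, if R₁ t q then y t q else 0) + ∑ q ∈ range B, if R₂ t q then y t q else 0 := by
    rw [← sum_add_distrib]
    refine sum_congr rfl fun q hq => ?_
    rw [ite_iff (h t q (mem_range.1 ht) (mem_range.1 hq))]
    have := hdis t q
    by_cases h1 : R₁ t q <;> by_cases h2 : R₂ t q <;> simp_all
  rw [e]
  nlinarith [sq_nonneg ((∑ q ∈ range B, if R₁ t q then y t q else 0) -
    ∑ q ∈ range B, if R₂ t q then y t q else 0)]

theorem Good.nrm_le {y : ℕ → ℕ → ℝ} {D A : ℝ} {R : Reg} (h : Good B y D R A) :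
    nrm B y R ≤ D * A := by
  refine le_trans (le_of_eq ?_) (h B)
  exact nrm_congr y fun t q _ hq => (and_iff_left hq.le).symm

end Crest.Agent.R239
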