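import Crest.Agent.R239.Comb
import Crest.Agent.R239.LoopB
import Crest.Agent.R239.Lab

/-!
# Row 239: assembly

`transfer` turns a label system for the weighted squared matrix into signs with causal offsets;
`loop_signs` applies it to the closed loop.
-/

set_option autoImplicit false

namespace Crest.Agent.R239

open Finset Classical

theorem transfer (C0 : ℝ) (hC0 : 0 ≤ C0) : ∃ C1 : ℝ, 0 < C1 ∧
    ∀ (B : ℕ) (a : ℕ → ℕ → ℝ) (w : ℕ → ℝ) (ε κ : ℝ) (Φ : (ℕ → ℕ → ℝ) → ℝ → Prop)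
      (c : ℕ → (ℕ → ℝ) → ℝ), 0 < ε → 0 ≤ κ → ε * κ ≤ C0 → (∀ q, ε ≤ w q) →
      (∀ q, ∑ t ∈ range B, a t q ^ 2 ≤ 1) →
      Sys B (fun t q => w q * a t q ^ 2) (fun _ _ => κ) Φ →
      (∀ i (s s' : ℕ → ℝ), (∀ j, j < i → s j = s' j) → c i s = c i s') →
      (∀ i s, |c i s| ≤ 2 / 5) →
      ∃ β : ℕ → ℝ, (∀ i, i < B → β i - c i β = 1 ∨ β i - c i β = -1) ∧
        Φ (fun t q => β q * a t q) (C1 / ε) := by
  obtain ⟨C1, hC1, hB⟩ := thmB C0 hC0
  refine ⟨C1, hC1, ?_⟩
  intro B a w ε κ Φ c hε hκ hεκ hw hcol hS hcau hc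
  obtain ⟨𝓕, h1, h2, h3⟩ := hS
  set ν : ℕ → ℕ → ℝ := fun t q => w q * a t q ^ 2 with hν
  let a' : {l // l ∈ 𝓕} → ℕ → EuclideanSpace ℝ (Fin B) := fun l q =>
    WithLp.toLp 2 fun t : Fin B => if l.1.1 t q then a t q else 0
  have hn : ∀ l q, ‖a' l q‖ ^ 2 = ∑ t ∈ range B, if l.1.1 t q then a t q ^ 2 else 0 := by
    intro l q
    rw [EuclideanSpace.real_norm_sq_eq,
      ← Fin.sum_univ_eq_sum_range (fun t => if l.1.1 t q then a t q ^ 2 else 0) B]
    refine Finset.sum_congr rfl fun t _ => ?_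
    simp only [a']
    split_ifs <;> simp
  have hm0 : ∀ l, 0 ≤ ∑ q ∈ range B, ‖a' l q‖ ^ 2 := fun l =>
    Finset.sum_nonneg fun _ _ => by positivity
  have hm : ∀ l, ∑ q ∈ range B, ‖a' l q‖ ^ 2 ≤ mass B ν l.1.1 / ε := by
    intro l
    rw [le_div_iff₀ hε, mass_eq_cols, Finset.sum_mul]
    refine Finset.sum_le_sum fun q _ => ?_
    rw [hn, Finset.sum_mul]
    refine Finset.sum_le_sum fun t _ => ?_
    split_ifs
    · simp only [hν]; nlinarith [hw q, sq_nonneg (a t q)]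
    · simp
  obtain ⟨β, hβ1, hβ2⟩ := hB (EuclideanSpace ℝ (Fin B)) {l // l ∈ 𝓕} B a'
    (fun l => l.1.2 / ε) c (fun l => div_pos (h1 l.1 l.2).1 hε)
    (fun l => (hm l).trans (div_le_div_of_nonneg_right (h1 l.1 l.2).2 hε.le)) (by
      intro q _
      have key : ∀ l : {l // l ∈ 𝓕}, ‖a' l q‖ ^ 2 * (∑ q' ∈ range B, ‖a' l q'‖ ^ 2) ^ 2 /
          (l.1.2 / ε) ^ 3 ≤ ∑ t ∈ range B, ε * a t q ^ 2 *
            (if l.1.1 t q then mass B ν l.1.1 ^ 2 / l.1.2 ^ 3 else 0) := by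
        intro l
        have hA := (h1 l.1 l.2).1
        have e1 : (∑ q' ∈ range B, ‖a' l q'‖ ^ 2) ^ 2 ≤ (mass B ν l.1.1 / ε) ^ 2 :=
          pow_le_pow_left₀ (hm0 l) (hm l) 2
        calc ‖a' l q‖ ^ 2 * (∑ q' ∈ range B, ‖a' l q'‖ ^ 2) ^ 2 / (l.1.2 / ε) ^ 3
            ≤ ‖a' l q‖ ^ 2 * (mass B ν l.1.1 / ε) ^ 2 / (l.1.2 / ε) ^ 3 := by
              gcongr
          _ = ‖a' l q‖ ^ 2 * (ε * (mass B ν l.1.1 ^ 2 / l.1.2 ^ 3)) := by
              field_simp
          _ = _ := by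
              rw [hn, Finset.sum_mul]
              refine Finset.sum_congr rfl fun t _ => ?_
              split_ifs
              · ring
              · simp
      refine (Finset.sum_le_sum fun l _ => key l).trans ?_
      rw [Finset.sum_comm]
      calc ∑ t ∈ range B, ∑ l : {l // l ∈ 𝓕}, ε * a t q ^ 2 *
            (if l.1.1 t q then mass B ν l.1.1 ^ 2 / l.1.2 ^ 3 else 0)
          ≤ ∑ t ∈ range B, ε * a t q ^ 2 * κ := by
            refine Finset.sum_le_sum fun t _ => ?_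
            rw [← Finset.mul_sum]
            refine mul_le_mul_of_nonneg_left ?_ (by positivity)
            rw [Finset.sum_coe_sort 𝓕
              (fun l => if l.1 t q then mass B ν l.1 ^ 2 / l.2 ^ 3 else 0)]
            exact h2 t q
        _ = ε * κ * ∑ t ∈ range B, a t q ^ 2 := by
            rw [Finset.mul_sum]
            exact Finset.sum_congr rfl fun t _ => by ring
        _ ≤ ε * κ * 1 := mul_le_mul_of_nonneg_left (hcol q) (by positivity)
        _ ≤ C0 := by linarith) hcau hc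
  refine ⟨β, hβ1, h3 _ _ (by positivity) ?_⟩
  intro l hl x
  have h := hβ2 ⟨l, hl⟩ (min (x + 1) B) (min_le_right _ _)
  have e : nrm B (fun t q => β q * a t q) (fun t q => l.1 t q ∧ q ≤ x) =
      ‖∑ q ∈ range (min (x + 1) B), β q • a' ⟨l, hl⟩ q‖ ^ 2 := by
    rw [EuclideanSpace.real_norm_sq_eq, nrm, Finset.sum_range]
    refine Finset.sum_congr rfl fun t _ => ?_
    congr 1
    rw [WithLp.ofLp_sum, Finset.sum_apply]
    symm
    rw [← Finset.sum_subset (s₁ := range (min (x + 1) B)) (s₂ := range B)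
      (Finset.range_subset_range.2 (min_le_right _ _))]
    · refine Finset.sum_congr rfl fun q hq => ?_
      have hq' : q ≤ x := by
        have := Finset.mem_range.1 hq
        omega
      simp only [a', hq', and_true, WithLp.ofLp_smul, Pi.smul_apply, smul_eq_mul]
      split_ifs <;> simp
    · intro q hq hq'
      have h1 := Finset.mem_range.1 hq
      have h2 : ¬ q ≤ x := by
        intro h
        exact hq' (Finset.mem_range.2 (by omega))
      simp [h2]
  rw [e]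
  calc _ ≤ C1 * (l.2 / ε) := h
    _ = C1 / ε * l.2 := by ring

theorem loop_signs : ∃ C : ℝ, 0 ≤ C ∧ ∀ (d N : ℕ) (v : ℕ → Eu d), 1 ≤ d → (∀ t, ‖v t‖ ≤ 1) →
    v 0 = 0 → ∃ σ : ℕ → ℝ, (∀ t, t ≤ N → σ t = 1 ∨ σ t = -1) ∧
      ∀ r, r ≤ N → ‖∑ t ∈ Ioc 0 r, σ t • v t‖ ^ 2 ≤ C * d := by
  obtain ⟨C1, hC1, hT⟩ := transfer 15 (by norm_num)
  set ε : ℝ := min (1 / 8) (2 / (25 * C1)) with hεdef
  have h0 : 0 < ε := lt_min (by norm_num) (by positivity)
  have h1 : ε ≤ 1 / 8 := min_le_left _ _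
  have h2 : ε * C1 ≤ 2 / 25 := by
    have : ε ≤ 2 / (25 * C1) := min_le_right _ _
    rw [le_div_iff₀ (by positivity)] at this
    linarith
  refine ⟨11001 * (C1 / ε), by positivity, ?_⟩
  intro d N v hd hv hv0
  have hD := dat_loop h0 h1 hv hv0 N
  have hd' : (1 : ℝ) ≤ d := by exact_mod_cast hd
  have S1 := comb_sys (B := N + d + 1) hD (by omega) hd
  have S2 := Sys.all (B := N + d + 1) (ν := nu ε v N) (range (N + 1))
    (c := fun t₀ t q => if (fun t' (_ : ℕ) => t' = t₀) t q then (2 * ε) ^ 2 / (2 * ε) ^ 3 else 0)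
    (Φ := fun t₀ y D => Good (N + d + 1) y D (fun t' _ => t' = t₀) (2 * ε)) (by
      intro t₀ ht₀
      have := Sys.single (B := N + d + 1) hD.ν_nonneg (fun t' _ => t' = t₀) (m := 2 * ε)
        (A := 2 * ε) (by positivity)
        (row_mass h0 h1 hv (Nat.lt_succ_iff.1 (Finset.mem_range.1 ht₀))) le_rfl
      convert this)
  have S3 := Sys.single (B := N + d + 1) hD.ν_nonneg (fun t _ => N < t) (m := d) (A := d)
    (by positivity) (fin_mass h0 h1 hv hv0 N) le_rfl
  have S := ((S1.and S2).and S3).mono (c' := fun _ _ => 14 + 1 / (2 * ε))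
    (Φ' := fun y D => ((∀ r, 1 ≤ r → r ≤ N → nrm (N + d + 1) y (rect 0 r r N) ≤ 11000 * D * d) ∧
      ∀ t₀ ∈ range (N + 1), Good (N + d + 1) y D (fun t' _ => t' = t₀) (2 * ε)) ∧
      Good (N + d + 1) y D (fun t _ => N < t) d) (by
      intro t q
      have e1 : (2 * ε) ^ 2 / (2 * ε) ^ 3 = 1 / (2 * ε) := by field_simp
      have e2 : (d : ℝ) ^ 2 / (d : ℝ) ^ 3 ≤ 1 := by
        rw [div_le_one (by positivity)]
        nlinarith [sq_nonneg (d : ℝ)]
      have e3 : ∑ t₀ ∈ range (N + 1), (if t = t₀ then (2 * ε) ^ 2 / (2 * ε) ^ 3 else 0) ≤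
          1 / (2 * ε) := by
        rw [Finset.sum_ite_eq, e1]
        split_ifs
        · exact le_rfl
        · positivity
      have e4 : (if N < t then (d : ℝ) ^ 2 / (d : ℝ) ^ 3 else 0) ≤ 1 := by
        split_ifs
        · exact e2
        · norm_num
      have e5 : (13 : ℝ) + ∑ t₀ ∈ range (N + 1), (if t = t₀ then (2 * ε) ^ 2 / (2 * ε) ^ 3 else 0)
          + (if N < t then (d : ℝ) ^ 2 / (d : ℝ) ^ 3 else 0) ≤ 14 + 1 / (2 * ε) := by linarith
      convert e5) (fun y D _ h => h)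
  let c : ℕ → (ℕ → ℝ) → ℝ := fun i s =>
    max (-(2 / 5)) (min (2 / 5) (ε * inner ℝ (v i) (zz ε v s (i - 1))))
  obtain ⟨β, hβ, ⟨hb1, hb2⟩, hb3⟩ := hT (N + d + 1) (am ε v N) (cw ε v) ε (14 + 1 / (2 * ε)) _ c h0
    (by positivity) (by
      have : ε * (14 + 1 / (2 * ε)) = 14 * ε + 1 / 2 := by field_simp
      rw [this]; linarith) (le_cw h0 h1 hv) (am_col h0 h1 hv N) S (by
      intro i s s' h
      have : zz ε v s (i - 1) = zz ε v s' (i - 1) := by
        rcases Nat.eq_zero_or_pos i with rfl | hi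
        · rfl
        · exact zz_causal ε v s s' _ fun q hq => h q (by omega)
      simp only [c, this]) (by
      intro i s
      simp only [c]
      rw [abs_le]
      exact ⟨le_max_left _ _, max_le (by norm_num) (min_le_left _ _)⟩)
  have hc : ∀ t, 1 ≤ t → t ≤ N → c t β = ε * inner ℝ (v t) (zz ε v β (t - 1)) := by
    intro t ht htN
    have g1 := (hb2 t (Finset.mem_range.2 (by omega))).nrm_le
    rw [row_nrm h0 h1 hv β ht htN] at g1
    set u : ℝ := inner ℝ (v t) (zz ε v β (t - 1))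
    have g2 : C1 / ε * (2 * ε) = 2 * C1 := by field_simp
    have g3 : ε * u ^ 2 ≤ 2 * C1 := by
      nlinarith [le_cw h0 h1 hv t, sq_nonneg u]
    have g4 : (ε * u) ^ 2 ≤ (2 / 5) ^ 2 := by nlinarith
    have g5 := abs_le_of_sq_le_sq' g4 (by norm_num)
    simp only [c]
    rw [min_eq_right g5.2, max_eq_right g5.1]
  have hz : ∀ r, r ≤ N → zz ε v β r = ∑ t ∈ Ioc 0 r, (β t - c t β) • v t := by
    intro r
    induction r with
    | zero => intro _; simp [zz]
    | succ r ih =>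
      intro hr
      rw [Finset.sum_Ioc_succ_top (Nat.zero_le r), ← ih (by omega), hc (r + 1) (by omega) hr]
      simp only [zz, Tm_apply, Nat.add_sub_cancel, sub_smul]
      abel
  refine ⟨fun t => β t - c t β, fun t ht => hβ t (by omega), ?_⟩
  intro r hr
  rcases Nat.eq_zero_or_pos r with rfl | hr0
  · simp only [Ioc_self, Finset.sum_empty, norm_zero]
    have : 0 ≤ 11001 * (C1 / ε) * d := by positivity
    simpa using this
  · rw [← hz r hr, zz_norm h0 h1 hv β hr]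
    have g1 := hb1 r hr0 hr
    have g2 := hb3 r
    linarith

end Crest.Agent.R239
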